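import Vale.Agent.P076N.FL.Defs

/-!
# P076N / FL : the rows (notes/P076/fl.md)
-/

set_option linter.all false

open Finset Vale.Agent.P127 Vale.Agent.P127.Stk
open scoped RealInnerProductSpace

namespace Vale.Agent.P076N.FL

noncomputable section

open Classical

/-! ## abstract rows -/

/-- **ENT**: entropies of dominated laws -/
structure ENT : Prop where
  low : ∀ (Ω α β : Type) [Fintype Ω] (P : Law Ω) (e ρ : ℝ) (X : Ω → α) (Y : Ω → β), Dm P e → 0 < ρ →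
    (∀ ω, cnt (fun ω' => X ω' = X ω ∧ Y ω' = Y ω) ≤ ρ * cnt fun ω' => Y ω' = Y ω) →
    -Real.log ρ - e ≤ hc P X Y
  evt : ∀ (Ω : Type) [Fintype Ω] (P : Law Ω) (e : ℝ) (E : Ω → Prop), Dm P e →
    prE P E * Fintype.card Ω ≤ Real.exp e * cnt E
  rect : ∀ (Ω α β γ : Type) [Fintype Ω] (P : Law Ω) (e : ℝ) (X : Ω → α) (Y : Ω → β) (Z : Ω → γ), Dm P e →
    (∀ ω ω', X ω = X ω' → Y ω = Y ω' → ω = ω') →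
    (∀ ω ω', Z ω = Z ω' → ∃ ω'', X ω'' = X ω ∧ Y ω'' = Y ω' ∧ Z ω'' = Z ω) → mi P X Y Z ≤ e
  det : ∀ (Ω β : Type) [Fintype Ω] (P : Law Ω) (n : ℕ) (X : Ω → Zv n) (Y : Ω → β) (c : ℝ), 0 ≤ c →
    (∀ ω ω', 0 < P.w ω → 0 < P.w ω' → Y ω = Y ω' → ∀ l, |(X ω l : ℝ) - X ω' l| ≤ c) →
    hc P X Y ≤ n * Real.log (2 * c + 1)
  num : ∀ (Ω α β : Type) [Fintype Ω] (P : Law Ω) (X : Ω → α) (Y : Ω → β) (r : ℝ), 0 ≤ r →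
    (∀ ω, 0 < P.w ω → (#((univ.filter fun ω' => 0 < P.w ω' ∧ Y ω' = Y ω).image X) : ℝ) ≤ Real.exp r) →
    hc P X Y ≤ r
  flat : ∀ (Ω α β : Type) [Fintype Ω] (P : Law Ω) (e : ℝ) (X : Ω → α) (Y : Ω → β), Flat P X e → Flat P Y e →
    Fn P Y X → ∀ ω, 0 < P.w ω → (#((univ.filter fun ω' => 0 < P.w ω' ∧ Y ω' = Y ω).image X) : ℝ) ≤
      Real.exp (hc P X Y + 2 * e)
  glue : ∀ (Ω₁ Ω₂ β : Type) [Fintype Ω₁] [Fintype Ω₂] (P₁ : Law Ω₁) (P₂ : Law Ω₂) (B₁ : Ω₁ → β) (B₂ : Ω₂ → β),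
    (∀ s, P₁.pr B₁ s = P₂.pr B₂ s) → ∃ (Ω' : Type) (_ : Fintype Ω') (R : Law Ω') (π₁ : Ω' → Ω₁) (π₂ : Ω' → Ω₂),
      (∀ ω, B₁ (π₁ ω) = B₂ (π₂ ω)) ∧ (∀ ω, R.pr π₁ ω = P₁.w ω) ∧ (∀ ω, R.pr π₂ ω = P₂.w ω) ∧
      ∀ (α γ : Type) (X : Ω₁ → α) (Z : Ω₂ → γ), hc P₁ X B₁ + hc P₂ B₂ Z -
        hc R (fun ω => B₁ (π₁ ω)) (fun ω => (X (π₁ ω), Z (π₂ ω))) ≤ hc R (fun ω => X (π₁ ω)) fun ω => Z (π₂ ω)

/-- **REGA**: regularisation of the uniform law -/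
def REGA : Prop := ∀ (κ Ω : Type) [Fintype κ] [Fintype Ω] [Nonempty Ω] (β : κ → Type) (X : ∀ k, Ω → β k)
  (M : ℕ) (e : ℝ), (∀ k ω, cnt (fun ω' => X k ω' = X k ω) ≤ 2 ^ M) →
  4 * (Fintype.card κ + 1) * ((M : ℝ) + 1) ^ Fintype.card κ ≤ Real.exp e →
  ∃ P : Law Ω, Dm P e ∧ ∀ k, Flat P (X k) e

/-- **LAT**: lattice points -/
structure LAT : Prop where
  strip : ∀ (m : ℕ) (ρ : ℝ), ∃ c : ℝ, 1 ≤ c ∧ ∀ (k : ℕ) (L : ℝ) (p : Pl m) (n : Vc m) (Y : Finset (Zv m)),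
    k ≤ m → 1 ≤ L → (∀ y ∈ Y, (∀ l, |(y l : ℝ) - n l| ≤ L) ∧ InS p k ρ (toV y)) → (#Y : ℝ) ≤ c * L ^ k
  root : ∀ (m : ℕ) (c₁ : ℝ), ∃ c : ℝ, 1 ≤ c ∧ ∀ (D ρ σ : ℕ) (B : ℝ) (X : Finset (Nd m)) (v n : Vc m) (s : ℤ),
    1 ≤ D → WGA B ((D : ℤ) ^ ρ) X → (∀ l, |v l| ≤ 11) →
    (#(X.filter fun x => x.T / (D : ℤ) ^ (ρ + σ) = s ∧
      ∀ l, |(xpos x l : ℝ) - x.T * v l - n l| ≤ c₁ * (D : ℝ) ^ ρ) : ℝ) ≤ c * B * (D : ℝ) ^ (σ + m * ρ)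
  wga : ∀ (m D ρ ρ' : ℕ) (B : ℝ) (X : Finset (Nd m)), 1 ≤ D → ρ ≤ ρ' → WGA B ((D : ℤ) ^ ρ') X →
    WGA B ((D : ℤ) ^ ρ) X
  gph : ∀ (m : ℕ) (B : ℝ) (ℓ : ℤ) (X : Finset (Nd m)), GphA B X → WGA B ℓ X

/-- **NR**: nodes in tubes -/
structure NR : Prop where
  mono : ∀ (m D r : ℕ) (c c' : ℝ) (S S' : Nd m), c ≤ c' → Near D r c S S' → Near D r c' S S'
  refl : ∀ (m D : ℕ) (S : Nd m), Near D 0 0 S S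
  trans : ∀ (m D r r' : ℕ) (c c' : ℝ) (S S' S'' : Nd m), 1 ≤ D → 0 ≤ c → Near D r c S S' →
    Near D r' c' S' S'' → Near D (r + r') (c + c' + 1) S S''
  mid : ∀ (m D r r' : ℕ) (c : ℝ) (S S₁ S₂ : Nd m), 1 ≤ D → Near D r c S S₁ → Near D r c S S₂ →
    S₁.c = S₂.c → S₁.T = S₂.T ∧ ∀ l, |(S₁.o l : ℝ) - S₂.o l| ≤ 2 * c
  chn : ∀ (m D K : ℕ) (x : Nd m) (τ : Zv m) (i j : ℕ), 2 ≤ D → cap D K 0 τ = x.c → i ≤ j → j ≤ K →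
    Near D (j - i) 3 (ch D K 0 x τ i) (ch D K 0 x τ j)

/-- **TSA**: elementary facts on tube systems -/
structure TSA : Prop where
  fl : ∀ (k : ℕ) (ρ c : ℝ) (x x' : Vc k), 0 < ρ → (∀ l, |x l - x' l| ≤ c * ρ) →
    ∀ l, |(flv ρ x l : ℝ) - flv ρ x' l| ≤ c + 1
  fl' : ∀ (k : ℕ) (ρ : ℝ) (x x' : Vc k), 0 < ρ → flv ρ x = flv ρ x' → ∀ l, |x l - x' l| ≤ ρ
  nest : ∀ (k : ℕ) (Ω : Type) [Fintype Ω] (S : TSys Ω k) (p q : ℕ), p ≤ q → ∀ ω ω',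
    (S.tm p ω = S.tm p ω' → S.tm q ω = S.tm q ω') ∧ (S.cel p ω = S.cel p ω' → S.cel q ω = S.cel q ω')
  num : ∀ (k : ℕ) (Ω : Type) [Fintype Ω] (S : TSys Ω k) (p q : ℕ) (E : Finset Ω), p ≤ q →
    (#(E.image (S.cel p)) : ℝ) ≤ 2 ^ ((k + 1) * (q - p)) * #(E.image (S.cel q))
  cel : ∀ (k : ℕ) (Cu : ℝ), ∃ c : ℝ, 0 ≤ c ∧ ∀ (Ω : Type) [Fintype Ω] (S : TSys Ω k) (p q : ℕ), S.Bnd Cu →
    p ≤ q → hc S.P (S.cel q) (fun ω => (S.tm q ω, S.tub p ω)) ≤ c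

/-- **ROT**: a strip in a slice is a strip -/
def ROT : Prop := ∀ (m k : ℕ) (O : Vc m ≃ₗᵢ[ℝ] Vc m) (O' : Vc k ≃ₗᵢ[ℝ] Vc k), 1 ≤ k → k ≤ m →
  ∃ O'' : Vc m ≃ₗᵢ[ℝ] Vc m, ∀ (y : Vc m) (l : Fin m), (k ≤ (l : ℕ) → O'' y l = O y l) ∧
    ∀ l' : Fin k, (l : ℕ) = k - 1 → (l' : ℕ) = k - 1 → O'' y l = O' (sl k O y) l'

/-! ## geometry of the flags -/

variable (m K : ℕ) (C : ℝ)

/-- **CH**: chains -/
structure CH : Prop where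
  T : ∀ (G : St0 m K C) i ω, G.T i ω = (G.x ω).T / (G.D : ℤ) ^ (2 * i)
  c : ∀ (G : St0 m K C) i ω, i ≤ K → (G.S i ω).c = G.cp i ω
  mem : ∀ (G : St0 m K C) i ω, i ≤ K → G.S i ω ∈ G.V i
  cpn : ∀ (G : St0 m K C) i j ω, i ≤ j → j ≤ K → G.cp i ω = dv ((G.D : ℤ) ^ (j - i)) (G.cp j ω)
  vv : ∀ (G : St0 m K C) i j ω l, i ≤ j → j ≤ K →
    0 ≤ G.v j ω l - G.v i ω l ∧ G.v j ω l - G.v i ω l ≤ ((G.D : ℝ) ^ i)⁻¹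
  vb : ∀ (G : St0 m K C) i ω l, i ≤ K → |G.v i ω l| ≤ 11
  near : ∀ (G : St0 m K C) i j ω, i ≤ j → j ≤ K → Near G.D (j - i) 3 (G.S i ω) (G.S j ω)
  ps : ∀ (G : St0 m K C) i ω l, i ≤ K → |G.y i ω l - (G.D : ℝ) ^ i * (G.S i ω).o l| ≤ 3 * (G.D : ℝ) ^ i
  atm : ∀ (G : St0 m K C) j w ω, j + w ≤ K → (atom G.D w (G.S (j + w) ω)).c = G.cp j ω ∧
    ∀ l, |G.y j ω l - (G.D : ℝ) ^ (j + 2 * w) * (atom G.D w (G.S (j + w) ω)).o l| ≤ 5 * (G.D : ℝ) ^ (j + 2 * w)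
  dn : ∀ (G : St0 m K C) i ω ω', i < K → G.S (i + 1) ω = G.S (i + 1) ω' → G.T i ω = G.T i ω' →
    G.b i ω = G.b i ω'
  upb : ∀ (G : St0 m K C) i j ω ω', i < j → j ≤ K → G.b i ω = G.b i ω' → G.cp j ω = G.cp j ω' →
    G.S j ω = G.S j ω'
  ups : ∀ (G : St0 m K C) i j ω ω', i ≤ j → j ≤ K → G.S i ω = G.S i ω' → G.cp j ω = G.cp j ω' →
    G.S j ω = G.S j ω'

/-- **RECT**: the product structure of the flags -/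
structure RECT : Prop where
  ne : ∀ G : St0 m K C, Nonempty G.Ω
  mem : ∀ (G : St0 m K C) i ω, i ≤ K → G.τ ω ∈ UU G.D K G.V i (G.S i ω)
  ext : ∀ (G : St0 m K C) i ω, i ≤ K → ∀ τ' ∈ UU G.D K G.V i (G.S i ω),
    ∃ ω', G.x ω' = G.x ω ∧ G.τ ω' = τ' ∧ G.S i ω' = G.S i ω
  ub : ∀ (G : St0 m K C) i (S S' : Nd m), i < K → ball G.D S = ball G.D S' →
    UU G.D K G.V i S = UU G.D K G.V i S'
  kid : ∀ (G : St0 m K C) i (S : Nd m) c', i < K → c' ∈ below G.D 1 S.c →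
    (UU G.D K G.V i S).filter (fun τ => cap G.D K (i + 1) τ = c') =
      if c' ∈ GG G.D G.V i S then UU G.D K G.V (i + 1) (par G.D S c') else ∅
  uu : ∀ (G : St0 m K C) i, i ≤ K → ∀ S ∈ G.V i,
    G.Gm i K ≤ #(UU G.D K G.V i S) ∧ (#(UU G.D K G.V i S) : ℝ) ≤ 2 ^ (K - i) * G.Gm i K
  top : ∀ (G : St0 m K C) (S : Nd m), UU G.D K G.V K S = {S.c}

/-- **RCN**: the number of flags over a root and a cap -/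
structure RCN : Prop where
  capc : ∀ (G : St0 m K C) i j ω, i ≤ j → j ≤ K →
    cnt (fun ω' => G.cp j ω' = G.cp j ω ∧ G.x ω' = G.x ω) * G.Gm i j ≤
      2 ^ K * cnt fun ω' => G.cp i ω' = G.cp i ω ∧ G.x ω' = G.x ω
  rootc : ∀ (G : St0 m K C) ω, cnt (fun ω' => G.x ω' = G.x ω) * #(G.V 0) ≤ 2 ^ K * Fintype.card G.Ω

/-- **BLK**: blocks -/
structure BLK : Prop where
  all : ∀ G : St0 m K C, G.Blk m 0 K (G.pn m 0 K)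
  nar : ∀ (G : St0 m K C) k J W, k ≤ m → J + W ≤ K → 1 ≤ W → Cons G.D G.V J W → Nar G.D G.V k J W →
    G.Blk k J W (G.pn k J W)
  cons : ∀ (G : St0 m K C) j w, j + w ≤ K → 1 ≤ w → Cons G.D G.V j w → ∀ ω ω', G.b j ω = G.b j ω' →
    atom G.D w (G.S (j + w) ω) = atom G.D w (G.S (j + w) ω')

/-- **APX**: the variables of a jump are close to those of the root -/
structure APX (c : ℝ) : Prop where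
  c1 : 1 ≤ c
  str : ∀ (G : St0 m K C) k J W pn ω, G.Blk k J W pn →
    InS (pn ω) k ((2 * m + 2) / (G.D : ℝ) ^ (J + W)) (G.v K ω) ∧
      ∀ i ≤ J + W, InS (pn ω) k ((2 * m + 2) / (G.D : ℝ) ^ i) (G.v i ω)
  x : ∀ (G : St m K C) s x₀ ω l, G.Jd s →
    |(G.D : ℝ) ^ s.j * (G.tS s x₀).x ω l - sl s.k (G.pn s.k s.J s.W ω).1 (G.y s.j ω) l| ≤
      c * (G.D : ℝ) ^ (s.j + 2 * s.w)
  t : ∀ (G : St m K C) s x₀ ω, G.Jd s →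
    |(G.D : ℝ) ^ (2 * s.j) * (G.tS s x₀).t ω - (G.x ω).T| ≤ (G.D : ℝ) ^ (2 * (s.j + s.w))
  tm : ∀ (G : St m K C) s x₀ x ω, G.Jd s → s.w ≤ x → (G.tS s x₀).tm (G.bt x) ω = G.T (s.j + x) ω
  n : ∀ (G : St m K C) s ω (l : Fin m), G.Jd s → s.k ≤ (l : ℕ) →
    |(G.pn s.k s.J s.W ω).1 (yv G.D s (G.ξ s ω)) l - (G.pn s.k s.J s.W ω).1
      (toV (xpos (G.x ω)) - ((G.x ω).T : ℝ) • (G.pn s.k s.J s.W ω).2) l| ≤ c * (G.D : ℝ) ^ (s.j + 2 * s.w)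
  bnd : ∀ (G : St m K C) s x₀, G.Jd s → (G.tS s x₀).Bnd m
  side : ∀ (G : St m K C) s x₀ ω, G.Jd s →
    (G.tS s x₀).side ω = (G.cp s.j ω, G.pn s.k s.J s.W ω, G.Nn s (s.j + x₀) ω)
  pn : ∀ (G : St0 m K C) k J W pn i ω ω', G.Blk k J W pn → J ≤ i → i ≤ J + W → G.S i ω = G.S i ω' →
    pn ω = pn ω'
  rot : ∀ (O : Vc m ≃ₗᵢ[ℝ] Vc m) (y : Vc m) (r : ℝ), ((∀ l, |y l| ≤ r) → ∀ l, |O y l| ≤ m * r) ∧
    ((∀ l, |O y l| ≤ r) → ∀ l, |y l| ≤ m * r)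

/-- **DT1**: normal digits and states -/
structure DT1 (c : ℝ) : Prop where
  c0 : 0 ≤ c
  st : ∀ (G : St m K C) s x, G.Jd s → 2 * s.w ≤ x → hc G.P (G.st s x) (G.S s.j) ≤ c
  nn : ∀ (G : St m K C) s i, G.Jd s → s.j + 2 * s.w ≤ i → i ≤ s.J + s.W → hc G.P (G.Nn s i) (G.S i) ≤ c
  nest : ∀ (G : St m K C) s i i' ω ω', i ≤ i' → G.Nn s i ω = G.Nn s i ω' → G.Nn s i' ω = G.Nn s i' ω'
  dig : ∀ (G : St m K C) s i i', s.k ≤ m → i ≤ i' →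
    hc G.P (G.Nn s i) (G.Nn s i') ≤ ((m : ℝ) - s.k) * ((i' : ℝ) - i) * G.lg
  win : ∀ (G : St m K C) s i ω ω', G.Jd s → s.j + 2 * s.w ≤ i → i < s.J + s.W → G.b i ω = G.b i ω' →
    G.Nn s i ω = G.Nn s i ω' → InS ((G.pn s.k s.J s.W ω).1, toV (G.S i ω).o) s.k c (toV (G.S i ω').o)

/-- **DT2**: tubes and directions -/
structure DT2 (c : ℝ) : Prop where
  c0 : 0 ≤ c
  tub : ∀ (G : St m K C) s x₀ i, G.Jd s → 2 * s.w ≤ x₀ → s.j ≤ i → i ≤ s.j + 2 * x₀ → i ≤ s.J + s.W →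
    hc G.P (fun ω => ((G.tS s x₀).tub (G.bt x₀) ω, G.cp s.j ω, G.pn s.k s.J s.W ω))
      (fun ω => (G.S i ω, G.τ ω)) ≤ c
  dir : ∀ (G : St m K C) s x₀ y, G.Jd s → s.j + y ≤ s.J + s.W →
    hc G.P (G.cp (s.j + y)) (fun ω => ((G.tS s x₀).dir (y * G.N) ω, G.ξ s ω)) ≤ c
  bp : ∀ (G : St m K C) s x, G.Jd s → s.k = m → 2 * s.w ≤ x → s.j + 2 * x ≤ s.J + s.W →
    hc G.P (G.st s x) (fun ω => (G.T (s.j + x) ω, G.S (s.j + 2 * x) ω)) ≤ c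

/-- **DT3**: flags with the same state -/
structure DT3 (c : ℝ) : Prop where
  c0 : 0 ≤ c
  st : ∀ (G : St m K C) s x ω ω', G.Jd s → 2 * s.w ≤ x → G.st s x ω = G.st s x ω' →
    G.cp s.j ω = G.cp s.j ω' ∧ G.T (s.j + x) ω = G.T (s.j + x) ω' ∧
      ∀ l, |G.y s.j ω l - G.y s.j ω' l| ≤ c * (G.D : ℝ) ^ (s.j + 2 * x)
  near : ∀ (G : St m K C) s x ω ω', G.Jd s → 2 * s.w ≤ x → s.j + 2 * x ≤ K → G.st s x ω = G.st s x ω' →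
    Near G.D (2 * x) c (G.S s.j ω) (G.S (s.j + 2 * x) ω')
  fib : ∀ (G : St m K C) s x₀ x ω ω', G.Jd s → x₀ ≤ K → x ≤ K → G.zn s x₀ x ω = G.zn s x₀ x ω' →
    ∀ l, |(xpos (G.x ω) l : ℝ) - xpos (G.x ω') l| ≤ c * (G.D : ℝ) ^ (3 * K)

/-- **REG**: the regular law -/
def REG : Prop := ∃ c : ℝ, ∀ G : St0 m K C, ∃ (P : Law G.Ω) (e : ℝ) (h1 : 1 ≤ e) (h2 : Dm P e),
  e ≤ c * (1 + Real.log G.N) ∧ St.Flt ⟨G, P, e, h1, h2⟩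

/-- **BRD**: broadness in the slice -/
def BRD : Prop := ∀ (G : St m K C) s x₀ (β : ℝ), G.Jd s → Brd G.D K G.V β (s.k - 1) s.j s.w →
  (G.tS s x₀).Brd (s.k - 1) (s.w * G.N) (Real.exp G.e * β)

/-! ## one level -/

/-- **BK**: alive nodes in a ball and a normal window -/
def BK : Prop := ∀ ρ : ℝ, ∃ c : ℝ, 0 ≤ c ∧ ∀ (G : St m K C) k J W pn i ω (n : Vc m), G.Blk k J W pn → J ≤ i →
  i < J + W → (#((G.V i).filter fun S => ball G.D S = G.b i ω ∧ InS ((pn ω).1, n) k ρ (toV S.o)) : ℝ) ≤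
    Real.exp (c + (k - G.φ i) * G.lg)

/-- **LV**: the numbers of one level -/
structure LV (c : ℝ) : Prop where
  c0 : 0 ≤ c
  lg : ∀ G : St m K C, 1 ≤ G.lg ∧ Real.exp G.lg = G.D
  a0 : ∀ (G : St m K C) i, 0 ≤ G.a i ∧ G.a i ≤ 1 + m / 2
  g0 : ∀ (G : St m K C) i, i < K → 0 ≤ G.g i ∧ G.φ i * G.lg ≤ G.g i * G.lg + c
  ty : ∀ (G : St m K C) k J W pn i, G.Blk k J W pn → J ≤ i → i < J + W → G.g i * G.lg ≤ k * G.lg + c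
  a1 : ∀ (G : St m K C) i, i < K → (2 + G.δ i) * G.lg - G.tE i ≤ 2 * G.a i * G.lg ∧
    2 * G.a i * G.lg ≤ (2 + G.δ i) * G.lg - G.tE i + c
  dig : ∀ (G : St m K C) i i', i ≤ i' → hc G.P (G.T i) (G.T i') ≤ 2 * ((i' : ℝ) - i) * G.lg
  gm : ∀ (G : St m K C) i j, j ≤ K → 0 < G.Gm i j ∧ Real.log (G.Gm i j) = G.GA i j * G.lg

/-- **MK**: the Markov property, entropies of caps and roots -/
structure MK (c : ℝ) : Prop where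
  c0 : 0 ≤ c
  b : ∀ (G : St m K C) i, i < K → mi G.P G.x G.τ (G.b i) ≤ G.e
  s : ∀ (G : St m K C) i, i ≤ K → mi G.P G.x G.τ (G.S i) ≤ G.e
  cap : ∀ (G : St m K C) i j, i ≤ j → j ≤ K →
    G.GA i j * G.lg - c * G.e ≤ hc G.P (G.cp j) fun ω => (G.cp i ω, G.x ω)
  root : ∀ G : St m K C, Real.log #(G.V 0) - c * G.e ≤ G.P.H G.x ∧ G.P.H G.x ≤ Real.log #(G.V 0)

/-- **STD**: the entropy along a chain; the mass -/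
structure STD (c : ℝ) : Prop where
  c0 : 0 ≤ c
  ch : ∀ (G : St m K C) i j, i ≤ j → j ≤ K →
    |hc G.P (G.S i) (G.S j) - ((m + 2) * ((j : ℝ) - i) - G.ΦA i j - 2 * G.AA i j) * G.lg| ≤ c * G.e
  mass : ∀ G : St m K C, Real.log (G.A 0 ^ 2 * #(G.V 0)) ≤ G.P.H (G.S K) +
    Real.log (G.A K ^ 2 * (G.D : ℝ) ^ (K * m)) + (2 * K - 2 * G.AA 0 K) * G.lg + c * G.e
  top : ∀ G : St m K C, 0 < G.Q ∧
    G.P.H (G.S K) + Real.log (G.A K ^ 2 * (G.D : ℝ) ^ (K * m)) ≤ Real.log (C * G.Q)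

/-- **TN**: time digits and normal digits -/
def TN (c : ℝ) : Prop := 0 ≤ c ∧ ∀ (G : St m K C) s i i' (β : Type) (Y : G.Ω → β) (r : ℝ), G.Jd s →
  s.j + 2 * s.w ≤ i → i ≤ i' → i' ≤ s.J + s.W → 0 ≤ r →
  (∀ l, i < l → l ≤ i' → hc G.P Y (fun ω => (G.S l ω, G.τ ω)) ≤ r) →
  (((m : ℝ) - s.k + 2) * ((i' : ℝ) - i) - 2 * G.AA i i') * G.lg - c * (r + G.e) ≤
    hc G.P (fun ω => (G.T i ω, G.Nn s i ω)) fun ω => (G.T i' ω, G.Nn s i' ω, Y ω)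

/-! ## jumps -/

/-- **DEC**: the decomposition of the cost -/
structure DEC (c : ℝ) : Prop where
  c0 : 0 ≤ c
  nu : ∀ (G : St m K C) s x x', G.Jd s → x ≤ x' →
    0 ≤ G.ν s x x' ∧ G.ν s x x' ≤ ((m : ℝ) - s.k) * ((x' : ℝ) - x) * G.lg
  dec : ∀ (G : St m K C) s x x', G.Jd s → 2 * s.w ≤ x → x ≤ x' →
    |(G.cost s x' - G.cost s x) * G.lg + G.ν s x x' + (G.tS s x).hB (G.bt x) (G.bt x') -
      (2 * (s.k + 1) + ((m : ℝ) - s.k)) * ((x' : ℝ) - x) * G.lg| ≤ c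
  triv : ∀ (G : St m K C) s x x', G.Jd s → x ≤ x' →
    G.cost s x' - G.cost s x ≤ 2 * (m + 1) * ((x' : ℝ) - x)
  top : ∀ (G : St m K C) s x, G.Jd s → G.cost s x ≤ 2 * (m + 1) * x
  side : ∀ (G : St m K C) s x₀ x p q, G.Jd s → x₀ ≤ x → (G.tS s x₀).hB p q ≤ (G.tS s x).hB p q
  zn : ∀ (G : St m K C) s x₀ x x', x ≤ x' → Fn G.P (G.zn s x₀ x') (G.zn s x₀ x) ∧
    hc G.P (G.zn s x₀ x) (G.zn s x₀ x') = (G.tS s x₀).hB (G.bt x) (G.bt x')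

/-- **HT**: the time digits on the tubes; the directions -/
structure HT (c : ℝ) : Prop where
  c0 : 0 ≤ c
  one : ∀ (G : St m K C) s x x', G.Jd s → 2 * s.w ≤ x → x ≤ x' → x' ≤ 2 * x → s.j + x' ≤ s.J + s.W →
    (((m : ℝ) - s.k + 2) * ((x' : ℝ) - x) - 2 * G.AA (s.j + x) (s.j + x')) * G.lg - G.ν s x x' - c * G.e ≤
      (G.tS s x).hT (G.bt x) (G.bt x) (G.bt x')
  two : ∀ (G : St m K C) s x₀ x x', G.Jd s → s.k = m → 2 * s.w ≤ x₀ → x₀ ≤ x → x ≤ x' → x' ≤ 2 * x₀ →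
    s.j + x' ≤ s.J + s.W → (2 * ((x' : ℝ) - x) - 2 * G.AA (s.j + x) (s.j + x')) * G.lg - c * G.e ≤
      (G.tS s x₀).hT (G.bt x₀) (G.bt x) (G.bt x')
  dir : ∀ (G : St m K C) s x₀ y, G.Jd s → s.j + y ≤ s.J + s.W →
    G.GA s.j (s.j + y) * G.lg - c * G.e ≤ hc G.P ((G.tS s x₀).dir (y * G.N)) (G.ξ s)

/-- **JMP**: the link of a jump; the path in the ball -/
structure JMP (c : ℝ) : Prop where
  c0 : 0 ≤ c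
  jmp : ∀ (G : St m K C) s x, G.Jd s → 2 * s.w ≤ x → s.j + 2 * x ≤ s.J + s.W →
    G.LK c s.j s.j (s.j + 2 * x)
      (((m + 2) * (2 * x) - G.cost s x - 2 * G.AA (s.j + x) (s.j + 2 * x)) * G.lg - c * G.e)
  bp : ∀ (G : St m K C) s x, G.Jd s → s.k = m → 2 * s.w ≤ x → s.j + 2 * x ≤ s.J + s.W →
    G.cost s x * G.lg ≤ (G.ΦA s.j (s.j + 2 * x) + 2 * G.AA s.j (s.j + 2 * x)) * G.lg + c * G.e

/-- **PJJ**: pair counting for a jump -/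
def PJJ (c : ℝ) : Prop := 0 ≤ c ∧ ∀ (G : St m K C) s x₀ x₁ x₂ (g : ℝ), G.Jd s → s.k = m → 2 * s.w ≤ x₀ →
  x₀ ≤ x₁ → x₁ < x₂ → x₂ ≤ 2 * x₀ → s.j + x₂ ≤ s.J + s.W → 0 ≤ g →
  G.AA (s.j + x₁) (s.j + x₂) ≤ g * ((x₂ : ℝ) - x₁) →
  G.GA s.j (s.j + 2 * (x₁ - x₀)) * G.lg ≤ (2 * m * ((x₂ : ℝ) - x₀) - (G.cost s x₂ - G.cost s x₀) +
    2 * G.AA (s.j + x₀) (s.j + x₂) + 2 * m * g * ((x₁ : ℝ) - x₀)) * G.lg + c * G.e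

/-! ## links -/

/-- **GLU**: gluing of links -/
structure GLU : Prop where
  mono : ∀ (G : St m K C) c c' r r' i j h h', c ≤ c' → r' ≤ r → r ≤ K → h' ≤ h → G.LK c r i j h →
    G.LK c' r' i j h'
  std : ∀ (G : St m K C) r i j, i ≤ j → j ≤ K → G.LK 3 r i j (hc G.P (G.S i) (G.S j))
  glue : ∀ (G : St m K C) c c' r i j l h h', 0 ≤ c → r ≤ j → i ≤ j → j ≤ l → l ≤ K → G.LK c r i j h →
    G.LK c' r j l h' → G.LK (c + c' + 1) r i l (h + h' - m * Real.log (4 * c + 1))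
  path : ∀ cn : ℝ, 0 ≤ cn → ∃ c : ℝ, 0 ≤ c ∧ ∀ (G : St m K C) i j z, Path (G.El cn) i j z → j ≤ K →
    i ≤ j ∧ G.LK c i i j (((m + 2) * ((j : ℝ) - i) - z) * G.lg - c)

/-- **GP**: the graph condition bounds the entropy of the links -/
def GP : Prop := ∀ cn B : ℝ, 0 ≤ cn → 1 ≤ B → ∃ c : ℝ, 0 ≤ c ∧
  (∀ (G : St m K C) r ρ h, G.Wg B → ρ ≤ K → G.LK cn r 0 ρ h → h ≤ (m + 1) * ρ * G.lg + c) ∧
  ∀ (G : St m K C) r s x h, GphA B (G.V 0) → G.Jd s → 2 * s.w ≤ x → G.LK cn r 0 s.j h →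
    h + hc G.P (G.S s.j) (G.st s x) ≤ ((m + 1) * s.j + 2 * m * x) * G.lg + c

/-- **LT1**: entropies of the tube system of a link -/
def LT1 : Prop := ∀ cn B : ℝ, 0 ≤ cn → 1 ≤ B → ∃ c : ℝ, 0 ≤ c ∧
  ∀ (G : St m K C) r j h (L : G.LD cn r 0 j h), G.Wg B → j ≤ K →
    L.ts.Bnd (11 * m) ∧ h - m * j * G.lg - c ≤ L.ts.hT 0 0 (j * G.N) ∧
    h - j * G.lg - c ≤ hc L.R L.ts.ξ (L.ts.cel 0) ∧
    (GphA B (G.V 0) → hc L.R L.ts.ξ L.ts.side ≤ 2 * m * j * G.lg + c) ∧ Fn L.R L.ts.side (L.ts.cel 0) ∧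
    ∀ ω ω', L.ts.side ω = L.ts.side ω' →
      ‖L.ts.x ω - L.ts.x ω'‖ ≤ (m + 1) * 2 ^ (j * G.N) ∧ |L.ts.t ω - L.ts.t ω'| ≤ (m + 1) * 2 ^ (j * G.N)

/-- **LT2**: the directions of the tube system of a link -/
def LT2 : Prop := ∃ c : ℝ, 0 ≤ c ∧ ∀ (G : St m K C) cn r j h (L : G.LD cn r 0 j h), 1 ≤ m → r ≤ j → j ≤ K →
  (∀ y ≤ r, L.ts.Brd (m - 1) (y * G.N) (Real.exp (c * G.e + (((m : ℝ) - 1) * y - G.GA 0 y) * G.lg))) ∧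
  (Flat G.P G.x G.e → ∀ (y n : ℕ) a q, y ≤ r → y * G.N ≤ n → n ≤ j * G.N →
    L.R.pr (fun ω => (L.ts.ξ ω, L.ts.dir n ω)) (a, q) ≤ Real.exp (c * G.e - G.GA 0 y * G.lg) * L.R.pr L.ts.ξ a)

/-- **LT3**: plates -/
def LT3 : Prop := ∀ cn : ℝ, 0 ≤ cn → ∃ c : ℝ, 0 ≤ c ∧ ∀ (G : St m K C) r j h (L : G.LD cn r 0 j h), j ≤ K →
  (∀ x ∈ G.V 0, ∀ l, |xpos x l| ≤ 4 * ((2 : ℤ) ^ G.N) ^ (2 * K)) →
  L.R.H L.ts.side ≤ 2 * (m + 1) * ((K : ℝ) - j) * G.lg + c ∧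
  (#(univ.image (G.S K)) : ℝ) ≤ Real.exp (2 * m * K * G.lg + c) ∧
  ∀ (c₀ p v b : ℝ) (ν : Vc m) (E : Finset L.Ω'), NoPl G.F c₀ → ‖ν‖ = 1 → 1 ≤ p →
    Real.log p + ((K : ℝ) - j) * G.lg + c ≤ c₀ * K * G.lg →
    (∀ ω ∈ E, 0 < L.R.w ω ∧ |⟪ν, L.ts.u ω⟫ - v| ≤ p / 2 ^ (j * G.N) ∧
      |⟪ν, L.ts.x ω⟫ - v * L.ts.t ω - b| ≤ p) →
    Real.log #(E.image fun ω => G.S K (L.π₂ ω)) + Real.log (G.A K ^ 2 * (G.D : ℝ) ^ (K * m)) ≤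
      Real.log (C * G.Q) - c₀ * K * G.lg

/-- **A3P**: the profile -/
def A3P : Prop := ∃ c : ℝ, 0 ≤ c ∧ ∀ (G : St m K C) (a τ : ℕ), a ≤ K → 1 ≤ τ →
  Real.log #(G.V 0) ≤ Real.log (#((G.V 0).image fun x => (dv τ (xpos x), x.T / τ)) * prof m ((G.D : ℝ) ^ a) τ) +
    ((m + 2) * a - G.ΦA 0 a - 2 * G.AA 0 a + (m * a - G.GA 0 a)) * G.lg + c * G.e

/-- **SET**: the setting (the initial alive sets `V₀` come from `P076N.prep` or a variant) -/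
def SET : Prop := ∀ (η θ : ℝ) (Tr : Finset (ℕ × ℕ × ℕ)), 1 ≤ C → 0 < η → 0 < θ →
  ∃ N₀ : ℕ, ∀ N ≥ N₀, ∀ (Q α : ℝ) (F : Amp m (2 ^ N) K C Q) (V₀ : ℕ → Finset (Nd m)), 0 < α → (V₀ 0).Nonempty →
    (∀ x ∈ V₀ 0, (∀ l, |x.c l| ≤ 10) ∧ 0 ≤ x.T ∧ x.T < ((2 ^ N : ℕ) : ℤ) ^ (2 * K) ∧
      α ≤ F.a 0 x (UU (2 ^ N) K V₀ 0 x)) → (∀ S ∈ V₀ K, F.a K S {S.c} ≤ α * ((2 : ℝ) ^ N) ^ K) →
    ∃ (G : St m K C) (β : ℝ), G.N = N ∧ G.Q = Q ∧ (∀ c, NoPl F c → NoPl G.F c) ∧ (∀ i, G.V i ⊆ V₀ i) ∧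
      G.Sm θ β ∧ G.Typ Tr β ∧ G.Flt ∧ α ≤ ((2 : ℝ) ^ N) ^ η * G.A 0 ∧
      (#(V₀ 0) : ℝ) ≤ ((2 : ℝ) ^ N) ^ η * #(G.V 0)

/-! ## rows whose first constants do not depend on `K` -/

/-- **LWJ**: Loomis-Whitney for a jump -/
def LWJ : Prop := ∀ ε : ℝ, 0 < ε → ∃ ε' : ℝ, 0 < ε' ∧ ∀ (K : ℕ) (C : ℝ), ∃ θ : ℝ, 0 < θ ∧
  ∀ (G : St m K C) s x x' (β : ℝ), G.Sm θ β → G.Jd s → Brd G.D K G.V β (s.k - 1) s.j s.w → 2 * s.w ≤ x →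
    x ≤ x' → x' ≤ 2 * x → s.j + x' ≤ s.J + s.W → (s.w : ℝ) ≤ ε' * ((x' : ℝ) - x) →
    (G.cost s x' - G.cost s x) * G.lg + s.k * (((m : ℝ) - s.k) * ((x' : ℝ) - x) * G.lg - G.ν s x x') ≤
      (2 * (s.k + 1) * G.AA (s.j + x) (s.j + x') + ε * ((x' : ℝ) - x)) * G.lg

/-- **LWA**: the axiom `lw` -/
def LWA : Prop := ∀ ε : ℝ, 0 < ε → ∃ Ml : ℕ, ∀ (K : ℕ) (C : ℝ), ∃ θ : ℝ, 0 < θ ∧
  ∀ (G : St m K C) s x x' (β : ℝ), G.Sm θ β → G.Jd s → Brd G.D K G.V β (s.k - 1) s.j s.w → 2 * s.w ≤ x →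
    Ml * s.w ≤ x → x ≤ x' → x' ≤ 2 * x → s.j + x' ≤ s.J + s.W →
    G.cost s x' ≤ G.cost s x + 2 * (s.k + 1) * G.AA (s.j + x) (s.j + x') + ε * x

/-- **RC**: near equality bounds the number of cells -/
def RC : Prop := ∀ (ε : ℝ) (M : ℕ), 0 < ε → ∃ (er : ℝ) (y₀ : ℕ), 0 < er ∧ ∀ (K : ℕ) (C : ℝ), ∃ θ : ℝ, 0 < θ ∧
  ∀ (G : St m K C) s x₀ y (κ β : ℝ), G.Sm θ β → G.Flt → G.Jd s → Brd G.D K G.V β (s.k - 1) s.j s.w →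
    2 * s.w ≤ x₀ → y₀ ≤ y → (s.w : ℝ) ≤ er * y → M * y ≤ x₀ → s.j + x₀ + M * y ≤ s.J + s.W → 0 ≤ κ → κ ≤ 1 →
    (∀ x x', x₀ ≤ x → x ≤ x' → x' ≤ x₀ + M * y →
      |G.AA (s.j + x) (s.j + x') - (1 - κ) * ((x' : ℝ) - x)| ≤ er * y ∧
      2 * (s.k + 1) * (1 - κ) * ((x' : ℝ) - x) - er * y ≤ G.cost s x' - G.cost s x) →
    ∀ a b : ℕ, G.bt x₀ ≤ a → a ≤ b → b ≤ G.bt x₀ + M * G.bt y → ∀ ω, 0 < G.P.w ω →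
      (#((univ.filter fun ω' => 0 < (G.tS s x₀).P.w ω' ∧ (G.tS s x₀).cel b ω' = (G.tS s x₀).cel b ω ∧
        (G.tS s x₀).side ω' = (G.tS s x₀).side ω).image ((G.tS s x₀).cel a)) : ℝ) ≤
        Real.exp ((s.k + 1) * κ * ((b : ℝ) - a) * Real.log 2 + ε * G.bt y)

/-- **RNG**: the axiom `ring` -/
def RNG : Prop := ∀ γ σ : ℝ, 0 < γ → 0 < σ → ∃ (M y₀ : ℕ) (er : ℝ), 1 ≤ M ∧ 0 < er ∧ ∀ (K : ℕ) (C : ℝ),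
  ∃ θ : ℝ, 0 < θ ∧ ∀ (G : St m K C) s x₀ y (κ β : ℝ), G.Sm θ β → G.Flt → G.Jd s →
    Brd G.D K G.V β (s.k - 1) s.j s.w → 2 * s.w ≤ x₀ → y₀ ≤ y → (s.w : ℝ) ≤ er * y → M * y ≤ x₀ →
    s.j + x₀ + M * y ≤ s.J + s.W → γ ≤ κ → κ ≤ 1 - γ →
    (∀ x x', x₀ ≤ x → x ≤ x' → x' ≤ x₀ + M * y →
      |G.AA (s.j + x) (s.j + x') - (1 - κ) * ((x' : ℝ) - x)| ≤ er * y ∧
      2 * (s.k + 1) * (1 - κ) * ((x' : ℝ) - x) - er * y ≤ G.cost s x' - G.cost s x) →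
    σ * y ≤ G.GA s.j (s.j + 2 * y) → False

/-- **FLX**: the numeric facts hold -/
def FLX : Prop := ∃ O : Orc, ∀ π : Par, π.Pos → ∀ C B : ℝ, 1 ≤ B → ∃ cn θ : ℝ, 0 ≤ cn ∧ 0 < θ ∧
  ∀ (G : St m π.K C) (β : ℝ) (gr : Prop), G.Sm θ β → G.Typ π.Tr β → G.Flt → G.Wg B →
    (gr → GphA B (G.V 0)) → Ax m gr O π (G.dat cn)

/-- **A2**: near equality forces a plate -/
def A2 : Prop := ∀ c₀ : ℝ, 0 < c₀ → ∃ η' : ℝ, 0 < η' ∧ ∀ θ : ℝ, 0 < θ → ∃ ε : ℝ, 0 < ε ∧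
  ∀ (K : ℕ) (C B cn : ℝ), 1 ≤ B → 0 ≤ cn → 1 ≤ ε * K → ∃ θ' : ℝ, 0 < θ' ∧ ∀ (G : St m K C) (w j : ℕ),
    G.e ≤ θ' * G.lg → G.Flt → GphA B (G.V 0) →
    (∀ x ∈ G.V 0, ∀ l, |xpos x l| ≤ 4 * ((2 : ℤ) ^ G.N) ^ (2 * K)) → NoPl G.F c₀ → θ * K ≤ w → w ≤ j →
    j ≤ K → (1 - η') * K ≤ j → G.LK cn w 0 j (((m + 1) * j - 2 * ε * K) * G.lg) →
    (∀ y ≤ w, ((m : ℝ) - 1) * y - ε * K ≤ G.GA 0 y) →
    G.P.H (G.S K) + Real.log (G.A K ^ 2 * (G.D : ℝ) ^ (K * m)) ≤ Real.log (C * G.Q) - c₀ / 2 * K * G.lg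

/-- **A3D**: near equality forces full density -/
def A3D : Prop := ∀ η : ℝ, 0 < η → ∃ ε : ℝ, 0 < ε ∧ ∀ (K a : ℕ) (C B cn : ℝ), 1 ≤ B → 0 ≤ cn → 1 ≤ ε * K →
  K = (m + 2) * a → ∃ θ' : ℝ, 0 < θ' ∧ ∀ G : St m K C, G.e ≤ θ' * G.lg → G.Wg B →
    G.LK cn a 0 K (((m + 1) * K - 2 * ε * K) * G.lg) → (∀ y ≤ a, (m : ℝ) * y - ε * K ≤ G.GA 0 y) →
    (2 * m + 1 - η) * K * G.lg ≤ Real.log #(G.V 0)

/-! ## bundles of hypotheses -/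

/-- the abstract rows and the geometry -/
structure B0 : Prop where
  ent : ENT
  lat : LAT
  nr : NR
  tsa : TSA
  ch : ∀ K C, CH m K C
  rect : ∀ K C, RECT m K C
  rcn : ∀ K C, RCN m K C
  blk : ∀ K C, BLK m K C
  apx : ∀ K C, ∃ c, APX m K C c

/-- the determinations and the rows of one level -/
structure B1 : Prop extends B0 m where
  dt1 : ∀ K C, ∃ c, DT1 m K C c
  dt2 : ∀ K C, ∃ c, DT2 m K C c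
  dt3 : ∀ K C, ∃ c, DT3 m K C c
  bk : ∀ K C, BK m K C
  lv : ∀ K C, ∃ c, LV m K C c
  mkv : ∀ K C, ∃ c, MK m K C c
  brd : ∀ K C, BRD m K C

/-- the entropy rows -/
structure B2 : Prop extends B1 m where
  std : ∀ K C, ∃ c, STD m K C c
  tn : ∀ K C, ∃ c, TN m K C c
  dec : ∀ K C, ∃ c, DEC m K C c
  ht : ∀ K C, ∃ c, HT m K C c
  gl : ∀ K C, GLU m K C

/-- the signatures of the rows -/
structure Sig : Prop where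
  ent : ENT
  rega : REGA
  lat : LAT
  nr : NR
  tsa : ENT → TSA
  rot : ROT
  ch : NR → ∀ m K C, CH m K C
  rect : ∀ m K C, CH m K C → RECT m K C
  rcn : ∀ m K C, CH m K C → RECT m K C → RCN m K C
  blk : ∀ m K C, CH m K C → BLK m K C
  apx : ∀ m K C, CH m K C → ∃ c, APX m K C c
  dt1 : ∀ m, B0 m → ∀ K C, ∃ c, DT1 m K C c
  dt2 : ∀ m, B0 m → ∀ K C, ∃ c, DT2 m K C c
  dt3 : ∀ m, B0 m → ∀ K C, ∃ c, DT3 m K C c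
  bk : ∀ m, B0 m → ∀ K C, BK m K C
  lv : ∀ m, B0 m → ∀ K C, BK m K C → ∃ c, LV m K C c
  mkv : ∀ m, B0 m → ∀ K C c, LV m K C c → ∃ c, MK m K C c
  brd : ∀ m, B0 m → ROT → ∀ K C, BRD m K C
  reg : ∀ m, B1 m → REGA → ∀ K C, REG m K C
  std : ∀ m, B1 m → ∀ K C, ∃ c, STD m K C c
  tn : ∀ m, B1 m → ∀ K C, ∃ c, TN m K C c
  dec : ∀ m, B1 m → ∀ K C, ∃ c, DEC m K C c
  ht : ∀ m, B1 m → ∀ K C c, TN m K C c → ∃ c, HT m K C c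
  gl : ∀ m, B1 m → ∀ K C, GLU m K C
  gp : ∀ m, B1 m → ∀ K C, GP m K C
  lt1 : ∀ m, B1 m → ∀ K C, LT1 m K C
  lt2 : ∀ m, B1 m → ∀ K C, LT2 m K C
  lt3 : ∀ m, B2 m → ∀ K C, LT3 m K C
  jmp : ∀ m, B2 m → ∀ K C, ∃ c, JMP m K C c
  pjj : ∀ m, B2 m → StPJ m → ∀ K C, ∃ c, PJJ m K C c
  a3p : ∀ m, B2 m → ∀ K C, A3P m K C
  set : ∀ m, StVS m → ∀ K C, REG m K C → SET m K C
  lwj : ∀ m, B2 m → (∀ k, StLW k) → LWJ m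
  lwa : ∀ m, B2 m → LWJ m → LWA m
  rc : ∀ m, B2 m → LWJ m → RC m
  rng : ∀ m, B2 m → (∀ k, 1 ≤ k → StRING k) → RC m → RNG m
  flx : ∀ m, B2 m → (∀ K C, ∃ c, JMP m K C c) → (∀ K C, ∃ c, PJJ m K C c) → (∀ K C, GP m K C) → LWA m →
    RNG m → FLX m
  a2 : ∀ m, 1 ≤ m → B2 m → (∀ K C, LT1 m K C) → (∀ K C, LT2 m K C) → (∀ K C, LT3 m K C) → StPLAN m → A2 m
  a3d : ∀ m, 1 ≤ m → B2 m → (∀ K C, LT1 m K C) → (∀ K C, LT2 m K C) → StLW m → A3D m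
  at1 : ∀ m, 2 ≤ m → B2 m → (∀ K C, SET m K C) → FLX m → N1 m → AT1 m
  at2 : ∀ m, 2 ≤ m → B2 m → (∀ K C, SET m K C) → FLX m → A2 m → N2 m → AT2 m
  at3 : ∀ m, 2 ≤ m → B2 m → (∀ K C, SET m K C) → FLX m → A3D m → (∀ K C, A3P m K C) → N3 m → AT3 m
  at4 : ∀ m, 2 ≤ m → B2 m → (∀ K C, SET m K C) → FLX m → N3 m → AT4 m

namespace Sig

variable (h : Sig)
include h

theorem b0 : B0 m := ⟨h.ent, h.lat, h.nr, h.tsa h.ent, h.ch h.nr m, fun K C => h.rect m K C (h.ch h.nr m K C),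
  fun K C => h.rcn m K C (h.ch h.nr m K C) (h.rect m K C (h.ch h.nr m K C)),
  fun K C => h.blk m K C (h.ch h.nr m K C), fun K C => h.apx m K C (h.ch h.nr m K C)⟩

theorem b1 : B1 m := ⟨h.b0 m, h.dt1 m (h.b0 m), h.dt2 m (h.b0 m), h.dt3 m (h.b0 m), h.bk m (h.b0 m),
  fun K C => h.lv m (h.b0 m) K C (h.bk m (h.b0 m) K C),
  fun K C => (h.lv m (h.b0 m) K C (h.bk m (h.b0 m) K C)).elim (h.mkv m (h.b0 m) K C), h.brd m (h.b0 m) h.rot⟩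

theorem b2 : B2 m := ⟨h.b1 m, h.std m (h.b1 m), h.tn m (h.b1 m), h.dec m (h.b1 m),
  fun K C => (h.tn m (h.b1 m) K C).elim (h.ht m (h.b1 m) K C), h.gl m (h.b1 m)⟩

theorem set' (v : StVS m) (K : ℕ) (C : ℝ) : SET m K C :=
  h.set m v K C (h.reg m (h.b1 m) h.rega K C)

theorem flx' (l : ∀ k, StLW k) (p : ∀ k, StPJ k) (r : ∀ k, 1 ≤ k → StRING k) : FLX m :=
  h.flx m (h.b2 m) (h.jmp m (h.b2 m)) (h.pjj m (h.b2 m) (p m)) (h.gp m (h.b1 m))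
    (h.lwa m (h.b2 m) (h.lwj m (h.b2 m) l)) (h.rng m (h.b2 m) r (h.rc m (h.b2 m) (h.lwj m (h.b2 m) l)))

theorem at1' : 2 ≤ m → StVS m → (∀ k, StLW k) → (∀ k, StPJ k) → (∀ k, 1 ≤ k → StRING k) → N1 m → AT1 m :=
  fun hm v l p r => h.at1 m hm (h.b2 m) (h.set' m v) (h.flx' m l p r)

theorem at2' : 3 ≤ m → StVS m → (∀ k, StLW k) → (∀ k, StPJ k) → (∀ k, 1 ≤ k → StRING k) → StPLAN m → N2 m →
    AT2 m := fun hm v l p r q => h.at2 m (by omega) (h.b2 m) (h.set' m v) (h.flx' m l p r)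
  (h.a2 m (by omega) (h.b2 m) (h.lt1 m (h.b1 m)) (h.lt2 m (h.b1 m)) (h.lt3 m (h.b2 m)) q)

theorem at3' : 2 ≤ m → StVS m → (∀ k, StLW k) → (∀ k, StPJ k) → (∀ k, 1 ≤ k → StRING k) → N3 m → AT3 m :=
  fun hm v l p r => h.at3 m hm (h.b2 m) (h.set' m v) (h.flx' m l p r)
    (h.a3d m (by omega) (h.b2 m) (h.lt1 m (h.b1 m)) (h.lt2 m (h.b1 m)) (l m)) (h.a3p m (h.b2 m))

theorem at4' : 2 ≤ m → StVS m → (∀ k, StLW k) → (∀ k, StPJ k) → (∀ k, 1 ≤ k → StRING k) → N3 m → AT4 m :=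
  fun hm v l p r => h.at4 m hm (h.b2 m) (h.set' m v) (h.flx' m l p r)

end Sig

end

end Vale.Agent.P076N.FL
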