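import Vale.Agent.P076N.FL.Spec

/-!
# P076N / FL : the row A2 (near equality forces a plate)
-/

set_option linter.all false

open Finset Vale.Agent.P127 Vale.Agent.P127.Stk
open scoped RealInnerProductSpace

namespace Vale.Agent.P076N.FL

noncomputable section

namespace A2x

theorem l2 : (1 : ℝ) / 2 ≤ Real.log 2 ∧ Real.log 2 ≤ 1 := by
  have h1 := Real.log_two_gt_d9
  have h2 := Real.log_two_lt_d9
  constructor <;> linarith

/-- the cells between a point and its side information -/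
theorem cel_le {Ω : Type} [Fintype Ω] {k : ℕ} (S : TSys Ω k) (h : Fn S.P S.side (S.cel 0)) :
    hc S.P (S.cel 0) S.side + hc S.P S.ξ (S.cel 0) ≤ hc S.P S.ξ S.side := by
  have h1 := hc_pair S.P (S.cel 0) S.ξ S.side
  have h2 : hc S.P (fun ω => (S.cel 0 ω, S.ξ ω)) S.side ≤ hc S.P S.ξ S.side := by
    refine hc_mono_left S.P ?_
    intro ω ω' _ _ e
    have e1 : S.ξ ω = S.ξ ω' := congrArg Prod.fst e
    refine Prod.ext ?_ e1
    simp only [TSys.cel, TSys.tm, TSys.x, TSys.t, e1]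
  have h3 : hc S.P S.ξ (S.cel 0) ≤ hc S.P S.ξ (fun ω => (S.cel 0 ω, S.side ω)) := by
    refine hc_mono_right S.P S.ξ ?_
    intro ω ω' p p' e
    exact Prod.ext e (h ω ω' p p' e)
  linarith

theorem tm_le {Ω : Type} [Fintype Ω] {k : ℕ} (S : TSys Ω k) (b : ℕ) :
    S.hT 0 0 b ≤ hc S.P (S.tm 0) (fun ω => (S.tub 0 ω, S.side ω)) := by
  unfold TSys.hT
  refine hc_mono_right S.P _ ?_
  intro ω ω' _ _ e
  exact congrArg Prod.snd e

theorem H_le {Ω α β : Type} [Fintype Ω] (P : Law Ω) (Z : Ω → α) (Y : Ω → β) :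
    P.H Z ≤ P.H Y + hc P Z Y := by
  unfold hc
  have := P.H_mono (X := fun ω => (Z ω, Y ω)) (Y := Z) (fun ω ω' e => congrArg Prod.fst e)
  linarith

theorem exp_pow (a : ℝ) (n : ℕ) : Real.exp a / 2 ^ n = Real.exp (a - n * Real.log 2) := by
  rw [Real.exp_sub, Real.exp_nat_mul, Real.exp_log (by norm_num)]

theorem rp (a : ℝ) : (2 : ℝ) ^ a = Real.exp (a * Real.log 2) := by
  rw [Real.rpow_def_of_pos (by norm_num), mul_comm]

variable {m K : ℕ} {C : ℝ}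

theorem lg_bd (G : St m K C) : G.lg ≤ G.N ∧ (G.N : ℝ) ≤ 2 * G.lg := by
  have hlg : G.lg = G.N * Real.log 2 := rfl
  have hN0 : (0 : ℝ) ≤ G.N := Nat.cast_nonneg _
  rw [hlg]
  constructor <;> nlinarith [l2.1, l2.2]

theorem jl (G : St m K C) (j : ℕ) : ((j * G.N : ℕ) : ℝ) * Real.log 2 = j * G.lg := by
  have hlg : G.lg = G.N * Real.log 2 := rfl
  rw [hlg]
  push_cast
  ring

theorem big {S c e l : ℝ} (hS : 0 < S) (hc : c ≤ S) (h1 : 1 ≤ e) (he : e ≤ 1 / S * l) :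
    S ≤ l ∧ c * e ≤ l := by
  rw [one_div, inv_mul_eq_div, le_div_iff₀ hS] at he
  constructor <;> nlinarith

/-- the directions in bits -/
theorem dir_bd (G : St m K C) (hm : 1 ≤ m) (w y : ℕ) (c U e : ℝ) (hy : y ≤ w * G.N)
    (hGA : ∀ y ≤ w, ((m : ℝ) - 1) * y * G.lg - U ≤ G.GA 0 y * G.lg) (hc : c ≤ U) (hU : G.lg ≤ U)
    (he : ((m : ℝ) + 1) * U ≤ e) :
    y / G.N ≤ w ∧ y / G.N * G.N ≤ y ∧
      Real.exp (c - G.GA 0 (y / G.N) * G.lg) ≤ Real.exp e / 2 ^ ((m - 1) * y) := by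
  have hm' : (1 : ℝ) ≤ m := by exact_mod_cast hm
  have hNp : 0 < G.N := by have := G.N4; omega
  have hlg : G.lg = G.N * Real.log 2 := rfl
  have y1 : y / G.N ≤ w := by
    rw [Nat.div_le_iff_le_mul_add_pred hNp]
    rw [mul_comm] at hy
    omega
  have y4 : y ≤ (y / G.N + 1) * G.N := by
    have := Nat.lt_div_mul_add (a := y) hNp
    rw [add_mul, one_mul]
    exact this.le
  refine ⟨y1, Nat.div_mul_le_self _ _, ?_⟩
  rw [exp_pow]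
  refine Real.exp_le_exp.2 ?_
  have a2 := hGA (y / G.N) y1
  have a3 : (y : ℝ) * Real.log 2 ≤ (((y / G.N : ℕ) : ℝ) + 1) * G.lg := by
    have : (y : ℝ) ≤ (((y / G.N : ℕ) : ℝ) + 1) * G.N := by exact_mod_cast y4
    rw [hlg, ← mul_assoc]
    exact mul_le_mul_of_nonneg_right this (by linarith [l2.1])
  have a4 : (((m - 1) * y : ℕ) : ℝ) = ((m : ℝ) - 1) * y := by
    push_cast [Nat.cast_sub hm]
    ring
  rw [a4]
  have a5 := mul_le_mul_of_nonneg_left a3 (sub_nonneg.2 hm')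
  have a6 := mul_le_mul_of_nonneg_left hU (sub_nonneg.2 hm')
  nlinarith

theorem cnt_bd (G : St m K C) (j : ℕ) (c : ℝ) (hj : (K : ℝ) ≤ 2 * j) (hj1 : (1 : ℝ) ≤ j) (hc : c ≤ G.lg)
    (hl : 0 < G.lg) :
    Real.exp (2 * m * K * G.lg + c) ≤ 2 ^ ((4 * (m : ℝ) + 2) * ((j * G.N : ℕ) : ℝ)) := by
  rw [rp, mul_assoc (4 * (m : ℝ) + 2), jl]
  refine Real.exp_le_exp.2 ?_
  have a1 : (K : ℝ) * G.lg ≤ 2 * j * G.lg := by gcongr
  have a2 : G.lg ≤ j * G.lg := by nlinarith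
  have a3 : (m : ℝ) * (K * G.lg) ≤ m * (2 * j * G.lg) := by gcongr
  nlinarith

open Classical in
/-- the output of the plate lemma -/
theorem out (G : St m K C) {cn : ℝ} {w j : ℕ} {h : ℝ} (L : G.LD cn w 0 j h) (c₀ c η : ℝ) (hc₀ : 0 < c₀)
    (hη0 : 0 < η) (hη : 16 * ((m : ℝ) + 1) * η ≤ c₀) (hjK : j ≤ K) (hj : (1 - η) * K ≤ j) (hl : 0 < G.lg)
    (hcc : c ≤ c₀ / 16 * (K * G.lg)) (hN : NoPl G.F c₀)
    (f1 : L.R.H L.ts.side ≤ 2 * (m + 1) * ((K : ℝ) - j) * G.lg + c)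
    (f3 : ∀ (c₀ p v b : ℝ) (ν : Vc m) (E : Finset L.Ω'), NoPl G.F c₀ → ‖ν‖ = 1 → 1 ≤ p →
      Real.log p + ((K : ℝ) - j) * G.lg + c ≤ c₀ * K * G.lg →
      (∀ ω ∈ E, 0 < L.R.w ω ∧ |⟪ν, L.ts.u ω⟫ - v| ≤ p / 2 ^ (j * G.N) ∧
        |⟪ν, L.ts.x ω⟫ - v * L.ts.t ω - b| ≤ p) →
      Real.log #(E.image fun ω => G.S K (L.π₂ ω)) + Real.log (G.A K ^ 2 * (G.D : ℝ) ^ (K * m)) ≤
        Real.log (C * G.Q) - c₀ * K * G.lg)
    (ν : Vc m) (v b : ℝ) (E : Finset L.Ω') (hν : ‖ν‖ = 1)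
    (hE : ∀ ω ∈ E, 0 < L.R.w ω ∧
      |⟪ν, L.ts.u ω⟫ - v| ≤ 2 ^ (c₀ / 16 * ((j * G.N : ℕ) : ℝ)) / 2 ^ (j * G.N) ∧
      |⟪ν, L.ts.x ω⟫ - v * L.ts.t ω - b| ≤ 2 ^ (c₀ / 16 * ((j * G.N : ℕ) : ℝ)))
    (hout : hc L.R (fun ω => G.S K (L.π₂ ω)) L.ts.side - c₀ / 16 * ((j * G.N : ℕ) : ℝ) ≤
      Real.log #(E.image fun ω => G.S K (L.π₂ ω))) :
    G.P.H (G.S K) + Real.log (G.A K ^ 2 * (G.D : ℝ) ^ (K * m)) ≤
      Real.log (C * G.Q) - c₀ / 2 * K * G.lg := by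
  have hjK' : (j : ℝ) ≤ K := by exact_mod_cast hjK
  have hm0 : (0 : ℝ) ≤ m := Nat.cast_nonneg _
  have hKl : 0 ≤ (K : ℝ) * G.lg := by positivity
  have hKj : ((K : ℝ) - j) * G.lg ≤ η * (K * G.lg) := by
    rw [← mul_assoc]
    exact mul_le_mul_of_nonneg_right (by linarith) hl.le
  have hηK : ((m : ℝ) + 1) * (η * (K * G.lg)) ≤ c₀ / 16 * (K * G.lg) := by
    rw [← mul_assoc]
    exact mul_le_mul_of_nonneg_right (by linarith) hKl
  have hηK0 : 0 ≤ (m : ℝ) * (η * (K * G.lg)) := by positivity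
  have hjl' : (j : ℝ) * G.lg ≤ K * G.lg := by gcongr
  have k6 : 0 ≤ c₀ * (K * G.lg) := by positivity
  have g := f3 c₀ ((2 : ℝ) ^ (c₀ / 16 * ((j * G.N : ℕ) : ℝ))) v b ν E hN hν
    (Real.one_le_rpow (by norm_num) (by positivity)) ?_ hE
  · have k1 := H_le L.R (fun ω => G.S K (L.π₂ ω)) L.ts.side
    have k2 : L.R.H (fun ω => G.S K (L.π₂ ω)) = G.P.H (G.S K) := H_law_aux L.R G.P L.π₂ L.m₂ (G.S K)
    have k3 : c₀ / 16 * ((j * G.N : ℕ) : ℝ) ≤ c₀ / 16 * (K * (2 * G.lg)) := by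
      push_cast
      have := (lg_bd G).2
      gcongr
    have k4 := mul_le_mul_of_nonneg_left hKj (by linarith : 0 ≤ (m : ℝ) + 1)
    linarith
  · rw [Real.log_rpow (by norm_num), mul_assoc, jl]
    have : c₀ / 16 * ((j : ℝ) * G.lg) ≤ c₀ / 16 * (K * G.lg) := by gcongr
    linarith

/-- the unit `U = ε K lg` -/
theorem unit (G : St m K C) (j : ℕ) (ε εP c₀ : ℝ) (hε0 : 0 < ε) (hεK : 1 ≤ ε * K)
    (hε1 : 8 * ((m : ℝ) + 1) * ε ≤ εP) (hε2 : ε ≤ c₀ / 16) (hj : (K : ℝ) ≤ 2 * j) (hl : 0 < G.lg) :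
    G.lg ≤ ε * K * G.lg ∧ 4 * ((m : ℝ) + 1) * (ε * K * G.lg) ≤ εP * ((j * G.N : ℕ) : ℝ) ∧
      ε * K * G.lg ≤ c₀ / 16 * (K * G.lg) := by
  refine ⟨by nlinarith, ?_, ?_⟩
  · push_cast
    have hNl := (lg_bd G).1
    have a1 : (K : ℝ) * G.lg ≤ 2 * j * G.N := by
      calc (K : ℝ) * G.lg ≤ (2 * j) * G.lg := by gcongr
        _ ≤ (2 * j) * G.N := by gcongr
    calc 4 * ((m : ℝ) + 1) * (ε * K * G.lg) = 4 * ((m : ℝ) + 1) * ε * (K * G.lg) := by ring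
      _ ≤ 4 * ((m : ℝ) + 1) * ε * (2 * j * G.N) := by gcongr
      _ = (8 * ((m : ℝ) + 1) * ε) * (j * G.N) := by ring
      _ ≤ εP * (j * G.N) := by gcongr
  · rw [mul_assoc]
    gcongr

theorem jbd {K j : ℕ} {ε η : ℝ} (hεK : 1 ≤ ε * K) (hη : η ≤ 1 / 2) (hj : (1 - η) * K ≤ j) :
    (K : ℝ) ≤ 2 * j ∧ (1 : ℝ) ≤ j := by
  have hKp : (0 : ℝ) < K := by
    rcases Nat.eq_zero_or_pos K with h | h
    · subst h
      norm_num at hεK
    · exact_mod_cast h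
  have hj2 : (K : ℝ) ≤ 2 * j := by nlinarith
  have hj1 : 1 ≤ j := by
    have : (0 : ℝ) < j := by linarith
    exact_mod_cast this
  exact ⟨hj2, by exact_mod_cast hj1⟩

end A2x

open A2x

theorem a2 : ∀ m, 1 ≤ m → B2 m → (∀ K C, LT1 m K C) → (∀ K C, LT2 m K C) → (∀ K C, LT3 m K C) →
    StPLAN m → A2 m := by
  intro m hm hB h1 h2 h3 hP c₀ hc₀
  have hm' : (1 : ℝ) ≤ m := by exact_mod_cast hm
  refine ⟨min (1 / 2) (c₀ / (16 * (m + 1))), lt_min (by norm_num) (by positivity), ?_⟩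
  intro θ hθ
  obtain ⟨εP, hεP, K₀, hPl⟩ := hP (c₀ / 16) θ (11 * m) (4 * m + 2) (by positivity) hθ
  refine ⟨min (εP / (8 * (m + 1))) (c₀ / 16), lt_min (by positivity) (by positivity), ?_⟩
  intro K C B cn hB1 hcn hεK
  set ε := min (εP / (8 * ((m : ℝ) + 1))) (c₀ / 16) with hε
  set η := min (1 / 2 : ℝ) (c₀ / (16 * ((m : ℝ) + 1))) with hη
  have hε0 : 0 < ε := lt_min (by positivity) (by positivity)
  have hε1 : 8 * ((m : ℝ) + 1) * ε ≤ εP := by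
    have : ε ≤ εP / (8 * ((m : ℝ) + 1)) := min_le_left _ _
    rwa [le_div_iff₀ (by positivity), mul_comm] at this
  have hε2 : ε ≤ c₀ / 16 := min_le_right _ _
  have hη1 : η ≤ 1 / 2 := min_le_left _ _
  have hη2 : 16 * ((m : ℝ) + 1) * η ≤ c₀ := by
    have : η ≤ c₀ / (16 * ((m : ℝ) + 1)) := min_le_right _ _
    rwa [le_div_iff₀ (by positivity), mul_comm] at this
  have hη0 : 0 < η := lt_min (by norm_num) (by positivity)
  clear_value ε η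
  obtain ⟨c1, hc1, H1⟩ := h1 K C cn B hcn hB1
  obtain ⟨c2, hc2, H2⟩ := h2 K C
  obtain ⟨c3, hc3, H3⟩ := h3 K C cn hcn
  have hK0 : (0 : ℝ) ≤ K₀ := Nat.cast_nonneg _
  refine ⟨1 / (c1 + c2 + c3 + K₀ + 1), by positivity, ?_⟩
  intro G w j he hF hG hx hN hw hwj hjK hj hL hGA
  obtain ⟨L⟩ := hL
  obtain ⟨hbig, hce⟩ := big (c := c2) (by positivity) (by linarith) G.e1 he
  have hlg0 : 0 < G.lg := by linarith
  obtain ⟨hj2, hj1⟩ := jbd hεK hη1 hj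
  obtain ⟨hU1, hU2, hU3⟩ := unit G j ε εP c₀ hε0 hεK hε1 hε2 hj2 hlg0
  obtain ⟨b1, b2, b3, b4, b5, b6⟩ := H1 G w j _ L (hB.lat.gph _ _ _ _ hG) hjK
  obtain ⟨-, d2⟩ := H2 G cn w j _ L hm hwj hjK
  obtain ⟨f1, f2, f3⟩ := H3 G w j _ L hjK hx
  have hjK' : (j : ℝ) ≤ K := by exact_mod_cast hjK
  have hmU := mul_le_mul_of_nonneg_right hm' (hlg0.le.trans hU1)
  clear H1 H2 H3 h1 h2 h3 hP
  refine Exists.elim (hPl (j * G.N) (w * G.N) (εP * ((j * G.N : ℕ) : ℝ)) L.Ω' L.ts (Nd m)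
    (fun ω => G.S K (L.π₂ ω)) ?k0 ?th ?wk ?e0 le_rfl b1 ?sd ?ct ?ce ?tm ?dr) ?_
  case k0 =>
    have a1 := mul_le_mul_of_nonneg_right hj1 (Nat.cast_nonneg G.N : (0 : ℝ) ≤ G.N)
    have : (K₀ : ℝ) ≤ ((j * G.N : ℕ) : ℝ) := by
      push_cast
      linarith [(lg_bd G).1]
    exact_mod_cast this
  case th =>
    push_cast
    calc θ * ((j : ℝ) * G.N) ≤ θ * (K * G.N) := by gcongr
      _ = θ * K * G.N := by ring
      _ ≤ w * G.N := by gcongr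
  case wk => exact Nat.mul_le_mul_right _ hwj
  case e0 => positivity
  case sd =>
    intro ω ω' _ _ e
    obtain ⟨g1, g2⟩ := b6 ω ω' e
    have : ((m : ℝ) + 1) * 2 ^ (j * G.N) ≤ (4 * m + 2) * 2 ^ (j * G.N) :=
      mul_le_mul_of_nonneg_right (by linarith) (by positivity)
    exact ⟨g1.trans this, g2.trans this⟩
  case ct =>
    intro s
    refine le_trans ?_ (f2.trans (cnt_bd G j c3 hj2 hj1 (by linarith) hlg0))
    refine Nat.cast_le.2 (card_le_card ?_)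
    intro z hz
    simp only [mem_image, mem_filter, mem_univ, true_and] at hz ⊢
    obtain ⟨ω, -, rfl⟩ := hz
    exact ⟨_, rfl⟩
  case ce =>
    have a1 : hc L.R (L.ts.cel 0) L.ts.side + hc L.R L.ts.ξ (L.ts.cel 0) ≤ hc L.R L.ts.ξ L.ts.side :=
      cel_le L.ts b5
    have a2 := b4 hG
    show hc L.R (L.ts.cel 0) L.ts.side ≤ _
    rw [mul_assoc (m : ℝ), jl]
    linarith
  case tm =>
    have a1 := tm_le L.ts (j * G.N)
    rw [jl]
    linarith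
  case dr =>
    intro y hy a q
    obtain ⟨y1, y2, y3⟩ := dir_bd G hm w y (c2 * G.e) (ε * K * G.lg) (εP * ((j * G.N : ℕ) : ℝ)) hy
      (fun y hy => by
        have := mul_le_mul_of_nonneg_right (hGA y hy) hlg0.le
        linarith) (hce.trans hU1) hU1 (by linarith)
    exact (d2 hF.x (y / G.N) y a q y1 y2 (hy.trans (Nat.mul_le_mul_right _ hwj))).trans
      (mul_le_mul_of_nonneg_right y3 (Law.pr_nonneg _ _ _))
  rintro s ⟨ν, v, b, hν, hout⟩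
  refine out G L c₀ c3 η hc₀ hη0 hη2 hjK hj hlg0 (by linarith) hN f1 f3 ν v b _ hν ?_ hout
  intro ω hω
  simp only [mem_filter] at hω
  exact ⟨hω.2.1, hω.2.2.2.1, hω.2.2.2.2⟩

end

end Vale.Agent.P076N.FL
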