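import Vale.Agent.P076N.FL.LtB

/-!
# P076N / FL : row A3D
-/

set_option linter.all false

open Finset Vale.Agent.P127 Vale.Agent.P127.Stk

namespace Vale.Agent.P076N.FL

open AT

noncomputable section

theorem a3d_brd {Ω : Type} [Fintype Ω] {k : ℕ} (S : TSys Ω k) {f w : ℕ} {β β' : ℝ} (h : S.Brd f w β)
    (hb : β ≤ β') : S.Brd f w β' := fun pl => (h pl).trans hb

theorem a3d_ar {m η ε K lg N c₁ e hT hB H : ℝ} (hm : 0 ≤ m) (hη : 0 < η) (hlg : 0 ≤ lg) (hK : 1 ≤ ε * K)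
    (hK0 : 0 ≤ K) (hε : (2 * m + 5) * ε ≤ η / 2) (hN : N ≤ 2 * lg) (hc : (m + 2) * c₁ ≤ lg)
    (h1 : ((m + 1) * K - 2 * ε * K) * lg - m * K * lg - c₁ ≤ hT)
    (h2 : (m + 1) * hT - η / 4 * (K * N) ≤ hB)
    (h3 : hB + (((m + 1) * K - 2 * ε * K) * lg - K * lg - c₁) ≤ H) : (2 * m + 1 - η) * K * lg ≤ H := by
  have a1 := mul_le_mul_of_nonneg_left h1 (by linarith : 0 ≤ m + 1)
  have a2 : η / 4 * (K * N) ≤ η / 4 * (K * (2 * lg)) :=
    mul_le_mul_of_nonneg_left (mul_le_mul_of_nonneg_left hN hK0) (by linarith)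
  have a3 := mul_le_mul_of_nonneg_right hε (mul_nonneg hK0 hlg)
  have a4 := mul_le_mul_of_nonneg_right hK hlg
  nlinarith

theorem a3d (m : ℕ) (hm : 1 ≤ m) (hB : B2 m) (h1 : ∀ K C, LT1 m K C) (h2 : ∀ K C, LT2 m K C)
    (hlw : StLW m) : A3D m := by
  intro η hη
  obtain ⟨ε', hε', n₀, hw⟩ := hlw (m - 1) (by omega) (11 * m) (η / 4) (by linarith)
  have hm0 : (0 : ℝ) ≤ m := Nat.cast_nonneg _
  set ε := min (min (η / 2 / (2 * m + 5)) (ε' / 3)) (1 / (3 * (m + 2))) with hε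
  have e1 : (2 * m + 5) * ε ≤ η / 2 := by
    rw [mul_comm, ← le_div_iff₀ (by positivity)]; exact (min_le_left _ _).trans (min_le_left _ _)
  have e2 : ε ≤ ε' / 3 := (min_le_left _ _).trans (min_le_right _ _)
  have e3 : ε * (3 * (m + 2)) ≤ 1 := by rw [← le_div_iff₀ (by positivity)]; exact min_le_right _ _
  have e0 : 0 < ε := lt_min (lt_min (by positivity) (by positivity)) (by positivity)
  refine ⟨ε, e0, fun K a C B cn hB1 hcn hK hKa => ?_⟩
  obtain ⟨c₁, hc₁, l1⟩ := h1 K C cn B hcn hB1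
  obtain ⟨c₂, hc₂, l2⟩ := h2 K C
  obtain ⟨c₃, mk⟩ := hB.mkv K C
  set Z : ℝ := (m + 2) * c₁ + c₂ + |Real.log ε'| + n₀ + 1 with hZ
  have z1 : 0 ≤ (m + 2) * c₁ := by positivity
  have z2 := abs_nonneg (Real.log ε')
  have z3 : (0 : ℝ) ≤ n₀ := Nat.cast_nonneg _
  have Z0 : 0 < Z := by linarith
  refine ⟨1 / Z, by positivity, fun G he hW hL hG => ?_⟩
  obtain ⟨L⟩ := hL
  have g1 := G.e1
  have hZe : Z * G.e ≤ G.lg := by rw [one_div, ← div_eq_inv_mul, le_div_iff₀' Z0] at he; exact he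
  have hZl : Z ≤ G.lg := le_trans (le_mul_of_one_le_right Z0.le g1) hZe
  have q1 := Real.log_two_gt_d9
  have q2 := Real.log_two_lt_d9
  have N0 : (0 : ℝ) ≤ G.N := Nat.cast_nonneg _
  have hN1 : G.lg ≤ G.N := by unfold St0.lg; nlinarith
  have hN2 : (G.N : ℝ) ≤ 2 * G.lg := by unfold St0.lg; nlinarith
  have K0 : (0 : ℝ) ≤ K := Nat.cast_nonneg _
  have K1 : 1 ≤ K := by
    rcases Nat.eq_zero_or_pos K with h | h
    · rw [h] at hK; norm_num at hK
    · exact h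
  set y := ⌈2 * ε * K⌉₊ with hy
  have y1 : 2 * ε * K ≤ y := Nat.le_ceil _
  have y2 : (y : ℝ) ≤ 3 * (ε * K) := by
    have := Nat.ceil_lt_add_one (by positivity : 0 ≤ 2 * ε * K)
    linarith
  have y3 : y ≤ a := by
    have hKa' : (K : ℝ) = (m + 2) * a := by exact_mod_cast hKa
    have : (y : ℝ) ≤ a := by
      have := mul_le_mul_of_nonneg_right e3 (Nat.cast_nonneg a : (0 : ℝ) ≤ a)
      rw [hKa'] at y2
      linarith
    exact_mod_cast this
  have aK : a ≤ K := by rw [hKa]; nlinarith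
  obtain ⟨b1, b2, b3, -⟩ := l1 G a K _ L hW le_rfl
  have b4 := a3d_brd _ ((l2 G cn a K _ L hm aK le_rfl).1 y y3) (β' := ε') (by
    rw [← Real.exp_log hε']
    refine Real.exp_le_exp.2 ?_
    have c1 := hG y y3
    have c2 := neg_abs_le (Real.log ε')
    have c3 : (((m : ℝ) - 1) * y - G.GA 0 y) * G.lg ≤ -1 * G.lg :=
      mul_le_mul_of_nonneg_right (by linarith) (by linarith)
    have c4 : |Real.log ε'| ≤ |Real.log ε'| * G.e := le_mul_of_one_le_right z2 g1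
    have c5 : (c₂ + |Real.log ε'|) * G.e ≤ Z * G.e := mul_le_mul_of_nonneg_right (by linarith) (by linarith)
    linarith)
  have b5 := hw (y * G.N) 0 (K * G.N) L.Ω' L.ts (by
    have : (n₀ : ℝ) ≤ G.N := by linarith
    have : n₀ ≤ G.N := by exact_mod_cast this
    nlinarith) (by
    push_cast
    rw [sub_zero, ← mul_assoc]
    refine mul_le_mul_of_nonneg_right ?_ N0
    nlinarith) b1 b4
  rw [Nat.cast_sub hm, Nat.cast_zero, sub_zero, Nat.cast_one, Nat.cast_mul,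
    show (m : ℝ) - 1 + 2 = m + 1 by ring] at b5
  have b6 : L.ts.hB 0 (K * G.N) ≤ L.R.H (L.ts.cel 0) := hc_le_H _ _ _
  have b7 : L.R.H L.ts.ξ = L.R.H (L.ts.cel 0) + hc L.R L.ts.ξ (L.ts.cel 0) :=
    H_eq_add L.R fun ω ω' _ _ e => by simp only [TSys.cel, TSys.tm, TSys.x, TSys.t, e]
  have b8 : L.R.H L.ts.ξ = G.P.H G.x := H_law_aux L.R G.P L.π₁ L.m₁ G.x
  have b9 := (mk.root G).2
  exact a3d_ar (e := 0) hm0 hη (by linarith) hK K0 e1 hN2 (by linarith) b2 b5 (by linarith)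

end

end Vale.Agent.P076N.FL
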