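import Vale.Agent.P076N.FL.LtB

/-!
# P076N / FL : row A3P
-/

set_option linter.all false

open Finset Vale.Agent.P127 Vale.Agent.P127.Stk

namespace Vale.Agent.P076N.FL

open AT

noncomputable section

variable {m K : ℕ} {C : ℝ}

/-- the cube of a root -/
def a3q (τ : ℕ) (x : Nd m) : Zv m × ℤ := (dv τ (xpos x), x.T / τ)

theorem a3p_cap (hch : CH m K C) (G : St m K C) {a : ℕ} (ha : a ≤ K) :
    G.P.H (G.cp a) ≤ m * a * G.lg + m * Real.log 23 := by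
  have hq : (1 : ℝ) ≤ (G.D : ℝ) ^ a := one_le_pow₀ (lt_DR G.toSt0)
  have h := hc_vec G.P (G.cp a) (fun _ => ()) (fun _ _ => 0) (11 * (G.D : ℝ) ^ a) (by positivity) fun ω _ l => by
    have := hch.vb G.toSt0 a ω l ha
    rw [St0.v, vel_apply, abs_div, abs_of_pos (by linarith : (0 : ℝ) < (G.D : ℝ) ^ a),
      div_le_iff₀ (by linarith)] at this
    rwa [sub_zero]
  rw [hc_unit'] at h
  have h2 : Real.log (2 * (11 * (G.D : ℝ) ^ a) + 1) ≤ a * G.lg + Real.log 23 := by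
    rw [← lt_logD, ← Real.log_pow, ← Real.log_mul (by linarith) (by norm_num)]
    exact Real.log_le_log (by linarith) (by linarith)
  have := mul_le_mul_of_nonneg_left h2 (Nat.cast_nonneg m : (0 : ℝ) ≤ m)
  linarith

theorem a3p_dv {τ : ℕ} (hτ : 1 ≤ τ) (z : ℤ) : |(z : ℝ) - τ * ((z / τ : ℤ) : ℝ)| ≤ τ := by
  obtain ⟨h1, h2⟩ := ediv_real (q := τ) (by exact_mod_cast hτ) z
  rw [Int.cast_natCast] at h1 h2
  rw [abs_le]; constructor <;> linarith [(Nat.cast_nonneg τ : (0 : ℝ) ≤ τ)]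

theorem a3p_T (hch : CH m K C) (G : St m K C) (a : ℕ) {τ : ℕ} (hτ : 1 ≤ τ) :
    hc G.P (G.T a) (fun ω => (G.cp a ω, a3q τ (G.x ω))) ≤
      Real.log 3 + Real.log (1 + τ / ((G.D : ℝ) ^ a) ^ 2) := by
  have hq : (0 : ℝ) < ((G.D : ℝ) ^ a) ^ 2 := by have := lt_DR G.toSt0; positivity
  have h0 : 0 ≤ τ / ((G.D : ℝ) ^ a) ^ 2 := by positivity
  refine (hc_int G.P _ _ (fun p => τ * (p.2.2 : ℝ) / ((G.D : ℝ) ^ a) ^ 2) (τ / ((G.D : ℝ) ^ a) ^ 2 + 1)
    fun ω _ => ?_).trans ?_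
  · rw [hch.T, ← lt_floor _ _ (ch_D0 _), mul_comm 2 a, pow_mul]
    refine lt_close hq ?_
    rw [mul_div_cancel₀ _ hq.ne', div_mul_cancel₀ _ hq.ne']
    exact a3p_dv hτ _
  · rw [← Real.log_mul (by norm_num) (by linarith)]
    exact Real.log_le_log (by linarith) (by linarith)

theorem a3p_o (hch : CH m K C) (G : St m K C) {a τ : ℕ} (ha : a ≤ K) (hτ : 1 ≤ τ) :
    hc G.P (fun ω => (G.S a ω).o) (fun ω => (G.cp a ω, a3q τ (G.x ω))) ≤
      m * (Real.log 25 + Real.log (1 + τ / (G.D : ℝ) ^ a)) := by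
  have hq : (0 : ℝ) < (G.D : ℝ) ^ a := by have := lt_DR G.toSt0; positivity
  have h0 : 0 ≤ τ / (G.D : ℝ) ^ a := by positivity
  refine (hc_vec G.P _ _ (fun p l => (τ * (p.2.1 l : ℝ) - τ * (p.2.2 : ℝ) * vel G.D a p.1 l) / (G.D : ℝ) ^ a)
    (12 * (τ / (G.D : ℝ) ^ a) + 3) (by positivity) fun ω _ l => ?_).trans ?_
  · have h1 := abs_le.1 (hch.ps G.toSt0 a ω l ha)
    rw [ch_y] at h1
    have h2 := abs_le.1 (a3p_dv hτ (xpos (G.x ω) l))
    have h3 : |(((G.x ω).T : ℝ) - τ * (((G.x ω).T / τ : ℤ) : ℝ)) * G.v a ω l| ≤ τ * 11 := by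
      rw [abs_mul]
      exact mul_le_mul (a3p_dv hτ _) (hch.vb G.toSt0 a ω l ha) (abs_nonneg _) (Nat.cast_nonneg _)
    obtain ⟨h4, h5⟩ := abs_le.1 h3
    show |_ - (τ * ((xpos (G.x ω) l / τ : ℤ) : ℝ) - τ * (((G.x ω).T / τ : ℤ) : ℝ) * G.v a ω l) / _| ≤ _
    rw [sub_div' hq.ne', abs_div, abs_of_pos hq, div_le_iff₀ hq, add_mul, mul_assoc 12,
      div_mul_cancel₀ _ hq.ne', abs_le]
    constructor <;> linarith [h1.1, h1.2, h2.1, h2.2]
  · refine mul_le_mul_of_nonneg_left ?_ (Nat.cast_nonneg _)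
    rw [← Real.log_mul (by norm_num) (by linarith)]
    exact Real.log_le_log (by linarith) (by linarith)

theorem a3p (m : ℕ) (hB : B2 m) (K : ℕ) (C : ℝ) : A3P m K C := by
  obtain ⟨c₁, mk⟩ := hB.mkv K C
  obtain ⟨c₂, sd⟩ := hB.std K C
  have hch := hB.ch K C
  have l1 : 0 ≤ m * Real.log 23 + m * Real.log 25 + Real.log 3 := by
    have := Real.log_nonneg (by norm_num : (1 : ℝ) ≤ 23)
    have := Real.log_nonneg (by norm_num : (1 : ℝ) ≤ 25)
    have := Real.log_nonneg (by norm_num : (1 : ℝ) ≤ 3)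
    positivity
  refine ⟨2 * c₁ + c₂ + (m * Real.log 23 + m * Real.log 25 + Real.log 3), by linarith [mk.c0, sd.c0],
    fun G a τ ha hτ => ?_⟩
  set F := (G.V 0).image fun x => (dv τ (xpos x), x.T / τ) with hF
  have hm : ∀ ω, a3q τ (G.x ω) ∈ F := fun ω => Finset.mem_image_of_mem _ (ch_fl G.toSt0 ω).1
  obtain ⟨ω₀, -⟩ := exists_pos G.P
  have F0 : (0 : ℝ) < #F := by exact_mod_cast Finset.card_pos.2 ⟨_, hm ω₀⟩
  have hq : (0 : ℝ) < (G.D : ℝ) ^ a := by have := lt_DR G.toSt0; positivity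
  rw [Real.log_mul F0.ne' (by unfold prof; positivity), prof, Real.log_mul (by positivity) (by positivity),
    Real.log_pow]
  have h1 := (mk.root G).1
  have h2 := H_le_logR G.P (fun ω => a3q τ (G.x ω)) F _ le_rfl fun ω _ => hm ω
  have h3 := a3p_cap hch G ha
  have h4 := a3p_T hch G a hτ
  have h5 := a3p_o hch G ha hτ
  have h6 := (abs_le.1 (sd.ch G 0 a (Nat.zero_le _) ha)).2
  have h7 := mk.cap G 0 a (Nat.zero_le _) ha
  have h8 : hc G.P (G.cp a) (fun ω => (G.cp 0 ω, G.x ω)) ≤ hc G.P (G.S a) G.x :=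
    (hc_mono_right G.P _ fun ω ω' _ _ e => congrArg Prod.snd e).trans (hc_mono_left G.P fun ω ω' _ _ e => by
      rw [← hch.c _ _ _ ha, ← hch.c _ _ _ ha, show G.S a ω = G.S a ω' from congrArg Prod.fst e])
  have h9 : G.P.H G.x + hc G.P (G.S a) G.x = G.P.H (G.S a) + hc G.P (G.S 0) (G.S a) := by
    have : G.P.H (fun ω => (G.S a ω, G.x ω)) = G.P.H fun ω => (G.S 0 ω, G.S a ω) :=
      G.P.H_congr fun ω ω' => by simp only [Prod.mk.injEq]; exact and_comm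
    unfold Stk.hc; linarith
  have h10 := H_le_add G.P (G.S a) fun ω => (G.cp a ω, a3q τ (G.x ω))
  have h11 := H_le_add G.P (fun ω => (G.cp a ω, a3q τ (G.x ω))) fun ω => a3q τ (G.x ω)
  have h12 : hc G.P (fun ω => (G.cp a ω, a3q τ (G.x ω))) (fun ω => a3q τ (G.x ω)) ≤ G.P.H (G.cp a) :=
    (hc_mono_left G.P fun ω ω' _ _ e => e).trans (hc_le_H _ _ _)
  have h13 : hc G.P (G.S a) (fun ω => (G.cp a ω, a3q τ (G.x ω))) ≤
      hc G.P (fun ω => (G.T a ω, (G.S a ω).o)) fun ω => (G.cp a ω, a3q τ (G.x ω)) :=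
    hc_mono_left G.P fun ω ω' _ _ e => by
      simp only [Prod.mk.injEq] at e
      exact Nd.ext (by rw [hch.c _ _ _ ha, hch.c _ _ _ ha, e.2.1]) e.1.2 e.1.1
  have h14 := hc_pair_le G.P (G.T a) (fun ω => (G.S a ω).o) fun ω => (G.cp a ω, a3q τ (G.x ω))
  have h15 := le_mul_of_one_le_right l1 G.e1
  rw [Nat.cast_zero, sub_zero] at h6
  nlinarith

end

end Vale.Agent.P076N.FL
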