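import Vale.Agent.P076N.FL.Spec

/-!
# P076N / FL : row APX
-/

set_option linter.all false

open Finset Vale.Agent.P127 Vale.Agent.P127.Stk

namespace Vale.Agent.P076N.FL

noncomputable section

namespace ApxAux

variable {m K : ℕ} {C : ℝ}

theorem norm_le (y : Vc m) {r : ℝ} (hr : 0 ≤ r) (h : ∀ l, |y l| ≤ r) : ‖y‖ ≤ m * r := by
  refine (pow_le_pow_iff_left₀ (norm_nonneg _) (by positivity) two_ne_zero).1 ?_
  rw [EuclideanSpace.real_norm_sq_eq]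
  have h1 : ∑ l, y l ^ 2 ≤ ∑ _l : Fin m, r ^ 2 :=
    sum_le_sum fun l _ => sq_le_sq' (abs_le.1 (h l)).1 (abs_le.1 (h l)).2
  have h2 : (m : ℝ) ≤ m ^ 2 := by exact_mod_cast Nat.le_self_pow two_ne_zero m
  rw [sum_const, card_univ, Fintype.card_fin, nsmul_eq_mul] at h1
  rw [mul_pow]
  exact h1.trans (mul_le_mul_of_nonneg_right h2 (sq_nonneg r))

theorem rot1 (O : Vc m ≃ₗᵢ[ℝ] Vc m) (y : Vc m) (r : ℝ) (h : ∀ l, |y l| ≤ r) (l : Fin m) :
    |O y l| ≤ m * r :=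
  (PiLp.norm_apply_le (O y) l).trans ((O.norm_map y).trans_le
    (norm_le y ((abs_nonneg _).trans (h l)) h))

theorem norm_sl {k : ℕ} (hk : k ≤ m) (O : Vc m ≃ₗᵢ[ℝ] Vc m) (y : Vc m) : ‖sl k O y‖ ≤ ‖y‖ := by
  rw [← O.norm_map y]
  refine (pow_le_pow_iff_left₀ (norm_nonneg _) (norm_nonneg _) two_ne_zero).1 ?_
  rw [EuclideanSpace.real_norm_sq_eq, EuclideanSpace.real_norm_sq_eq]
  have e : ∑ l, sl k O y l ^ 2 = ∑ l ∈ univ.map (Fin.castLEEmb hk), O y l ^ 2 := by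
    rw [sum_map]
    refine sum_congr rfl fun l _ => ?_
    simp only [sl, dif_pos (lt_of_lt_of_le l.2 hk)]
    rfl
  rw [e]
  exact sum_le_sum_of_subset_of_nonneg (subset_univ _) fun _ _ _ => sq_nonneg _

theorem Dpos (G : St0 m K C) : (0 : ℝ) < G.D := by
  simp [St0.D]

theorem Done (G : St0 m K C) : (1 : ℝ) ≤ G.D := by
  exact_mod_cast Nat.one_le_two_pow

theorem str (h : CH m K C) (G : St0 m K C) (k J W : ℕ) (pn : G.Ω → Pl m) (ω : G.Ω)
    (hb : G.Blk k J W pn) : InS (pn ω) k ((2 * m + 2) / (G.D : ℝ) ^ (J + W)) (G.v K ω) ∧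
      ∀ i ≤ J + W, InS (pn ω) k ((2 * m + 2) / (G.D : ℝ) ^ i) (G.v i ω) := by
  have key : ∀ i j, i ≤ j → j ≤ K → ∀ l,
      |(pn ω).1 (G.v j ω - G.v i ω) l| ≤ m * ((G.D : ℝ) ^ i)⁻¹ := fun i j h1 h2 =>
    rot1 _ _ _ fun l => by
      have := h.vv G i j ω l h1 h2
      rw [PiLp.sub_apply, abs_of_nonneg this.1]
      exact this.2
  refine ⟨fun l hl => ?_, fun i hi l hl => ?_⟩
  · have e : G.v K ω - (pn ω).2 = (G.v (J + W) ω - (pn ω).2) + (G.v K ω - G.v (J + W) ω) := by abel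
    rw [e, map_add, PiLp.add_apply]
    refine (abs_add_le _ _).trans ((add_le_add (hb.str ω l hl) (key _ _ hb.le le_rfl l)).trans_eq ?_)
    ring
  · have e : G.v i ω - (pn ω).2 = (G.v (J + W) ω - (pn ω).2) - (G.v (J + W) ω - G.v i ω) := by abel
    have h1 : ((m : ℝ) + 2) / (G.D : ℝ) ^ (J + W) ≤ (m + 2) / (G.D : ℝ) ^ i :=
      div_le_div_of_nonneg_left (by positivity) (pow_pos (Dpos G) _) (pow_le_pow_right₀ (Done G) hi)
    rw [e, map_sub, PiLp.sub_apply]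
    refine (abs_sub _ _).trans ((add_le_add ((hb.str ω l hl).trans h1)
      (key _ _ hi hb.le l)).trans_eq ?_)
    ring

theorem tim (h : CH m K C) (G : St0 m K C) (i : ℕ) (ω : G.Ω) :
    |(G.D : ℝ) ^ (2 * i) * (G.S i ω).T - (G.x ω).T| ≤ (G.D : ℝ) ^ (2 * i) := by
  have h0 : (0 : ℤ) < (G.D : ℤ) ^ (2 * i) := by simp [St0.D]
  have h1 := Int.mul_ediv_add_emod (G.x ω).T ((G.D : ℤ) ^ (2 * i))
  have h2 := Int.emod_nonneg (G.x ω).T h0.ne'
  have h3 := Int.emod_lt_of_pos (G.x ω).T h0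
  have h4 : |(G.D : ℤ) ^ (2 * i) * (G.S i ω).T - (G.x ω).T| ≤ (G.D : ℤ) ^ (2 * i) := by
    rw [show (G.S i ω).T = _ from h.T G i ω, abs_le]
    constructor <;> linarith
  exact_mod_cast h4

theorem pos (h : CH m K C) (G : St0 m K C) (j w : ℕ) (ω : G.Ω) (hj : j + w ≤ K)
    (O : Vc m ≃ₗᵢ[ℝ] Vc m) (l : Fin m) :
    |O ((G.D : ℝ) ^ (j + 2 * w) • toV (atom G.D w (G.S (j + w) ω)).o - G.y j ω) l| ≤
      m * (5 * (G.D : ℝ) ^ (j + 2 * w)) :=
  rot1 _ _ _ (fun l => by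
    rw [PiLp.sub_apply, abs_sub_comm]
    exact (h.atm G j w ω hj).2 l) l

theorem x_eq (G : St m K C) (s : Jm) (x₀ : ℕ) (ω : G.Ω) : (G.tS s x₀).x ω =
    sl s.k (G.pn s.k s.J s.W ω).1 ((G.D : ℝ) ^ (2 * s.w) •
      toV (atom G.D s.w (G.S (s.j + s.w) ω)).o) := rfl

theorem t_eq (G : St m K C) (s : Jm) (x₀ : ℕ) (ω : G.Ω) : (G.tS s x₀).t ω =
    (G.D : ℝ) ^ (2 * s.w) * (G.S (s.j + s.w) ω).T := rfl

theorem jK {G : St0 m K C} {s : Jm} (hs : G.Jd s) : s.j + s.w ≤ K := hs.lt.le.trans hs.blk.le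

end ApxAux

open ApxAux in
/-- row FL.APX -/
theorem apx : ∀ m K C, CH m K C → ∃ c, APX m K C c := by
  intro m K C h
  have hm : (0 : ℝ) ≤ m := Nat.cast_nonneg m
  refine ⟨7 * m + 2, by linarith, str h, fun G s x₀ ω l hs => ?_, fun G s x₀ ω hs => ?_,
    fun G s x₀ x ω hs hx => ?_, fun G s ω l hs hl => ?_, fun G s x₀ hs ω _ => ?_,
    fun G s x₀ ω hs => ?_, fun G k J W pn i ω ω' hb h1 h2 e => ?_,
    fun O y r => ⟨rot1 O y r, fun hy l => by simpa using rot1 O.symm (O y) r hy l⟩⟩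
  · have hD := pow_pos (Dpos G.toSt0) (s.j + 2 * s.w)
    have hl : (l : ℕ) < m := lt_of_lt_of_le l.2 hs.blk.km
    have := pos h G.toSt0 s.j s.w ω (jK hs) (G.pn s.k s.J s.W ω).1 ⟨l, hl⟩
    refine le_trans (le_of_eq ?_) (this.trans (by nlinarith))
    simp only [x_eq, sl, dif_pos hl, map_sub, map_smul, PiLp.sub_apply,
      PiLp.smul_apply, smul_eq_mul, pow_add, mul_assoc]
  · refine le_trans (le_of_eq ?_) (tim h G.toSt0 (s.j + s.w) ω)
    simp only [t_eq, mul_add, pow_add, mul_assoc]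
  · obtain ⟨d, rfl⟩ := Nat.exists_eq_add_of_le hx
    have hD := Dpos G.toSt0
    have e : (G.tS s x₀).t ω / 2 ^ G.bt (s.w + d) =
        ((G.T (s.j + s.w) ω : ℤ) : ℝ) / ((G.D ^ (2 * d) : ℕ) : ℝ) := by
      have e1 : (2 : ℝ) ^ G.bt (s.w + d) = (G.D : ℝ) ^ (2 * s.w) * (G.D : ℝ) ^ (2 * d) := by
        rw [← pow_add]
        push_cast
        rw [← pow_mul]
        congr 1
        simp only [St.bt]
        ring
      rw [e1, t_eq, mul_div_mul_left _ _ (pow_pos hD _).ne', Nat.cast_pow G.D]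
      rfl
    rw [TSys.tm, e, Int.floor_div_natCast, Int.floor_intCast, h.T, h.T,
      Int.ediv_ediv_of_nonneg (by simp [St0.D])]
    congr 1
    push_cast
    ring
  · have hD := Dpos G.toSt0
    have h1 := pos h G.toSt0 s.j s.w ω (jK hs) (G.pn s.k s.J s.W ω).1 l
    have h2 := tim h G.toSt0 (s.j + s.w) ω
    have h3 := (str h G.toSt0 _ _ _ _ ω hs.blk).2 s.j (by have := hs.lt; omega) l hl
    have e : yv G.D s (G.ξ s ω) - (toV (xpos (G.x ω)) - ((G.x ω).T : ℝ) • (G.pn s.k s.J s.W ω).2) =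
        ((G.D : ℝ) ^ (s.j + 2 * s.w) • toV (atom G.D s.w (G.S (s.j + s.w) ω)).o - G.y s.j ω) +
        ((G.D : ℝ) ^ (2 * (s.j + s.w)) * (G.S (s.j + s.w) ω).T - (G.x ω).T) •
          (G.v s.j ω - (G.pn s.k s.J s.W ω).2) := by
      simp only [yv, St0.ξ, (h.atm G.toSt0 s.j s.w ω (jK hs)).1, St0.y]
      rw [show vel G.D s.j (G.cp s.j ω) = G.v s.j ω from rfl,
        show (atom G.D s.w (G.S (s.j + s.w) ω)).T = (G.S (s.j + s.w) ω).T from rfl]
      module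
    rw [← PiLp.sub_apply, ← map_sub, e, map_add, map_smul, PiLp.add_apply, PiLp.smul_apply,
      smul_eq_mul]
    refine (abs_add_le _ _).trans ?_
    rw [abs_mul]
    refine (add_le_add h1 (mul_le_mul h2 h3 (abs_nonneg _) (by positivity))).trans_eq ?_
    field_simp
    ring
  · have hD := pow_pos (Dpos G.toSt0) s.j
    refine (norm_sl hs.blk.km _ _).trans ((norm_le _ zero_le_one fun l => ?_).trans_eq (mul_one _))
    have := h.vv G.toSt0 s.j K ω l (le_trans (Nat.le_add_right _ _) (jK hs)) le_rfl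
    rw [PiLp.smul_apply, PiLp.sub_apply, smul_eq_mul, abs_of_nonneg (mul_nonneg hD.le this.1)]
    exact (mul_le_mul_of_nonneg_left this.2 hD.le).trans_eq (mul_inv_cancel₀ hD.ne')
  · exact Prod.ext (h.atm G.toSt0 s.j s.w ω (jK hs)).1 rfl
  · rcases h2.lt_or_eq with h3 | rfl
    · exact hb.bl i h1 h3 ω ω' (congrArg (ball G.D) e)
    · exact hb.tp ω ω' e

end

end Vale.Agent.P076N.FL
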