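import Vale.Agent.P076N.FL.Spec

/-!
# P076N / FL, row BK: alive nodes in a ball and a normal window
-/

open Finset

namespace Vale.Agent.P076N.FL

noncomputable section

open Classical

namespace Bk

variable {m K : ℕ} {C : ℝ}

theorem D1 (G : St0 m K C) : (1 : ℝ) ≤ G.D := by exact_mod_cast Nat.one_le_two_pow

/-- the trivial bound -/
theorem triv (h : B0 m) (ρ : ℝ) : ∃ c : ℝ, 1 ≤ c ∧ ∀ (D k : ℕ) (p : Pl m) (b : Nd m)
    (Z : Finset (Nd m)), 1 ≤ D → k ≤ m → (∀ S ∈ Z, ball D S = b ∧ InS p k ρ (toV S.o)) →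
    (#Z : ℝ) ≤ c * (D : ℝ) ^ k := by
  obtain ⟨c, c1, hc⟩ := h.lat.strip m ρ
  refine ⟨c, c1, fun D k p b Z D1 km hZ => ?_⟩
  have inj : Set.InjOn Nd.o (Z : Set (Nd m)) := fun S hS S' hS' e => by
    have k := (hZ S hS).1.trans (hZ S' hS').1.symm
    exact Nd.ext (congrArg Nd.c k :) e (congrArg Nd.T k :)
  rw [← card_image_of_injOn inj]
  refine hc k D p ((D : ℝ) • toV b.o) _ km (by exact_mod_cast D1) fun y hy => ?_
  obtain ⟨S, hS, rfl⟩ := mem_image.1 hy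
  refine ⟨fun l => ?_, (hZ S hS).2⟩
  have D0 : (0 : ℤ) < D := by exact_mod_cast D1
  have e : b.o l = S.o l / D := by rw [← (hZ S hS).1]; rfl
  have a1 := Int.mul_ediv_add_emod (S.o l) D
  have a2 := Int.emod_nonneg (S.o l) D0.ne'
  have a3 := Int.emod_lt_of_pos (S.o l) D0
  have a4 : |S.o l - D * b.o l| ≤ (D : ℤ) := by rw [e, abs_le]; constructor <;> linarith
  have a5 : ((D : ℝ) • toV b.o) l = D * b.o l := rfl
  have a6 : ((|S.o l - D * b.o l| : ℤ) : ℝ) ≤ ((D : ℤ) : ℝ) := Int.cast_le.2 a4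
  rw [a5]
  push_cast at a6
  exact a6

/-- the children of a node -/
theorem kids (h : B0 m) (G : St0 m K C) {i : ℕ} (hi : i < K) {S : Nd m} (hS : S ∈ G.V i) :
    ∑ c' ∈ below G.D 1 S.c, G.F.a (i + 1) (par G.D S c') (UU G.D K G.V i S) ^ 2 ≤
      8 * G.Γ i * G.A (i + 1) ^ 2 := by
  have e : ∀ c' ∈ below G.D 1 S.c, G.F.a (i + 1) (par G.D S c') (UU G.D K G.V i S) ^ 2 ≤
      if par G.D S c' ∈ G.V (i + 1) then 4 * G.A (i + 1) ^ 2 else 0 := fun c' hc => by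
    have k := (h.rect K C).kid G i S c' hi hc
    have k2 : G.F.a (i + 1) (par G.D S c') (UU G.D K G.V i S) = G.F.a (i + 1) (par G.D S c')
        (if c' ∈ GG G.D G.V i S then UU G.D K G.V (i + 1) (par G.D S c') else ∅) := by
      rw [G.F.loc, ← k]
      congr
    rw [k2]
    by_cases m1 : par G.D S c' ∈ G.V (i + 1)
    · rw [if_pos m1, if_pos (show c' ∈ GG G.D G.V i S from mem_filter.2 ⟨hc, m1⟩)]
      have a := (G.val.amp (i + 1) hi _ m1).2
      have b := pow_le_pow_left₀ (G.F.nn _ _ _) a 2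
      linarith
    · rw [if_neg m1, if_neg fun k : c' ∈ GG G.D G.V i S => m1 (mem_filter.1 k).2, G.F.emp]
      norm_num
  refine (sum_le_sum e).trans ?_
  rw [← sum_filter, sum_const, nsmul_eq_mul]
  have d := (G.val.deg i hi S hS).2
  have d2 : (#((below G.D 1 S.c).filter fun c' => par G.D S c' ∈ G.V (i + 1)) : ℝ) ≤ 2 * G.Γ i := by
    convert d using 3
    rfl
  nlinarith [sq_nonneg (G.A (i + 1))]

/-- one unit window -/
theorem one (h : B0 m) (G : St0 m K C) {k J W i : ℕ} {pn : G.Ω → Pl m} (ω : G.Ω) (n : Vc m)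
    (hb : G.Blk k J W pn) (hJ : J ≤ i) (hi : i < J + W) (Z : Finset (Nd m))
    (hZ : ∀ S ∈ Z, S ∈ G.V i ∧ ball G.D S = G.b i ω ∧ InS ((pn ω).1, n) k 1 (toV S.o)) :
    (#Z : ℝ) * G.A i ^ 2 ≤ C * (G.D : ℝ) ^ k * (8 * G.Γ i * G.A (i + 1) ^ 2) := by
  have iK : i < K := hi.trans_le hb.le
  obtain ⟨c, ap⟩ := h.apx K C
  have k1 := G.F.bk i iK k hb.km (pn ω) n (G.b i ω) (UU G.D K G.V i (G.S i ω)) Z
    (fun τ hτ _ l hl => by
      obtain ⟨ω', -, e1, e2⟩ := (h.rect K C).ext G i ω iK.le τ hτ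
      have e3 : pn ω' = pn ω := hb.bl i hJ hi _ _ (by rw [St0.b, St0.b, e2])
      have e4 : G.v K ω' = vel G.D K τ := by
        rw [St0.v, St0.cp, ← e1, St0.τ]
        congr 1
        funext l
        simp [cap, dv]
      have a := (ap.str G k J W pn ω' hb).1 l hl
      rw [e3, e4] at a
      exact a.trans (div_le_div_of_nonneg_left (by positivity) (by have := D1 G; positivity)
        (pow_le_pow_right₀ (D1 G) hi))) fun S hS => (hZ S hS).2
  have k2 := kids h G iK ((h.ch K C).mem G i ω iK.le)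
  have k3 : (#Z : ℝ) * G.A i ^ 2 ≤ ∑ S ∈ Z, G.F.a i S (UU G.D K G.V i (G.S i ω)) ^ 2 := by
    rw [← nsmul_eq_mul]
    refine card_nsmul_le_sum _ _ _ fun S hS => ?_
    rw [← (h.rect K C).ub G i S (G.S i ω) iK (hZ S hS).2.1]
    exact pow_le_pow_left₀ (G.val.pos i iK.le).le (G.val.amp i iK.le S (hZ S hS).1).1 2
  refine k3.trans (k1.trans (mul_le_mul_of_nonneg_left k2 ?_))
  have := G.C1
  have := D1 G
  positivity

/-- the window of width `ρ` -/
theorem many (h : B0 m) (G : St0 m K C) {k J W i : ℕ} {pn : G.Ω → Pl m} (ω : G.Ω) (n : Vc m) (ρ : ℝ)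
    (hb : G.Blk k J W pn) (hJ : J ≤ i) (hi : i < J + W) (Z : Finset (Nd m))
    (hZ : ∀ S ∈ Z, S ∈ G.V i ∧ ball G.D S = G.b i ω ∧ InS ((pn ω).1, n) k ρ (toV S.o)) :
    (#Z : ℝ) * G.A i ^ 2 ≤ (2 * ⌈ρ⌉₊ + 1) ^ m *
      (C * (G.D : ℝ) ^ k * (8 * G.Γ i * G.A (i + 1) ^ 2)) := by
  set f : Nd m → Zv m := fun S l => if k ≤ (l : ℕ) then ⌊(pn ω).1 (toV S.o - n) l⌋ else 0 with hf
  set T : Finset (Zv m) := Fintype.piFinset fun _ => Icc (-(⌈ρ⌉₊ : ℤ)) ⌈ρ⌉₊ with hT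
  have hm : ∀ S ∈ Z, f S ∈ T := fun S hS => Fintype.mem_piFinset.2 fun l => by
    simp only [hf]
    split_ifs with hl
    · obtain ⟨a, b⟩ := abs_le.1 ((hZ S hS).2.2 l hl)
      have c := Nat.le_ceil ρ
      refine mem_Icc.2 ⟨Int.le_floor.2 ?_, ?_⟩
      · push_cast; linarith
      · have := Int.floor_le ((pn ω).1 (toV S.o - n) l)
        exact Int.cast_le.1 ((this.trans (b.trans c)).trans_eq (Int.cast_natCast _).symm)
    · simp
  have hc : (#T : ℝ) = (2 * ⌈ρ⌉₊ + 1) ^ m := by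
    have : (Icc (-(⌈ρ⌉₊ : ℤ)) ⌈ρ⌉₊).card = 2 * ⌈ρ⌉₊ + 1 := by rw [Int.card_Icc]; omega
    rw [hT, Fintype.card_piFinset_const, this]
    push_cast; rfl
  rw [card_eq_sum_card_fiberwise hm, Nat.cast_sum, sum_mul, ← hc, ← nsmul_eq_mul]
  refine sum_le_card_nsmul _ _ _ fun z _ => one h G ω (n + (pn ω).1.symm (toV z)) hb hJ hi _
    fun S hS => ?_
  obtain ⟨h1, h2⟩ := mem_filter.1 hS
  refine ⟨(hZ S h1).1, (hZ S h1).2.1, fun l hl => ?_⟩
  have e : (z l : ℝ) = ⌊(pn ω).1 (toV S.o - n) l⌋ := by rw [← h2]; simp only [hf, if_pos hl]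
  have e2 : (pn ω).1 (toV S.o - (n + (pn ω).1.symm (toV z))) l =
      (pn ω).1 (toV S.o - n) l - z l := by
    rw [← sub_sub, map_sub _ (toV S.o - n), LinearIsometryEquiv.apply_symm_apply]
    rfl
  change |(pn ω).1 (toV S.o - (n + (pn ω).1.symm (toV z))) l| ≤ 1
  rw [e2, e, abs_le]
  constructor <;> linarith [Int.floor_le ((pn ω).1 (toV S.o - n) l),
    Int.lt_floor_add_one ((pn ω).1 (toV S.o - n) l)]

end Bk

theorem bk : ∀ m, B0 m → ∀ K C, BK m K C := by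
  intro m h K C ρ
  obtain ⟨c, c1, hc⟩ := Bk.triv h ρ
  have M0 : 0 ≤ (2 * (⌈ρ⌉₊ : ℝ) + 1) ^ m * (8 * |C|) := by positivity
  refine ⟨Real.log (c + (2 * ⌈ρ⌉₊ + 1) ^ m * (8 * |C|)), Real.log_nonneg (by linarith),
    fun G k J W pn i ω n hb hJ hi => ?_⟩
  have iK : i < K := hi.trans_le hb.le
  have D1 := Bk.D1 G.toSt0
  have lg0 : 0 < G.lg := mul_pos (by have := G.N4; positivity) (Real.log_pos one_lt_two)
  have eD : Real.exp (k * G.lg) = (G.D : ℝ) ^ k := by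
    rw [Real.exp_nat_mul, St0.lg, Real.exp_nat_mul, Real.exp_log two_pos]
    push_cast; rfl
  have a0 := G.val.pos i iK.le
  have a1 := G.val.pos (i + 1) iK
  have g0 : 0 < G.Γ i := one_pos.trans_le (G.val.one i iK)
  rw [sub_mul, Real.exp_add, Real.exp_sub, Real.exp_log (by linarith), eD, St.φ]
  rcases le_total (2 * Real.log (G.A i / G.A (i + 1)) / G.lg - G.g i) 0 with h0 | h0
  · rw [max_eq_right h0, zero_mul, Real.exp_zero, div_one]
    refine (hc G.D k _ _ _ Nat.one_le_two_pow hb.km fun S hS => (mem_filter.1 hS).2).trans ?_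
    exact mul_le_mul_of_nonneg_right (by linarith) (by positivity)
  · have k1 := Bk.many h G.toSt0 ω n ρ hb hJ hi _ fun S hS => mem_filter.1 hS
    have e : Real.exp ((2 * Real.log (G.A i / G.A (i + 1)) / G.lg - G.g i) * G.lg) =
        G.A i ^ 2 / (G.Γ i * G.A (i + 1) ^ 2) := by
      rw [St.g, sub_mul, div_mul_cancel₀ _ lg0.ne', div_mul_cancel₀ _ lg0.ne', Real.exp_sub,
        Real.exp_log g0, show (2 : ℝ) = (2 : ℕ) by norm_num, Real.exp_nat_mul,
        Real.exp_log (div_pos a0 a1)]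
      field_simp
    rw [max_eq_left h0, e, div_div_eq_mul_div, ← mul_div_assoc, le_div_iff₀ (by positivity)]
    refine k1.trans ?_
    rw [abs_of_pos (one_pos.trans_le G.C1)]
    have : 0 ≤ c * ((G.D : ℝ) ^ k * (G.Γ i * G.A (i + 1) ^ 2)) := by positivity
    linarith

end

end Vale.Agent.P076N.FL
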