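import Vale.Agent.P076N.FL.Spec

/-!
# P076N / FL, row BLK: blocks
-/

open Finset

namespace Vale.Agent.P076N.FL

noncomputable section

namespace Blk

variable {m K : ℕ} {C : ℝ}

theorem D16 (G : St0 m K C) : (16 : ℝ) ≤ G.D := by
  exact_mod_cast (Nat.pow_le_pow_right two_pos G.N4 : 2 ^ 4 ≤ 2 ^ G.N)

theorem pw (G : St0 m K C) {a b : ℕ} (h : a + 1 ≤ b) : 16 * (G.D : ℝ) ^ a ≤ (G.D : ℝ) ^ b := by
  have d := D16 G
  refine le_trans ?_ (pow_le_pow_right₀ (by linarith) h)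
  rw [pow_succ, mul_comm]
  exact mul_le_mul_of_nonneg_left d (by positivity)

theorem near {q a b : ℤ} (hq : 0 < q) (h : a / q = b / q) : |(a : ℝ) - b| ≤ q := by
  have a1 := Int.mul_ediv_add_emod a q
  have b1 := Int.mul_ediv_add_emod b q
  have k : |a - b| ≤ q := by
    rw [h] at a1
    rw [abs_le]
    constructor <;> linarith [Int.emod_nonneg a hq.ne', Int.emod_lt_of_pos a hq,
      Int.emod_nonneg b hq.ne', Int.emod_lt_of_pos b hq]
  exact_mod_cast k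

theorem fl {q a b : ℤ} (hq : 0 < q) (h : a ≤ b + 2 * q) : a / q ≤ b / q + 2 := by
  rw [← Int.add_mul_ediv_right _ _ hq.ne']
  exact Int.ediv_le_ediv hq h

theorem y_eq (G : St0 m K C) (i j : ℕ) (ω : G.Ω) (l : Fin m) :
    G.y i ω l = G.y j ω l + (G.x ω).T * (G.v j ω l - G.v i ω l) := by
  simp only [St0.y, PiLp.sub_apply, PiLp.smul_apply, smul_eq_mul]
  ring

theorem v_eq (G : St0 m K C) (i : ℕ) (ω : G.Ω) (l : Fin m) :
    G.v i ω l = ((G.D : ℝ) ^ i)⁻¹ * G.cp i ω l := rfl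

/-- the position before the floor -/
theorem pos (h : CH m K C) (G : St0 m K C) {J W : ℕ} (hK : J + W ≤ K) (ω : G.Ω) (l : Fin m) :
    ∃ z : ℤ, (atom G.D W (G.S (J + W) ω)).o l = z / (G.D : ℤ) ^ W ∧
      -(3 * (G.D : ℝ) ^ (J + W)) ≤ G.y J ω l - (G.D : ℝ) ^ (J + W) * z ∧
      G.y J ω l - (G.D : ℝ) ^ (J + W) * z ≤ 3 * (G.D : ℝ) ^ (J + W) + (G.D : ℝ) ^ (J + 2 * W) := by
  refine ⟨_, rfl, ?_⟩
  have d : (0 : ℝ) < G.D := by linarith [D16 G]
  have dz : (0 : ℤ) < (G.D : ℤ) ^ (2 * (J + W)) := pow_pos (by exact_mod_cast d) _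
  have e1 : (G.S (J + W) ω).c l / (G.D : ℤ) ^ W = G.cp J ω l := congrFun (h.atm G J W ω hK).1 l
  have e2 : (G.S (J + W) ω).T = (G.x ω).T / (G.D : ℤ) ^ (2 * (J + W)) := h.T G (J + W) ω
  obtain ⟨p1, p2⟩ := abs_le.1 (h.ps G (J + W) ω l hK)
  obtain ⟨v1, v2⟩ := h.vv G J (J + W) ω l (Nat.le_add_right _ _) hK
  obtain ⟨r, r0, r1, r2⟩ : ∃ r : ℝ, 0 ≤ r ∧ r ≤ (G.D : ℝ) ^ (2 * (J + W)) ∧
      ((G.x ω).T : ℝ) = (G.D : ℝ) ^ (2 * (J + W)) * (G.S (J + W) ω).T + r :=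
    ⟨((G.x ω).T % (G.D : ℤ) ^ (2 * (J + W)) : ℤ), by exact_mod_cast Int.emod_nonneg _ dz.ne',
      by exact_mod_cast (Int.emod_lt_of_pos _ dz).le,
      by rw [e2]; exact_mod_cast (Int.mul_ediv_add_emod _ _).symm⟩
  have e3 : (G.D : ℝ) ^ (2 * (J + W)) * (G.v (J + W) ω l - G.v J ω l) =
      (G.D : ℝ) ^ (J + W) * (G.cp (J + W) ω l - (G.D : ℝ) ^ W * G.cp J ω l) := by
    rw [v_eq, v_eq]
    field_simp
    ring
  have e4 : (G.D : ℝ) ^ (2 * (J + W)) * ((G.D : ℝ) ^ J)⁻¹ = (G.D : ℝ) ^ (J + 2 * W) := by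
    field_simp
    ring
  have k1 := mul_nonneg r0 v1
  have k2 := mul_le_mul r1 v2 v1 (by positivity)
  rw [e1, h.c G (J + W) ω hK, y_eq G J (J + W), r2]
  push_cast at *
  constructor
  · linear_combination p1 + k1 - ((G.S (J + W) ω).T : ℝ) * e3
  · linear_combination p2 + k2 + ((G.S (J + W) ω).T : ℝ) * e3 + e4

theorem key (h : CH m K C) (G : St0 m K C) {J W j n : ℕ} (hK : J + W ≤ K) (hW : 1 ≤ W)
    (hc : Cons G.D G.V J W) (hj : J ≤ j) (jK : j ≤ K) (hn : n < J + W) {ω ω' : G.Ω}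
    (e1 : G.cp j ω = G.cp j ω') (e2 : G.T n ω = G.T n ω')
    (e3 : ∀ l, |G.y j ω l - G.y j ω' l| ≤ (G.D : ℝ) ^ (J + 2 * W) / 4) :
    atom G.D W (G.S (J + W) ω) = atom G.D W (G.S (J + W) ω') := by
  have d : (0 : ℝ) < G.D := by linarith [D16 G]
  have dz : (0 : ℤ) < G.D := by exact_mod_cast d
  have c1 : G.cp J ω = G.cp J ω' := by rw [h.cpn G J j ω hj jK, h.cpn G J j ω' hj jK, e1]
  rw [h.T, h.T] at e2
  refine Nd.ext ?_ (funext fun l => ?_) ?_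
  · rw [(h.atm G J W ω hK).1, (h.atm G J W ω' hK).1, c1]
  · obtain ⟨z, z0, z1, z2⟩ := pos h G hK ω l
    obtain ⟨z', z0', z1', z2'⟩ := pos h G hK ω' l
    obtain ⟨e, he⟩ := hc
    have m1 := he _ (h.mem G (J + W) ω hK) l
    have m2 := he _ (h.mem G (J + W) ω' hK) l
    obtain ⟨v1, v2⟩ := h.vv G J j ω l hj jK
    have t := near (pow_pos dz _) e2
    rw [Int.cast_pow, Int.cast_natCast] at t
    have k1 : |(((G.x ω).T : ℝ) - (G.x ω').T) * (G.v j ω l - G.v J ω l)| ≤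
        (G.D : ℝ) ^ (J + 2 * W) / 16 := by
      rw [abs_mul, abs_of_nonneg v1]
      refine (mul_le_mul t v2 v1 (by positivity)).trans ?_
      rw [← div_eq_mul_inv, div_le_div_iff₀ (by positivity) (by norm_num), ← pow_add, mul_comm]
      exact pw G (by omega)
    have k2 : G.y J ω l - G.y J ω' l = G.y j ω l - G.y j ω' l +
        (((G.x ω).T : ℝ) - (G.x ω').T) * (G.v j ω l - G.v J ω l) := by
      rw [y_eq G J j ω, y_eq G J j ω', St0.v, St0.v, St0.v, St0.v, ← e1, ← c1]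
      ring
    have k3 := pw G (show J + W + 1 ≤ J + 2 * W by omega)
    obtain ⟨a1, a2⟩ := abs_le.1 (e3 l)
    obtain ⟨b1, b2⟩ := abs_le.1 k1
    have k4 : (G.D : ℝ) ^ (J + 2 * W) = (G.D : ℝ) ^ (J + W) * (G.D : ℝ) ^ W := by ring
    have p : 0 < (G.D : ℝ) ^ (J + W) := by positivity
    have q1 : (z : ℝ) ≤ z' + 2 * (G.D : ℝ) ^ W := le_of_mul_le_mul_left (by linarith) p
    have q2 : (z' : ℝ) ≤ z + 2 * (G.D : ℝ) ^ W := le_of_mul_le_mul_left (by linarith) p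
    have f1 := fl (a := z) (b := z') (pow_pos dz W) (by exact_mod_cast q1)
    have f2 := fl (a := z') (b := z) (pow_pos dz W) (by exact_mod_cast q2)
    rw [← z0, ← z0'] at f1 f2
    omega
  · change G.T (J + W) ω = G.T (J + W) ω'
    rw [h.T, h.T, show 2 * (J + W) = 2 * n + 2 * (J + W - n) by omega, pow_add,
      ← Int.ediv_ediv_of_nonneg (pow_pos dz _).le, ← Int.ediv_ediv_of_nonneg (pow_pos dz _).le, e2]

theorem bl (h : CH m K C) (G : St0 m K C) {J W i : ℕ} (hK : J + W ≤ K) (hW : 1 ≤ W)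
    (hc : Cons G.D G.V J W) (hj : J ≤ i) (hi : i < J + W) {ω ω' : G.Ω} (e : G.b i ω = G.b i ω') :
    atom G.D W (G.S (J + W) ω) = atom G.D W (G.S (J + W) ω') := by
  have iK : i ≤ K := hi.le.trans hK
  have d : (0 : ℝ) < G.D := by linarith [D16 G]
  refine key h G hK hW hc hj iK hi ?_ (congrArg Nd.T e :) fun l => ?_
  · rw [← h.c G i ω iK, ← h.c G i ω' iK]
    exact (congrArg Nd.c e :)
  · have t := near (q := G.D) (by exact_mod_cast d) (congrFun (congrArg Nd.o e) l :)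
    obtain ⟨a1, a2⟩ := abs_le.1 (h.ps G i ω l iK)
    obtain ⟨b1, b2⟩ := abs_le.1 (h.ps G i ω' l iK)
    obtain ⟨t1, t2⟩ := abs_le.1 t
    have p : 0 ≤ (G.D : ℝ) ^ i := by positivity
    have u1 := mul_le_mul_of_nonneg_left t1 p
    have u2 := mul_le_mul_of_nonneg_left t2 p
    have k1 := pw G (le_refl (i + 1))
    have k2 := pw G (show i + 1 + 1 ≤ J + 2 * W by omega)
    rw [pow_succ] at k1 k2
    rw [Int.cast_natCast] at u1 u2
    rw [abs_le]
    constructor <;> linarith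

end Blk

theorem blk : ∀ m K C, CH m K C → BLK m K C := by
  intro m K C h
  refine ⟨fun G => Classical.epsilon_spec (p := G.Blk m 0 K) ⟨fun _ => default, le_rfl,
      (zero_add K).le, fun _ l hl => absurd l.2 hl.not_gt, fun _ _ _ _ _ _ => rfl, fun _ _ _ => rfl,
      fun _ _ _ _ _ _ _ => rfl⟩, fun G k J W km hK hW hc ⟨pl, hp⟩ => ?_,
    fun G j w hK hw hc ω ω' e => Blk.bl h G hK hw hc le_rfl (by omega) e⟩
  refine Classical.epsilon_spec (p := G.Blk k J W)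
    ⟨fun ω => pl (atom G.D W (G.S (J + W) ω)), km, hK, fun ω => ?_,
      fun i h1 h2 ω ω' e => congrArg pl (Blk.bl h G hK hW hc h1 h2 e),
      fun ω ω' e => by rw [e], fun j w h1 h2 ω ω' e => congrArg pl ?_⟩
  · have := hp _ (h.mem G (J + W) ω hK)
    rwa [Str, h.c G (J + W) ω hK] at this
  · have jK : j + w ≤ K := h2.le.trans hK
    obtain ⟨a0, a⟩ := h.atm G j w ω jK
    obtain ⟨b0, b⟩ := h.atm G j w ω' jK
    refine Blk.key h G hK hW hc h1 (by omega) h2 (by rw [← a0, ← b0, e]) (congrArg Nd.T e :)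
      fun l => ?_
    obtain ⟨a1, a2⟩ := abs_le.1 (a l)
    obtain ⟨b1, b2⟩ := abs_le.1 (b l)
    have k1 := Blk.pw G (le_refl (j + 2 * w + 1))
    have k2 := Blk.pw G (show j + 2 * w + 1 + 1 ≤ J + 2 * W by omega)
    have p : 0 ≤ (G.D : ℝ) ^ (j + 2 * w) := by positivity
    rw [e] at a1 a2
    rw [abs_le]
    constructor <;> linarith

end

end Vale.Agent.P076N.FL
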