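import Vale.Agent.P076N.FL.Spec
import Vale.Agent.P076N.RG.Lib

/-!
# P076N / FL : the row BRD, broadness in the slice
-/

set_option linter.all false

open Finset Vale.Agent.P127 Vale.Agent.P127.Stk

namespace Vale.Agent.P076N.FL

namespace Brd

variable {m : ℕ}

theorem rot_le (O : Vc m ≃ₗᵢ[ℝ] Vc m) (y : Vc m) {ρ : ℝ} (hρ : 0 ≤ ρ) (h : ∀ l, |y l| ≤ ρ) (l : Fin m) :
    |O y l| ≤ (m + 1) / 2 * ρ := by
  refine (RG.coord_le_norm _ l).trans ?_
  rw [O.norm_map]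
  refine abs_le_of_sq_le_sq' ?_ (by positivity) |>.2
  rw [EuclideanSpace.real_norm_sq_eq]
  have h1 : ∑ i, y i ^ 2 ≤ ∑ _i : Fin m, ρ ^ 2 := sum_le_sum fun i _ => by
    rw [← sq_abs]
    exact pow_le_pow_left₀ (abs_nonneg _) (h i) 2
  simp only [sum_const, card_univ, Fintype.card_fin, nsmul_eq_mul] at h1
  nlinarith [mul_nonneg (sq_nonneg ((m : ℝ) - 1)) (sq_nonneg ρ)]

/-- a strip of the slice and the strip of the block give a strip -/
theorem key (hr : ROT) {k : ℕ} (hk1 : 1 ≤ k) (hkm : k ≤ m) {t : ℝ} (ht : 0 < t) (vj : Vc m) (p : Pl m) (p' : Pl k) :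
    ∃ r : Pl m, ∀ (v vK vW : Vc m) (ρ : ℝ), 0 ≤ ρ → InS p k ((m + 2) / 16 * ρ) vW → (∀ l, |(v - vW) l| ≤ ρ) →
      (∀ l, |(v - vK) l| ≤ ρ) → InS p' (k - 1) (t * ρ) (sl k p.1 (t • (vK - vj))) →
      InS r (k - 1) ((m + 2) * ρ) v := by
  obtain ⟨O, hO⟩ := hr m k p.1 p'.1 hk1 hkm
  let l' : Fin k := ⟨k - 1, by omega⟩
  refine ⟨(O, O.symm (WithLp.toLp 2 fun l : Fin m =>
    if k ≤ (l : ℕ) then p.1 p.2 l else O vj l + t⁻¹ * p'.1 p'.2 l')), ?_⟩
  intro v vK vW ρ hρ h1 h2 h3 h4 l hl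
  have hm : (0 : ℝ) ≤ m * ρ := by positivity
  simp only [map_sub, LinearIsometryEquiv.apply_symm_apply, PiLp.sub_apply]
  by_cases hkl : k ≤ (l : ℕ)
  · rw [if_pos hkl, (hO v l).1 hkl]
    have a1 := h1 l hkl
    have a2 := rot_le p.1 _ hρ h2 l
    simp only [map_sub, PiLp.sub_apply] at a1 a2
    rw [abs_le] at a1 a2 ⊢
    constructor <;> linarith
  · rw [if_neg hkl]
    have a1 := h4 l' le_rfl
    have a2 := rot_le O _ hρ h3 l
    rw [map_sub, PiLp.sub_apply, ← (hO _ l).2 l' (by omega) rfl] at a1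
    simp only [map_sub, map_smul, PiLp.sub_apply, PiLp.smul_apply, smul_eq_mul] at a1 a2
    have a3 : |O vK l - (O vj l + t⁻¹ * p'.1 p'.2 l')| ≤ ρ := by
      have e : t * (O vK l - O vj l) - p'.1 p'.2 l' = t * (O vK l - (O vj l + t⁻¹ * p'.1 p'.2 l')) := by
        field_simp
        ring
      rw [e, abs_mul, abs_of_pos ht] at a1
      exact le_of_mul_le_mul_left a1 ht
    rw [abs_le] at a2 a3 ⊢
    constructor <;> linarith

end Brd

theorem brd : ∀ m, B0 m → ROT → ∀ K C, BRD m K C := by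
  classical
  intro m h hr K C G s x₀ β hJ hB pl
  have hc := h.ch K C
  have hD : (16 : ℝ) ≤ G.D := by
    have : 2 ^ 4 ≤ G.D := Nat.pow_le_pow_right (by norm_num) G.N4
    exact_mod_cast this
  have hD0 : (0 : ℝ) < G.D := by linarith
  have hJK := hJ.blk.le
  have hlt := hJ.lt
  obtain ⟨pA, hpA⟩ := (Function.factorsThrough_iff (f := fun ω => atom G.D s.w (G.S (s.j + s.w) ω))
    (G.pn s.k s.J s.W)).1 fun ω ω' e => hJ.blk.atm s.j s.w hJ.Jj hlt ω ω' e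
  choose Φ hΦ using Brd.key (m := m) hr hJ.k1 hJ.blk.km (t := (G.D : ℝ) ^ s.j) (by positivity)
  have h1 := hB fun a => Φ (vel G.D s.j a.c) (pA a) (pl (a, pA a))
  have h2 := h.ent.evt G.Ω G.P G.e (fun ω => InS (pl ((G.tS s x₀).ξ ω)) (s.k - 1) (2 ^ (s.w * G.N))⁻¹
    ((G.tS s x₀).u ω)) G.dom
  have h3 : cnt (fun ω => InS (pl ((G.tS s x₀).ξ ω)) (s.k - 1) (2 ^ (s.w * G.N))⁻¹ ((G.tS s x₀).u ω)) ≤
      β * #(flags G.D K G.V) := by
    refine le_trans (Nat.cast_le.2 (card_le_card_of_injOn Subtype.val (fun ω hω => ?_)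
      Subtype.val_injective.injOn)) h1
    have hE := (mem_filter.1 (mem_coe.1 hω)).2
    refine mem_coe.2 (mem_filter.2 ⟨ω.2, ?_⟩)
    have e1 : pA (atom G.D s.w (G.S (s.j + s.w) ω)) = G.pn s.k s.J s.W ω := (congrFun hpA ω).symm
    have e2 := (hc.atm G.toSt0 s.j s.w ω (by omega)).1
    have e3 := hc.c G.toSt0 (s.j + s.w) ω (by omega)
    show InS (Φ (vel G.D s.j (atom G.D s.w (G.S (s.j + s.w) ω)).c) (pA (atom G.D s.w (G.S (s.j + s.w) ω)))
      (pl (atom G.D s.w (G.S (s.j + s.w) ω), pA (atom G.D s.w (G.S (s.j + s.w) ω))))) (s.k - 1)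
      ((m + 2) / (G.D : ℝ) ^ (s.j + s.w)) (vel G.D (s.j + s.w) (G.S (s.j + s.w) ω).c)
    rw [e1, e2, e3, div_eq_mul_inv]
    refine hΦ _ _ _ (G.v (s.j + s.w) ω) (G.v K ω) (G.v (s.J + s.W) ω) _ (by positivity) (fun l hl => ?_)
      (fun l => ?_) (fun l => ?_) ?_
    · refine (hJ.blk.str ω l hl).trans ?_
      have a1 : 16 * (G.D : ℝ) ^ (s.j + s.w) ≤ (G.D : ℝ) ^ (s.J + s.W) := by
        refine le_trans ?_ (pow_le_pow_right₀ (by linarith) (Nat.succ_le_of_lt hlt))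
        rw [pow_succ']
        exact mul_le_mul_of_nonneg_right hD (by positivity)
      rw [← div_eq_mul_inv, div_div]
      exact div_le_div_of_nonneg_left (by positivity) (by positivity) a1
    · have a1 := hc.vv G.toSt0 (s.j + s.w) (s.J + s.W) ω l hlt.le hJK
      rw [PiLp.sub_apply, abs_sub_comm, abs_of_nonneg a1.1]
      exact a1.2
    · have a1 := hc.vv G.toSt0 (s.j + s.w) K ω l (by omega) le_rfl
      rw [PiLp.sub_apply, abs_sub_comm, abs_of_nonneg a1.1]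
      exact a1.2
    · have a1 : (G.D : ℝ) ^ s.j * ((G.D : ℝ) ^ (s.j + s.w))⁻¹ = (2 ^ (s.w * G.N))⁻¹ := by
        rw [pow_add, mul_inv, ← mul_assoc, mul_inv_cancel₀ (by positivity), one_mul, mul_comm, pow_mul]
        push_cast
        rfl
      rw [a1]
      exact hE
  obtain ⟨ω₀⟩ := (h.rect K C).ne G.toSt0
  have h4 : (0 : ℝ) < Fintype.card G.Ω := by exact_mod_cast Fintype.card_pos_iff.2 ⟨ω₀⟩
  rw [← Fintype.card_coe] at h3
  refine le_of_mul_le_mul_right (h2.trans ?_) h4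
  rw [mul_assoc]
  exact mul_le_mul_of_nonneg_left h3 (Real.exp_pos _).le

end Vale.Agent.P076N.FL
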