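import Vale.Agent.P076N.FL.Spec
import Vale.Agent.P076N.AT.Geo

/-!
# P076N / FL : row CH
-/

set_option linter.all false

open Finset Vale.Agent.P127 Vale.Agent.P127.Stk

namespace Vale.Agent.P076N.FL

noncomputable section

variable {m K : ℕ} {C : ℝ}

theorem ch_D2 (G : St0 m K C) : 2 ≤ G.D := by
  have := G.N4
  calc 2 = 2 ^ 1 := rfl
    _ ≤ 2 ^ G.N := Nat.pow_le_pow_right (by norm_num) (by omega)

theorem ch_D0 (G : St0 m K C) : 0 < G.D := by have := ch_D2 G; omega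

theorem ch_fl (G : St0 m K C) (ω : G.Ω) : ω.1.1 ∈ G.V 0 ∧ cap G.D K 0 ω.1.2 = ω.1.1.c ∧
    ∀ i, 1 ≤ i → i ≤ K → nd G.D K ω.1 i ∈ G.V i := (mem_flags (ch_D0 G)).1 ω.2

theorem ch_succ' (G : St0 m K C) (i : ℕ) (ω : G.Ω) : G.S (i + 1) ω = parB G.D (G.b i ω) (G.cp (i + 1) ω) :=
  nd_succ G.D K ω.1 i

theorem ch_cpn (G : St0 m K C) {i j : ℕ} (ω : G.Ω) (hij : i ≤ j) (hj : j ≤ K) :
    G.cp i ω = dv ((G.D : ℤ) ^ (j - i)) (G.cp j ω) := (dv_cap (ch_D0 G) hij hj _).symm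

theorem ch_upb (G : St0 m K C) {i j : ℕ} {ω ω' : G.Ω} (hij : i < j) (hj : j ≤ K) (hb : G.b i ω = G.b i ω')
    (hc : G.cp j ω = G.cp j ω') : G.S j ω = G.S j ω' := by
  induction j, hij using Nat.le_induction with
  | base => rw [ch_succ', ch_succ', hb, hc]
  | succ j hij ih =>
    have h1 : G.cp j ω = G.cp j ω' := by
      rw [ch_cpn G ω (Nat.le_succ j) hj, ch_cpn G ω' (Nat.le_succ j) hj, hc]
    rw [ch_succ', ch_succ', St0.b, St0.b, ih (by omega) h1, hc]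

theorem ch_y (G : St0 m K C) (i : ℕ) (ω : G.Ω) (l : Fin m) :
    G.y i ω l = (xpos (G.x ω) l : ℝ) - (G.x ω).T * G.v i ω l := by
  simp [St0.y, toV]

theorem ch_ps (G : St0 m K C) {i : ℕ} (ω : G.Ω) (l : Fin m) (hi : i ≤ K) :
    |G.y i ω l - (G.D : ℝ) ^ i * (G.S i ω).o l| ≤ 3 * (G.D : ℝ) ^ i := by
  have h := (nd_near (ch_D2 G) (ch_fl G ω).2.1 hi).1 l
  rw [nd_c (ch_fl G ω).2.1] at h
  rw [ch_y]
  exact h

theorem ch_atm (G : St0 m K C) {j w : ℕ} (ω : G.Ω) (h : j + w ≤ K) :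
    (atom G.D w (G.S (j + w) ω)).c = G.cp j ω ∧
    ∀ l, |G.y j ω l - (G.D : ℝ) ^ (j + 2 * w) * (atom G.D w (G.S (j + w) ω)).o l| ≤
      5 * (G.D : ℝ) ^ (j + 2 * w) := by
  have hc : (G.S (j + w) ω).c = G.cp (j + w) ω := nd_c (ch_fl G ω).2.1 _
  have hcp := ch_cpn G ω (Nat.le_add_right j w) h
  rw [Nat.add_sub_cancel_left] at hcp
  refine ⟨by rw [hcp, ← hc]; rfl, fun l => ?_⟩
  have hD0 := ch_D0 G
  have hD : (0 : ℝ) < G.D := by exact_mod_cast hD0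
  have hD1 : (1 : ℝ) ≤ G.D := by exact_mod_cast hD0
  have h1 := abs_le.1 (ch_ps G ω l h)
  have hT : (G.S (j + w) ω).T = (G.x ω).T / (G.D : ℤ) ^ (2 * (j + w)) := nd_T _ _ _ _
  obtain ⟨t1, t2⟩ := ediv_real (q := (G.D : ℤ) ^ (2 * (j + w))) (by positivity) (G.x ω).T
  rw [← hT] at t1 t2
  have hj : G.cp j ω l = G.cp (j + w) ω l / (G.D : ℤ) ^ w := by rw [hcp]; rfl
  obtain ⟨d1, d2⟩ := ediv_real (q := (G.D : ℤ) ^ w) (by positivity) (G.cp (j + w) ω l)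
  have ho : (atom G.D w (G.S (j + w) ω)).o l = ((G.S (j + w) ω).o l + (G.S (j + w) ω).T *
      (G.cp (j + w) ω l - (G.D : ℤ) ^ w * G.cp j ω l)) / (G.D : ℤ) ^ w := by
    rw [hj, ← hc]; rfl
  obtain ⟨r1, r2⟩ := ediv_real (q := (G.D : ℤ) ^ w) (by positivity) ((G.S (j + w) ω).o l + (G.S (j + w) ω).T *
      (G.cp (j + w) ω l - (G.D : ℤ) ^ w * G.cp j ω l))
  rw [← ho] at r1 r2
  rw [← hj] at d1 d2
  rw [ch_y] at h1 ⊢
  simp only [St0.v, vel_apply] at h1 ⊢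
  simp only [Int.cast_pow, Int.cast_natCast, Int.cast_add, Int.cast_mul, Int.cast_sub] at t1 t2 d1 d2 r1 r2
  set a : ℝ := ((atom G.D w (G.S (j + w) ω)).o l : ℝ)
  set c' : ℝ := (G.cp (j + w) ω l : ℝ)
  set c : ℝ := (G.cp j ω l : ℝ)
  set o : ℝ := ((G.S (j + w) ω).o l : ℝ)
  set T' : ℝ := ((G.S (j + w) ω).T : ℝ)
  set T : ℝ := ((G.x ω).T : ℝ)
  set X : ℝ := (xpos (G.x ω) l : ℝ)
  set P : ℝ := (G.D : ℝ) ^ j with hP
  set W : ℝ := (G.D : ℝ) ^ w with hW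
  have hP0 : 0 < P := by positivity
  have hW1 : 1 ≤ W := one_le_pow₀ hD1
  have e1 : (G.D : ℝ) ^ (j + w) = P * W := pow_add _ _ _
  have e2 : (G.D : ℝ) ^ (2 * (j + w)) = (P * W) * (P * W) := by rw [two_mul, pow_add, e1]
  have e3 : (G.D : ℝ) ^ (j + 2 * w) = P * W * W := by rw [two_mul, ← add_assoc, pow_add, e1]
  rw [e2] at t1 t2
  rw [e1] at h1
  rw [e3]
  have hPW : 0 < P * W := by positivity
  set ρ := T - P * W * (P * W) * T' with hρ
  set Δ := c' - W * c with hΔ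
  set s := o + T' * Δ - W * a with hs
  have key : X - T * (c / P) - P * W * W * a =
      (X - T * (c' / (P * W)) - P * W * o) + ρ * Δ / (P * W) + P * W * s := by
    rw [hρ, hΔ, hs]; field_simp; ring
  have b1 : 0 ≤ ρ * Δ / (P * W) := div_nonneg (mul_nonneg (by linarith) (by linarith)) hPW.le
  have b2 : ρ * Δ / (P * W) ≤ P * W * W := by
    rw [div_le_iff₀ hPW]
    have : ρ * Δ ≤ (P * W * (P * W)) * W := mul_le_mul (by linarith) (by linarith) (by linarith) (by positivity)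
    linarith
  have b3 : 0 ≤ P * W * s := mul_nonneg hPW.le (by linarith)
  have b4 : P * W * s ≤ P * W * W := mul_le_mul_of_nonneg_left (by linarith) hPW.le
  have b5 : P * W ≤ P * W * W := le_mul_of_one_le_right hPW.le hW1
  rw [key, abs_le]
  constructor <;> linarith [h1.1, h1.2]

theorem ch_dn (G : St0 m K C) {i : ℕ} {ω ω' : G.Ω} (hi : i < K) (hS : G.S (i + 1) ω = G.S (i + 1) ω')
    (hT : G.T i ω = G.T i ω') : G.b i ω = G.b i ω' := by
  have hc : ∀ ω j, (G.S j ω).c = G.cp j ω := fun ω j => nd_c (ch_fl G ω).2.1 j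
  have h1 : G.cp (i + 1) ω = G.cp (i + 1) ω' := by rw [← hc, ← hc, hS]
  have h2 : (G.b i ω).c = (G.b i ω').c := by
    show (G.S i ω).c = (G.S i ω').c
    rw [hc, hc, ch_cpn G ω (Nat.le_succ i) hi, ch_cpn G ω' (Nat.le_succ i) hi, h1]
  have h3 : (G.b i ω).T = (G.b i ω').T := hT
  refine Nd.ext h2 ?_ h3
  funext l
  rw [ch_succ', ch_succ'] at hS
  have h4 := congrFun (congrArg Nd.o hS) l
  simp only [parB] at h4
  rw [h1, h2, h3] at h4
  linarith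

theorem chn (nr : NR) (m K : ℕ) (C : ℝ) : CH m K C where
  T := fun G i ω => nd_T _ _ _ _
  c := fun G i ω _ => nd_c (ch_fl G ω).2.1 i
  mem := fun G i ω hi => nd_mem (ch_D0 G) ω.2 hi
  cpn := fun G i j ω hij hj => ch_cpn G ω hij hj
  vv := fun G i j ω l hij hj => by
    have := vel_cap (ch_D0 G) hij hj ω.1.2 l
    rw [one_div] at this
    exact this
  vb := fun G i ω l hi => abs_vel_le (ch_D0 G) hi (by
    rw [(ch_fl G ω).2.1]; exact (G.rts _ (ch_fl G ω).1).1 l)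
  near := fun G i j ω hij hj => nr.chn m G.D K ω.1.1 ω.1.2 i j (ch_D2 G) (ch_fl G ω).2.1 hij hj
  ps := fun G i ω l hi => ch_ps G ω l hi
  atm := fun G j w ω h => ch_atm G ω h
  dn := fun G i ω ω' hi hS hT => ch_dn G hi hS hT
  upb := fun G i j ω ω' hij hj hb hc => ch_upb G hij hj hb hc
  ups := fun G i j ω ω' hij hj hS hc => by
    rcases hij.eq_or_lt with rfl | h
    · exact hS
    · exact ch_upb G h hj (by rw [St0.b, St0.b, hS]) hc

end

end Vale.Agent.P076N.FL
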