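import Vale.Agent.P076N.FL.Tn

/-!
# P076N / FL : the row DEC
-/

set_option linter.all false

open Finset Vale.Agent.P127 Vale.Agent.P127.Stk

namespace Vale.Agent.P076N.FL

variable {m K : ℕ} {C c : ℝ}

theorem St.side_eq (G : St m K C) (s : Jm) (x : ℕ) (ω : G.Ω) :
    (G.tS s x).side ω = ((G.ξ s ω).1.c, (G.ξ s ω).2, G.Nn s (s.j + x) ω) := rfl

theorem St.cel_eq (G : St m K C) (s : Jm) (x x' p : ℕ) : (G.tS s x).cel p = (G.tS s x').cel p := rfl

theorem St.bt_le (G : St m K C) {x x' : ℕ} (h : x ≤ x') : G.bt x ≤ G.bt x' :=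
  Nat.mul_le_mul_right _ (by omega)

theorem side_fn (d1 : DT1 m K C c) (G : St m K C) (s : Jm) {x x' : ℕ} (h : x ≤ x') {ω ω' : G.Ω}
    (e : (G.tS s x).side ω = (G.tS s x).side ω') : (G.tS s x').side ω = (G.tS s x').side ω' := by
  rw [G.side_eq, G.side_eq] at e ⊢
  obtain ⟨e1, e2⟩ := Prod.mk.inj e
  obtain ⟨e2, e3⟩ := Prod.mk.inj e2
  rw [e1, e2, d1.nest G s _ (s.j + x') ω ω' (by omega) e3]

theorem zn_fn (ts : TSA) (d1 : DT1 m K C c) (G : St m K C) (s : Jm) {x₀ x₀' x x' : ℕ} (h₀ : x₀ ≤ x₀') (h : x ≤ x')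
    {ω ω' : G.Ω} (e : G.zn s x₀ x ω = G.zn s x₀ x ω') : G.zn s x₀' x' ω = G.zn s x₀' x' ω' :=
  Prod.ext ((ts.nest _ _ (G.tS s x₀) _ _ (G.bt_le h) ω ω').2 (Prod.mk.inj e).1)
    (side_fn d1 G s h₀ (Prod.mk.inj e).2)

theorem St.cost_lg (G : St m K C) (s : Jm) (x : ℕ) : G.cost s x * G.lg =
    (2 * (s.k + 1) + ((m : ℝ) - s.k)) * x * G.lg - hc G.P (G.S s.j) (G.st s x) := by
  have := G.lg_pos
  unfold St.cost
  field_simp

theorem dec : ∀ m, B1 m → ∀ K C, ∃ c, DEC m K C c := by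
  intro m b K C
  obtain ⟨c, d1⟩ := b.dt1 K C
  have km : ∀ (G : St m K C) s, G.Jd s → (s.k : ℝ) ≤ m := fun G s jd => by exact_mod_cast jd.blk.km
  refine ⟨c, d1.c0, fun G s x x' jd h => ⟨hc_nonneg _ _ _, ?_⟩, fun G s x x' jd h1 h2 => ?_,
    fun G s x x' jd h => ?_, fun G s x jd => ?_, fun G s x₀ x p q jd h => ?_, fun G s x₀ x x' h => ⟨?_, ?_⟩⟩
  · have A := d1.dig G s (s.j + x) (s.j + x') jd.blk.km (by omega)
    have B := hc_mono_right G.P (G.Nn s (s.j + x)) (Y := G.Nn s (s.j + x')) (Y' := G.st s x')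
      fun ω ω' _ _ e => congrArg (fun p => p.2.2.2) e
    push_cast at A
    unfold St.ν
    linarith
  · have A := hc_pair G.P (G.st s x) (G.S s.j) (G.st s x')
    have B := hc_pair G.P (G.S s.j) (G.st s x) (G.st s x')
    have D : hc G.P (fun ω => (G.st s x ω, G.S s.j ω)) (G.st s x') =
        hc G.P (fun ω => (G.S s.j ω, G.st s x ω)) (G.st s x') :=
      hc_congr G.P (fun ω ω' _ _ e => Prod.ext (Prod.mk.inj (Prod.mk.inj e).1).2 (Prod.mk.inj (Prod.mk.inj e).1).1)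
        (fun ω ω' _ _ e => Prod.ext (Prod.mk.inj (Prod.mk.inj e).1).2 (Prod.mk.inj (Prod.mk.inj e).1).1)
        (fun _ _ _ _ e => e) fun _ _ _ _ e => e
    have E : hc G.P (G.S s.j) (fun ω => (G.st s x ω, G.st s x' ω)) = hc G.P (G.S s.j) (G.st s x) :=
      hc_congr G.P (fun ω ω' _ _ e => (Prod.mk.inj e).1) (fun ω ω' _ _ e => (Prod.mk.inj e).1)
        (fun ω ω' _ _ e => Prod.ext e (zn_fn b.tsa d1 G s h2 h2 e)) fun ω ω' _ _ e => (Prod.mk.inj e).1
    have F := (hc_mono_right G.P (G.st s x) (Y := G.S s.j) (Y' := fun ω => (G.S s.j ω, G.st s x' ω))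
      fun ω ω' _ _ e => (Prod.mk.inj e).1).trans (d1.st G s x jd h1)
    have F' := hc_nonneg G.P (G.st s x) fun ω => (G.S s.j ω, G.st s x' ω)
    have H := hc_pair G.P (G.Nn s (s.j + x)) ((G.tS s x).cel (G.bt x)) (G.st s x')
    have sd : ∀ ω ω', G.Nn s (s.j + x) ω = G.Nn s (s.j + x) ω' → G.st s x' ω = G.st s x' ω' →
        (G.tS s x).side ω = (G.tS s x).side ω' := fun ω ω' e1 e2 => by
      have e3 := (Prod.mk.inj e2).2
      rw [G.side_eq, G.side_eq] at e3 ⊢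
      rw [e1, (Prod.mk.inj e3).1, (Prod.mk.inj (Prod.mk.inj e3).2).1]
    have I : hc G.P (G.st s x) (G.st s x') =
        hc G.P (fun ω => (G.Nn s (s.j + x) ω, (G.tS s x).cel (G.bt x) ω)) (G.st s x') :=
      hc_congr G.P (fun ω ω' _ _ e => Prod.ext (Prod.mk.inj (Prod.mk.inj e).1).2
          (sd ω ω' (Prod.mk.inj (Prod.mk.inj e).1).1 (Prod.mk.inj e).2))
        (fun ω ω' _ _ e => Prod.ext (congrArg (fun p => p.1.2.2.2) e) (congrArg (fun p => p.1.1) e))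
        (fun _ _ _ _ e => e) fun _ _ _ _ e => e
    have J : hc G.P ((G.tS s x).cel (G.bt x)) (fun ω => (G.Nn s (s.j + x) ω, G.st s x' ω)) =
        (G.tS s x).hB (G.bt x) (G.bt x') :=
      hc_congr G.P (fun ω ω' _ _ e => (Prod.mk.inj e).1) (fun ω ω' _ _ e => (Prod.mk.inj e).1)
        (fun ω ω' _ _ e => Prod.ext (congrArg (fun p => p.2.2.2) e)
          (Prod.ext (Prod.mk.inj e).1 (side_fn d1 G s h2 (Prod.mk.inj e).2)))
        fun ω ω' _ _ e => Prod.ext (congrArg (fun p => p.2.1) e) (sd ω ω' (Prod.mk.inj e).1 (Prod.mk.inj e).2)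
    have L := G.cost_lg s x
    have L' := G.cost_lg s x'
    unfold St.ν
    rw [abs_le]
    constructor <;> linarith
  · have A := hc_mono_right G.P (G.S s.j) (Y := G.st s x') (Y' := G.st s x)
      fun ω ω' _ _ e => zn_fn b.tsa d1 G s h h e
    have L := G.cost_lg s x
    have L' := G.cost_lg s x'
    have h' : (0 : ℝ) ≤ (x' : ℝ) - x := sub_nonneg.2 (by exact_mod_cast h)
    have q := mul_nonneg (mul_nonneg (sub_nonneg.2 (km G s jd)) h') G.lg_pos.le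
    exact le_of_mul_le_mul_right (by linarith) G.lg_pos
  · have A := hc_nonneg G.P (G.S s.j) (G.st s x)
    have L := G.cost_lg s x
    have q := mul_nonneg (mul_nonneg (sub_nonneg.2 (km G s jd)) (Nat.cast_nonneg (α := ℝ) x)) G.lg_pos.le
    exact le_of_mul_le_mul_right (by linarith) G.lg_pos
  · exact hc_mono_right G.P _ fun ω ω' _ _ e => Prod.ext (Prod.mk.inj e).1 (side_fn d1 G s h (Prod.mk.inj e).2)
  · exact fun ω ω' _ _ e => zn_fn b.tsa d1 G s le_rfl h e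
  · exact hc_congr G.P (fun ω ω' _ _ e => Prod.ext (Prod.mk.inj e).1 (Prod.mk.inj (Prod.mk.inj e).2).2)
      (fun ω ω' _ _ e => (Prod.mk.inj (Prod.mk.inj e).1).1) (fun _ _ _ _ e => e) fun _ _ _ _ e => e

end Vale.Agent.P076N.FL
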