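import Vale.Agent.P076N.Tube
import Vale.Agent.P076N.Num

/-!
# P076N / FL : flags, their law, the numeric data (notes/P076/alln.md, section 3; definitions)
-/

set_option linter.all false

open Finset Vale.Agent.P127 Vale.Agent.P127.Stk

namespace Vale.Agent.P076N.FL

noncomputable section

variable {m K : ℕ} {C : ℝ}

/-- `S` lies in the tube `c S'`, which is `r` levels above `S` -/
structure Near (D r : ℕ) (c : ℝ) (S S' : Nd m) : Prop where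
  cp : dv ((D : ℤ) ^ r) S'.c = S.c
  tm : S.T / (D : ℤ) ^ (2 * r) = S'.T
  ps : ∀ l, |(S.o l : ℝ) + S.T * (S.c l - S'.c l / (D : ℝ) ^ r) - (D : ℝ) ^ r * S'.o l| ≤ c * (D : ℝ) ^ r

/-- all values on the support have comparable probabilities -/
def Flat {Ω β : Type} [Fintype Ω] (P : Law Ω) (X : Ω → β) (e : ℝ) : Prop :=
  ∀ ω ω', 0 < P.w ω → 0 < P.w ω' → P.pr X (X ω) ≤ Real.exp e * P.pr X (X ω')

/-- the law is dominated by the uniform law -/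
def Dm {Ω : Type} [Fintype Ω] (P : Law Ω) (e : ℝ) : Prop := ∀ ω, P.w ω * Fintype.card Ω ≤ Real.exp e

open Classical in
/-- the number of points of an event -/
def cnt {Ω : Type} [Fintype Ω] (E : Ω → Prop) : ℝ := #(univ.filter E)

/-- the first `k` coordinates in the frame `O` -/
def sl (k : ℕ) (O : Vc m ≃ₗᵢ[ℝ] Vc m) (y : Vc m) : Vc k :=
  WithLp.toLp 2 fun l : Fin k => if h : (l : ℕ) < m then O y ⟨l, h⟩ else 0

/-- the normal coordinates in the frame `O` at the scale `ρ` -/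
def nm (k : ℕ) (O : Vc m ≃ₗᵢ[ℝ] Vc m) (ρ : ℝ) (y : Vc m) : Zv m :=
  fun l => if k ≤ (l : ℕ) then ⌊O y l / ρ⌋ else 0

/-- the position `x - t v⋆` read off the atom `a.1` (of the triple of `s`) and the flat `a.2` -/
def yv (D : ℕ) (s : Jm) (a : Nd m × Pl m) : Vc m :=
  (D : ℝ) ^ (s.j + 2 * s.w) • toV a.1.o + ((D : ℝ) ^ (2 * (s.j + s.w)) * a.1.T) • (vel D s.j a.1.c - a.2.2)

instance : Inhabited (Pl m) := ⟨(LinearIsometryEquiv.refl _ _, 0)⟩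

/-- a valid structure -/
structure St0 (m K : ℕ) (C : ℝ) where
  N : ℕ
  Q : ℝ
  F : Amp m (2 ^ N) K C Q
  V : ℕ → Finset (Nd m)
  A : ℕ → ℝ
  Γ : ℕ → ℝ
  val : Valid F V A Γ
  rts : ∀ x ∈ V 0, (∀ l, |x.c l| ≤ 10) ∧ 0 ≤ x.T ∧ x.T < ((2 ^ N : ℕ) : ℤ) ^ (2 * K)
  C1 : 1 ≤ C
  N4 : 4 ≤ N

namespace St0

variable (G : St0 m K C)

abbrev D : ℕ := 2 ^ G.N

/-- `log D` -/
def lg : ℝ := G.N * Real.log 2

/-- the alive flags -/
abbrev Ω : Type := ↥(flags G.D K G.V)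

/-- the root -/
def x (ω : G.Ω) : Nd m := ω.1.1

/-- the finest cap -/
def τ (ω : G.Ω) : Zv m := ω.1.2

/-- the node of level `i` -/
def S (i : ℕ) (ω : G.Ω) : Nd m := ch G.D K 0 ω.1.1 ω.1.2 i

/-- the ball of level `i` -/
def b (i : ℕ) (ω : G.Ω) : Nd m := ball G.D (G.S i ω)

/-- the cap of level `i` -/
def cp (i : ℕ) (ω : G.Ω) : Zv m := cap G.D K i ω.1.2

/-- the time of level `i` -/
def T (i : ℕ) (ω : G.Ω) : ℤ := (G.S i ω).T

/-- the velocity of level `i` -/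
def v (i : ℕ) (ω : G.Ω) : Vc m := vel G.D i (G.cp i ω)

/-- `x - t v_i` at the root -/
def y (i : ℕ) (ω : G.Ω) : Vc m := toV (xpos (G.x ω)) - ((G.x ω).T : ℝ) • G.v i ω

/-- the product of the degrees -/
def Gm (i j : ℕ) : ℝ := ∏ l ∈ Ico i j, G.Γ l

/-- a block of rank `k` on the levels `J .. J + W`, with the flats `pn` -/
structure Blk (k J W : ℕ) (pn : G.Ω → Pl m) : Prop where
  km : k ≤ m
  le : J + W ≤ K
  str : ∀ ω, InS (pn ω) k ((m + 2) / (G.D : ℝ) ^ (J + W)) (G.v (J + W) ω)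
  bl : ∀ i, J ≤ i → i < J + W → ∀ ω ω', G.b i ω = G.b i ω' → pn ω = pn ω'
  tp : ∀ ω ω', G.S (J + W) ω = G.S (J + W) ω' → pn ω = pn ω'
  atm : ∀ j w, J ≤ j → j + w < J + W → ∀ ω ω',
    atom G.D w (G.S (j + w) ω) = atom G.D w (G.S (j + w) ω') → pn ω = pn ω'

/-- the chosen flats -/
def pn (k J W : ℕ) : G.Ω → Pl m := Classical.epsilon (G.Blk k J W)

/-- the atom and the flat -/
def ξ (s : Jm) (ω : G.Ω) : Nd m × Pl m := (atom G.D s.w (G.S (s.j + s.w) ω), G.pn s.k s.J s.W ω)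

/-- the normal digits at the scale `D ^ i` -/
def Nn (s : Jm) (i : ℕ) (ω : G.Ω) : Zv m := nm s.k (G.ξ s ω).2.1 ((G.D : ℝ) ^ i) (yv G.D s (G.ξ s ω))

/-- the tube system of a jump; side information: cap, flat, normal digits at the scale `D ^ (j + x₀)` -/
def ts (P : Law G.Ω) (s : Jm) (x₀ : ℕ) : TSys G.Ω s.k where
  P := P
  α := Nd m × Pl m
  γ := Zv m × Pl m × Zv m
  ξ := G.ξ s
  z := fun a => (sl s.k a.2.1 ((G.D : ℝ) ^ (2 * s.w) • toV a.1.o), (G.D : ℝ) ^ (2 * s.w) * a.1.T)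
  sd := fun a => (a.1.c, a.2, nm s.k a.2.1 ((G.D : ℝ) ^ (s.j + x₀)) (yv G.D s a))
  u := fun ω => sl s.k (G.pn s.k s.J s.W ω).1 ((G.D : ℝ) ^ s.j • (G.v K ω - G.v s.j ω))

/-- a jump: a level `j` and a width `w` inside a block -/
structure Jd (s : Jm) : Prop where
  blk : G.Blk s.k s.J s.W (G.pn s.k s.J s.W)
  k1 : 1 ≤ s.k
  Jj : s.J ≤ s.j
  lt : s.j + s.w < s.J + s.W
  w1 : 1 ≤ s.w
  cons : ∀ ω ω', G.b s.j ω = G.b s.j ω' →
    atom G.D s.w (G.S (s.j + s.w) ω) = atom G.D s.w (G.S (s.j + s.w) ω')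

/-- the types given by `StVS` -/
def Typ (Tr : Finset (ℕ × ℕ × ℕ)) (β : ℝ) : Prop := ∀ t ∈ Tr, t.2.1 + t.2.2 ≤ K → 1 ≤ t.2.2 →
  Cons G.D G.V t.2.1 t.2.2 ∧ (Nar G.D G.V t.1 t.2.1 t.2.2 ∨ Brd G.D K G.V β t.1 t.2.1 t.2.2)

/-- the window graph condition -/
def Wg (B : ℝ) : Prop := WGA B (((2 : ℤ) ^ G.N) ^ K) (G.V 0)

end St0

/-- a valid structure with a law on the flags -/
structure St (m K : ℕ) (C : ℝ) extends St0 m K C where
  P : Law toSt0.Ω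
  e : ℝ
  e1 : 1 ≤ e
  dom : Dm P e

namespace St

variable (G : St m K C)

/-- the tube system of a jump -/
abbrev tS (s : Jm) (x₀ : ℕ) : TSys G.Ω s.k := G.ts G.P s x₀

/-- the scale `D ^ (2 x)` in bits -/
abbrev bt (x : ℕ) : ℕ := 2 * x * G.N

/-- the cell of side `D ^ (2 x)` and the side information of `x₀` -/
def zn (s : Jm) (x₀ x : ℕ) (ω : G.Ω) : (Zv s.k × ℤ) × (Zv m × Pl m × Zv m) :=
  ((G.tS s x₀).cel (G.bt x) ω, (G.tS s x₀).side ω)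

/-- the state -/
abbrev st (s : Jm) (x : ℕ) := G.zn s x x

/-- position digits -/
def sE (i : ℕ) : ℝ := hc G.P (G.S i) (G.b i)

/-- time digits -/
def tE (i : ℕ) : ℝ := hc G.P (G.T i) (G.S (i + 1))

def g (i : ℕ) : ℝ := Real.log (G.Γ i) / G.lg

def φ (i : ℕ) : ℝ := max (2 * Real.log (G.A i / G.A (i + 1)) / G.lg - G.g i) 0

def δ (i : ℕ) : ℝ := m - G.φ i - G.sE i / G.lg

def a (i : ℕ) : ℝ := max ((2 - G.tE i / G.lg + G.δ i) / 2) 0

def AA (i j : ℕ) : ℝ := ∑ l ∈ Ico i j, G.a l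

def GA (i j : ℕ) : ℝ := ∑ l ∈ Ico i j, G.g l

def ΦA (i j : ℕ) : ℝ := ∑ l ∈ Ico i j, G.φ l

def cost (s : Jm) (x : ℕ) : ℝ :=
  2 * (s.k + 1) * x + ((m : ℝ) - s.k) * x - hc G.P (G.S s.j) (G.st s x) / G.lg

/-- normal digits between two states -/
def ν (s : Jm) (x x' : ℕ) : ℝ := hc G.P (G.Nn s (s.j + x)) (G.st s x')

/-- a link from the level `i` to the level `j` with entropy `h`; the caps agree up to the level `r` -/
structure LD (c : ℝ) (r i j : ℕ) (h : ℝ) where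
  Ω' : Type
  [fin : Fintype Ω']
  R : Law Ω'
  π₁ : Ω' → G.Ω
  π₂ : Ω' → G.Ω
  m₁ : ∀ ω, R.pr π₁ ω = G.P.w ω
  m₂ : ∀ ω, R.pr π₂ ω = G.P.w ω
  near : ∀ ω, 0 < R.w ω → Near G.D (j - i) c (G.S i (π₁ ω)) (G.S j (π₂ ω))
  cp : ∀ ω, 0 < R.w ω → G.cp r (π₁ ω) = G.cp r (π₂ ω)
  ent : h ≤ hc R (fun ω => G.S i (π₁ ω)) fun ω => G.S j (π₂ ω)

attribute [instance] LD.fin

/-- there is a link -/
def LK (c : ℝ) (r i j : ℕ) (h : ℝ) : Prop := Nonempty (G.LD c r i j h)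

/-- the tube system of a link which starts at the roots: unit `D ^ j`, side information at the scale `D ^ (2 j)` -/
def LD.ts {G : St m K C} {c : ℝ} {r j : ℕ} {h : ℝ} (L : G.LD c r 0 j h) : TSys L.Ω' m where
  P := L.R
  α := Nd m
  γ := Zv m × ℤ
  ξ := fun ω => G.x (L.π₁ ω)
  z := fun a => (((G.D : ℝ) ^ j)⁻¹ • toV (xpos a), a.T / (G.D : ℝ) ^ j)
  sd := fun a => (dv ((G.D : ℤ) ^ (2 * j)) (xpos a), a.T / (G.D : ℤ) ^ (2 * j))
  u := fun ω => G.v j (L.π₂ ω)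

/-- the errors are small -/
def Sm (θ β : ℝ) : Prop := G.e ≤ θ * G.lg ∧ Real.exp G.e * β ≤ θ

/-- elementary links -/
def El (c : ℝ) (i j : ℕ) (z : ℝ) : Prop := i < j ∧ j ≤ K ∧ G.LK c i i j (((m + 2) * ((j : ℝ) - i) - z) * G.lg)

/-- the numeric data -/
def dat (c : ℝ) : Dat := ⟨G.a, G.g, G.φ, fun k j w => Nar G.D G.V k j w, G.El c, G.cost⟩

/-- the law is flat for the roots and for the cells of the jumps -/
structure Flt : Prop where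
  x : Flat G.P G.x G.e
  zn : ∀ s x₀ x, G.Jd s → x₀ ≤ K → x ≤ K → Flat G.P (G.zn s x₀ x) G.e

end St

end

end Vale.Agent.P076N.FL
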