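import Vale.Agent.P076N.FL.Apx

/-!
# P076N / FL : row DT1
-/

set_option linter.all false

open Finset Vale.Agent.P127 Vale.Agent.P127.Stk

namespace Vale.Agent.P076N.FL

noncomputable section

namespace Dt1Aux

open ApxAux

variable {m K : ℕ} {C : ℝ}

theorem fl_div (a : ℝ) (D i d : ℕ) :
    ⌊a / (D : ℝ) ^ (i + d)⌋ = ⌊a / (D : ℝ) ^ i⌋ / ((D ^ d : ℕ) : ℤ) := by
  rw [← Int.floor_div_natCast, pow_add, div_div]
  push_cast
  rfl

theorem fl_close {a b ρ c : ℝ} (hρ : 0 < ρ) (h : |a - b| ≤ c * ρ) :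
    |((⌊a / ρ⌋ : ℤ) : ℝ) - (⌊b / ρ⌋ : ℤ)| ≤ c + 1 := by
  have h1 : |a / ρ - b / ρ| ≤ c := by
    rw [← sub_div, abs_div, abs_of_pos hρ, div_le_iff₀ hρ]
    exact h
  rw [abs_le] at h1 ⊢
  constructor <;> linarith [Int.floor_le (a / ρ), Int.lt_floor_add_one (a / ρ),
    Int.floor_le (b / ρ), Int.lt_floor_add_one (b / ρ), h1.1, h1.2]

theorem fl_eq {a b ρ : ℝ} (hρ : 0 < ρ) (h : ⌊a / ρ⌋ = ⌊b / ρ⌋) : |a - b| ≤ ρ := by
  have h1 := (Int.abs_sub_lt_one_of_floor_eq_floor h).le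
  rwa [← sub_div, abs_div, abs_of_pos hρ, div_le_iff₀ hρ, one_mul] at h1

theorem card_ge (k : ℕ) : #(univ.filter fun l : Fin m => k ≤ (l : ℕ)) = m - k := by
  rw [card_filter, Fin.sum_univ_eq_sum_range (fun l => if k ≤ l then 1 else 0) m, ← card_filter,
    ← Nat.card_Ico]
  congr 1
  ext l
  simp [and_comm]

theorem nn_eq (G : St0 m K C) (s : Jm) (i : ℕ) (ω : G.Ω) (l : Fin m) : G.Nn s i ω l =
    if s.k ≤ (l : ℕ) then
      ⌊(G.pn s.k s.J s.W ω).1 (yv G.D s (G.ξ s ω)) l / (G.D : ℝ) ^ i⌋ else 0 := rfl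

/-- the normal position is read off the node of level `i` -/
theorem key {c : ℝ} (h : CH m K C) (ha : APX m K C c) (G : St m K C) (s : Jm) (i : ℕ) (ω : G.Ω)
    (l : Fin m) (hs : G.Jd s) (h1 : s.j + 2 * s.w ≤ i) (h2 : i ≤ s.J + s.W) (hl : s.k ≤ (l : ℕ)) :
    |(G.pn s.k s.J s.W ω).1 (yv G.D s (G.ξ s ω)) l -
      ((G.D : ℝ) ^ i * (G.pn s.k s.J s.W ω).1 (toV (G.S i ω).o) l +
        (G.D : ℝ) ^ (2 * i) * (G.S i ω).T * (G.pn s.k s.J s.W ω).1
          (vel G.D i (G.S i ω).c - (G.pn s.k s.J s.W ω).2) l)| ≤ (c + 5 * m + 2) * (G.D : ℝ) ^ i := by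
  have hiK : i ≤ K := h2.trans hs.blk.le
  have hD := Dpos G.toSt0
  have hDi : (0 : ℝ) < (G.D : ℝ) ^ i := pow_pos hD _
  set p := G.pn s.k s.J s.W ω with hp
  have e1 := ha.n G s ω l hs hl
  have e2 : |p.1 (G.y i ω - (G.D : ℝ) ^ i • toV (G.S i ω).o) l| ≤ m * (3 * (G.D : ℝ) ^ i) :=
    rot1 _ _ _ (fun l => by
      rw [PiLp.sub_apply]
      exact h.ps G.toSt0 i ω l hiK) l
  have e3 := tim h G.toSt0 i ω
  have e4 := (ha.str G.toSt0 _ _ _ _ ω hs.blk).2 i h2 l hl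
  have e5 : vel G.D i (G.S i ω).c = G.v i ω := by
    rw [h.c G.toSt0 i ω hiK]; rfl
  have e6 : toV (xpos (G.x ω)) - ((G.x ω).T : ℝ) • p.2 =
      (G.y i ω - (G.D : ℝ) ^ i • toV (G.S i ω).o) + (G.D : ℝ) ^ i • toV (G.S i ω).o +
        ((G.x ω).T : ℝ) • (G.v i ω - p.2) := by
    simp only [St0.y]
    module
  rw [← hp, e6, map_add, map_add, map_smul, map_smul] at e1
  simp only [PiLp.add_apply, PiLp.smul_apply, smul_eq_mul] at e1
  rw [e5]
  rw [← hp] at e4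
  set A := p.1 (yv G.D s (G.ξ s ω)) l
  set B := p.1 (G.y i ω - (G.D : ℝ) ^ i • toV (G.S i ω).o) l
  set E := p.1 (toV (G.S i ω).o) l
  set F := p.1 (G.v i ω - p.2) l
  set T₀ : ℝ := ((G.x ω).T : ℝ)
  set T₁ : ℝ := (G.D : ℝ) ^ (2 * i) * (G.S i ω).T
  have e7 : |(T₀ - T₁) * F| ≤ (2 * m + 2) * (G.D : ℝ) ^ i := by
    rw [abs_mul, abs_sub_comm]
    calc _ ≤ (G.D : ℝ) ^ (2 * i) * ((2 * m + 2) / (G.D : ℝ) ^ i) := by gcongr
      _ = _ := by rw [two_mul i, pow_add]; field_simp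
  have e8 : c * (G.D : ℝ) ^ (s.j + 2 * s.w) ≤ c * (G.D : ℝ) ^ i :=
    mul_le_mul_of_nonneg_left (pow_le_pow_right₀ (Done G.toSt0) h1) (zero_le_one.trans ha.c1)
  have e9 : A - ((G.D : ℝ) ^ i * E + T₁ * F) =
      (A - (B + (G.D : ℝ) ^ i * E + T₀ * F)) + B + (T₀ - T₁) * F := by ring
  rw [e9]
  refine (abs_add_three _ _ _).trans ?_
  linarith

theorem nest (G : St0 m K C) (s : Jm) (i i' : ℕ) (ω ω' : G.Ω) (hi : i ≤ i')
    (e : G.Nn s i ω = G.Nn s i ω') : G.Nn s i' ω = G.Nn s i' ω' := by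
  obtain ⟨d, rfl⟩ := Nat.exists_eq_add_of_le hi
  funext l
  have e1 := congrFun e l
  rw [nn_eq, nn_eq] at e1 ⊢
  split_ifs at e1 ⊢ with hl
  · rw [fl_div, fl_div, e1]
  · rfl

theorem dig (G : St m K C) (s : Jm) (i i' : ℕ) (hk : s.k ≤ m) (hi : i ≤ i') :
    hc G.P (G.Nn s i) (G.Nn s i') ≤ ((m : ℝ) - s.k) * ((i' : ℝ) - i) * G.lg := by
  obtain ⟨d, rfl⟩ := Nat.exists_eq_add_of_le hi
  have hq : (0 : ℤ) < ((G.D ^ d : ℕ) : ℤ) := by simp [St0.D]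
  refine (hc_le_log G.P _ _ ((G.D ^ d) ^ (m - s.k)) fun ω _ => ?_).trans (le_of_eq ?_)
  · refine ⟨Fintype.piFinset fun l => if s.k ≤ (l : ℕ) then
      Finset.Ico (((G.D ^ d : ℕ) : ℤ) * G.Nn s (i + d) ω l)
        (((G.D ^ d : ℕ) : ℤ) * G.Nn s (i + d) ω l + ((G.D ^ d : ℕ) : ℤ)) else {0}, ?_,
      fun ω' _ e => ?_⟩
    · rw [Fintype.card_piFinset, ← card_ge s.k, ← prod_const, prod_filter]
      refine le_of_eq (prod_congr rfl fun l _ => ?_)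
      split_ifs
      · rw [Int.card_Ico, add_sub_cancel_left, Int.toNat_natCast]
      · rfl
    · rw [Fintype.mem_piFinset]
      intro l
      rw [← e, nn_eq, nn_eq]
      split_ifs with hl
      · rw [fl_div, Finset.mem_Ico]
        have h1 := Int.mul_ediv_add_emod
          ⌊(G.pn s.k s.J s.W ω').1 (yv G.D s (G.ξ s ω')) l / (G.D : ℝ) ^ i⌋ ((G.D ^ d : ℕ) : ℤ)
        have h2 := Int.emod_nonneg
          ⌊(G.pn s.k s.J s.W ω').1 (yv G.D s (G.ξ s ω')) l / (G.D : ℝ) ^ i⌋ hq.ne'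
        have h3 := Int.emod_lt_of_pos
          ⌊(G.pn s.k s.J s.W ω').1 (yv G.D s (G.ξ s ω')) l / (G.D : ℝ) ^ i⌋ hq
        constructor <;> linarith
      · exact mem_singleton_self _
  · simp only [St0.D, St0.lg]
    push_cast [Nat.cast_sub hk]
    rw [Real.log_pow, Real.log_pow, Real.log_pow, Nat.cast_sub hk]
    ring

end Dt1Aux

open Dt1Aux ApxAux in
/-- row FL.DT1 -/
theorem dt1 : ∀ m, B0 m → ∀ K C, ∃ c, DT1 m K C c := by
  intro m h K C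
  obtain ⟨c, ha⟩ := h.apx K C
  have hch := h.ch K C
  have hm : (0 : ℝ) ≤ m := Nat.cast_nonneg m
  have hc1 := ha.c1
  set c' := c + 5 * m + 2 with hc'
  have c0 : 0 ≤ 2 * c' + 1 := by linarith
  have l0 : 0 ≤ m * Real.log (2 * (2 * c' + 1) + 1) :=
    mul_nonneg hm (Real.log_nonneg (by linarith))
  refine ⟨m * Real.log (2 * (2 * c' + 1) + 1) + (2 * c' + 1), by linarith,
    fun G s x hs _ => ?_, fun G s i hs h1 h2 => ?_,
    fun G s i i' ω ω' hi e => nest G.toSt0 s i i' ω ω' hi e,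
    fun G s i i' hk hi => dig G s i i' hk hi, fun G s i ω ω' hs h1 h2 eb en l hl => ?_⟩
  · rw [hc_zero]
    · linarith
    · intro ω ω' _ _ e
      have e1 : G.ξ s ω = G.ξ s ω' := by
        have := hs.lt
        refine Prod.ext (hs.cons ω ω' (congrArg (ball G.D) e)) ?_
        exact ha.pn G.toSt0 _ _ _ _ s.j ω ω' hs.blk hs.Jj (by omega) e
      simp only [St.zn, TSys.cel, TSys.side, TSys.x, TSys.tm, TSys.t]
      rw [show (G.tS s x).ξ ω = (G.tS s x).ξ ω' from e1]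
  · refine (h.ent.det _ _ G.P m _ _ (2 * c' + 1) c0 fun ω ω' _ _ e l => ?_).trans (by linarith)
    have hJ := hs.Jj
    have e1 := ha.pn G.toSt0 _ _ _ _ i ω ω' hs.blk (by omega) h2 e
    rw [nn_eq, nn_eq]
    split_ifs with hl
    · have k1 := key hch ha G s i ω l hs h1 h2 hl
      have k2 := key hch ha G s i ω' l hs h1 h2 hl
      refine fl_close (pow_pos (Dpos G.toSt0) _) ?_
      rw [e1, e] at k1
      rw [e1]
      rw [abs_le] at k1 k2 ⊢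
      constructor <;> linarith [k1.1, k1.2, k2.1, k2.2]
    · simpa using c0
  · have hJ := hs.Jj
    have e1 := hs.blk.bl i (by omega) h2 ω ω' eb
    have ec : (G.S i ω).c = (G.S i ω').c := (congrArg Nd.c eb :)
    have eT : (G.S i ω).T = (G.S i ω').T := (congrArg Nd.T eb :)
    have k1 := key hch ha G s i ω l hs h1 h2.le hl
    have k2 := key hch ha G s i ω' l hs h1 h2.le hl
    have k3 := congrFun en l
    have hDi : (0 : ℝ) < (G.D : ℝ) ^ i := pow_pos (Dpos G.toSt0) _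
    rw [nn_eq, nn_eq, if_pos hl, if_pos hl] at k3
    have k4 := fl_eq hDi k3
    rw [← e1] at k2 k4
    rw [ec, eT] at k1
    have k5 : |(G.pn s.k s.J s.W ω).1 (toV (G.S i ω').o) l -
        (G.pn s.k s.J s.W ω).1 (toV (G.S i ω).o) l| ≤ 2 * c' + 1 := by
      refine le_of_mul_le_mul_right ?_ hDi
      rw [← abs_of_pos hDi, ← abs_mul, abs_of_pos hDi]
      rw [abs_le] at k1 k2 k4 ⊢
      constructor <;> linarith [k1.1, k1.2, k2.1, k2.2, k4.1, k4.2]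
    simp only [map_sub, PiLp.sub_apply]
    linarith

end

end Vale.Agent.P076N.FL
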