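import Vale.Agent.P076N.FL.Apx

/-!
# P076N / FL : row DT2
-/

set_option linter.all false

open Finset Vale.Agent.P127 Vale.Agent.P127.Stk

namespace Vale.Agent.P076N.FL

noncomputable section

namespace Dt2Aux

open ApxAux

variable {m K : ℕ} {C : ℝ}

theorem det (h : ENT) {Ω α β : Type} [Fintype Ω] (P : Law Ω) {n : ℕ} (hn : n ≤ m) (X : Ω → α)
    (X' : Ω → Zv n) (Y : Ω → β) {c : ℝ} (hc0 : 0 ≤ c)
    (h1 : ∀ ω ω', X' ω = X' ω' → Y ω = Y ω' → X ω = X ω')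
    (h2 : ∀ ω ω', Y ω = Y ω' → ∀ l, |(X' ω l : ℝ) - X' ω' l| ≤ c) :
    hc P X Y ≤ m * Real.log (2 * c + 1) :=
  (hc_mono_left P fun ω ω' _ _ e => h1 ω ω' (congrArg Prod.fst e) (congrArg Prod.snd e)).trans
    ((h.det Ω β P n X' Y c hc0 fun ω ω' _ _ e => h2 ω ω' e).trans
      (mul_le_mul_of_nonneg_right (by exact_mod_cast hn) (Real.log_nonneg (by linarith))))

theorem bt_eq (G : St m K C) (x : ℕ) : (2 : ℝ) ^ G.bt x = (G.D : ℝ) ^ (2 * x) := by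
  push_cast
  rw [← pow_mul]
  congr 1
  simp only [St.bt]
  ring

theorem tim2 (h : CH m K C) (G : St0 m K C) (i : ℕ) (ω ω' : G.Ω) (e : G.T i ω = G.T i ω') :
    |((G.x ω).T : ℝ) - (G.x ω').T| ≤ 2 * (G.D : ℝ) ^ (2 * i) := by
  have h1 := abs_le.1 (tim h G i ω)
  have h2 := abs_le.1 (tim h G i ω')
  rw [show (G.S i ω).T = (G.S i ω').T from e] at h1
  rw [abs_le]
  constructor <;> linarith [h1.1, h1.2, h2.1, h2.2]

theorem pos2 (h : CH m K C) (G : St0 m K C) (i : ℕ) (ω ω' : G.Ω) (hi : i ≤ K)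
    (e : G.S i ω = G.S i ω') (l : Fin m) : |G.y i ω l - G.y i ω' l| ≤ 6 * (G.D : ℝ) ^ i := by
  have h1 := abs_le.1 (h.ps G i ω l hi)
  have h2 := abs_le.1 (h.ps G i ω' l hi)
  rw [e] at h1
  rw [abs_le]
  constructor <;> linarith [h1.1, h1.2, h2.1, h2.2]

theorem shift (h : CH m K C) (G : St0 m K C) (a b : ℕ) (ω ω' : G.Ω) (hab : a ≤ b) (hb : b ≤ K)
    (e : G.cp b ω = G.cp b ω') (l : Fin m) {r : ℝ} (hr : |((G.x ω).T : ℝ) - (G.x ω').T| ≤ r) :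
    |(G.y a ω l - G.y a ω' l) - (G.y b ω l - G.y b ω' l)| ≤ r * ((G.D : ℝ) ^ a)⁻¹ := by
  have e1 : G.v b ω' = G.v b ω := by simp only [St0.v, e]
  have e2 : G.v a ω' = G.v a ω := by simp only [St0.v, h.cpn G a b _ hab hb, e]
  have := h.vv G a b ω l hab hb
  rw [show (G.y a ω l - G.y a ω' l) - (G.y b ω l - G.y b ω' l) =
    (((G.x ω).T : ℝ) - (G.x ω').T) * (G.v b ω l - G.v a ω l) by
      simp only [St0.y, e1, e2, PiLp.sub_apply, PiLp.smul_apply, smul_eq_mul]; ring,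
    abs_mul, abs_of_nonneg this.1]
  exact mul_le_mul hr this.2 this.1 ((abs_nonneg _).trans hr)

theorem sl_eq {k : ℕ} (O : Vc m ≃ₗᵢ[ℝ] Vc m) (y : Vc m) (l : Fin k) (hl : (l : ℕ) < m) :
    sl k O y l = O y ⟨l, hl⟩ := by simp only [sl, dif_pos hl]

theorem u_eq (G : St m K C) (s : Jm) (x₀ : ℕ) (ω : G.Ω) (l : Fin s.k) (hl : (l : ℕ) < m) :
    (G.tS s x₀).u ω l =
      (G.D : ℝ) ^ s.j * (G.pn s.k s.J s.W ω).1 (G.v K ω - G.v s.j ω) ⟨l, hl⟩ := by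
  rw [show (G.tS s x₀).u ω = sl s.k (G.pn s.k s.J s.W ω).1
    ((G.D : ℝ) ^ s.j • (G.v K ω - G.v s.j ω)) from rfl, sl_eq _ _ _ hl, map_smul]
  rfl

theorem tube (h : CH m K C) {c : ℝ} (a : APX m K C c) (G : St m K C) (s : Jm) (x₀ : ℕ) (ω : G.Ω)
    (hs : G.Jd s) (l : Fin s.k) (hl : (l : ℕ) < m) :
    |(G.D : ℝ) ^ s.j * ((G.tS s x₀).x ω - (G.tS s x₀).t ω • (G.tS s x₀).u ω) l -
      (G.pn s.k s.J s.W ω).1 (G.y K ω) ⟨l, hl⟩| ≤ (c + m) * (G.D : ℝ) ^ (s.j + 2 * s.w) := by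
  have hD := Dpos G.toSt0
  have h1 := a.x G s x₀ ω l hs
  have h2 := a.t G s x₀ ω hs
  have h3 : |(G.pn s.k s.J s.W ω).1 (G.v K ω - G.v s.j ω) ⟨l, hl⟩| ≤ m * ((G.D : ℝ) ^ s.j)⁻¹ :=
    rot1 _ _ _ (fun l => by
      have := h.vv G.toSt0 s.j K ω l (le_trans (Nat.le_add_right _ _) (jK hs)) le_rfl
      rw [PiLp.sub_apply, abs_of_nonneg this.1]
      exact this.2) _
  have e : G.y K ω = G.y s.j ω - ((G.x ω).T : ℝ) • (G.v K ω - G.v s.j ω) := by
    simp only [St0.y]; module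
  rw [sl_eq _ _ _ hl] at h1
  rw [e, map_sub, map_smul, PiLp.sub_apply, PiLp.sub_apply, PiLp.smul_apply, PiLp.smul_apply,
    u_eq G s x₀ ω l hl, smul_eq_mul, smul_eq_mul]
  have h4 := mul_le_mul h2 h3 (abs_nonneg _) (by positivity)
  rw [← abs_mul, show (G.D : ℝ) ^ (2 * (s.j + s.w)) * (m * ((G.D : ℝ) ^ s.j)⁻¹) =
    m * (G.D : ℝ) ^ (s.j + 2 * s.w) by field_simp; ring] at h4
  refine le_trans (le_of_eq ?_) ((abs_sub _ _).trans ((add_le_add h1 h4).trans_eq (by ring)))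
  congr 1
  ring

theorem fin {D A B c c' r : ℝ} {z z' : ℝ} {j p q x : ℕ} (hD : 1 ≤ D) (hc : 0 ≤ c) (hr : 0 ≤ r)
    (h1 : |D ^ j * z - A| ≤ c * D ^ p) (h2 : |D ^ j * z' - B| ≤ c * D ^ p) (h3 : |A - B| ≤ r * D ^ q)
    (hp : p ≤ j + x) (hq : q ≤ j + x) (hc' : 2 * c + r ≤ c') : |z - z'| ≤ c' * D ^ x := by
  have h0 : 0 < D ^ j := by positivity
  have h4 := mul_le_mul_of_nonneg_left (pow_le_pow_right₀ hD hp) hc
  have h5 := mul_le_mul_of_nonneg_left (pow_le_pow_right₀ hD hq) hr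
  have h6 := mul_le_mul_of_nonneg_right hc' (show 0 ≤ D ^ (j + x) by positivity)
  rw [← mul_le_mul_iff_right₀ h0, ← abs_of_pos h0, ← abs_mul, abs_of_pos h0,
    show D ^ j * (c' * D ^ x) = c' * D ^ (j + x) by ring, abs_le]
  rw [abs_le] at h1 h2 h3
  constructor <;> linarith [h1.1, h1.2, h2.1, h2.2, h3.1, h3.2]

end Dt2Aux

open ApxAux Dt2Aux in
/-- row FL.DT2 -/
theorem dt2 : ∀ m, B0 m → ∀ K C, ∃ c, DT2 m K C c := by
  intro m b K C
  obtain ⟨c, a⟩ := b.apx K C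
  have h := b.ch K C
  have hm : (0 : ℝ) ≤ m := Nat.cast_nonneg m
  have c1 := a.c1
  obtain ⟨c', hc1, hc2⟩ : ∃ c' : ℝ, 2 * (c + m) + 8 * m ≤ c' ∧ m * (4 * m + 4) ≤ c' :=
    ⟨_, le_max_left _ _, le_max_right _ _⟩
  have hc0 : 0 ≤ c' + 1 := by linarith
  refine ⟨m * Real.log (2 * (c' + 1) + 1), mul_nonneg hm (Real.log_nonneg (by linarith)),
    fun G s x₀ i hs hx h1 h2 h3 => ?_, fun G s x₀ y hs hy => ?_, fun G s x hs hk hx h3 => ?_⟩
  · have hD := Dpos G.toSt0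
    have hi : i ≤ K := h3.trans hs.blk.le
    have hp : ∀ ω ω', G.S i ω = G.S i ω' → G.pn s.k s.J s.W ω = G.pn s.k s.J s.W ω' :=
      fun ω ω' e => a.pn _ _ _ _ _ i ω ω' hs.blk (hs.Jj.trans h1) h3 e
    refine det b.ent G.P hs.blk.km _ (fun ω => ((G.tS s x₀).tub (G.bt x₀) ω).2) _ hc0
      (fun ω ω' e e' => ?_) fun ω ω' e => ?_
    · have e1 := hp ω ω' (congrArg Prod.fst e')
      have e2 : ω.1.2 = ω'.1.2 := (Prod.ext_iff.1 e').2
      refine Prod.ext (Prod.ext ?_ e) (Prod.ext ?_ e1)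
      · simp only [TSys.tub, St0.ts, St0.v, St0.cp, e1, e2]
      · simp only [St0.cp, e2]
    · have e1 : G.S i ω = G.S i ω' := congrArg Prod.fst e
      have e2 : ω.1.2 = ω'.1.2 := (Prod.ext_iff.1 e).2
      refine b.tsa.fl _ _ _ _ _ (by positivity) fun l => ?_
      have hl : (l : ℕ) < m := lt_of_lt_of_le l.2 hs.blk.km
      have t1 := tube h a G s x₀ ω hs l hl
      have t2 := tube h a G s x₀ ω' hs l hl
      rw [← hp ω ω' e1] at t2
      rw [bt_eq]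
      refine fin (Done G.toSt0) (by linarith) (by positivity : 0 ≤ 8 * (m : ℝ)) t1 t2 ?_ (by omega) h2 hc1
      rw [← PiLp.sub_apply, ← map_sub]
      refine (rot1 _ _ (8 * (G.D : ℝ) ^ i) (fun l => ?_) _).trans_eq (by ring)
      have k1 := abs_le.1 (shift h G.toSt0 i K ω ω' hi le_rfl (by simp only [St0.cp, e2]) l
        (tim2 h G.toSt0 i ω ω' (congrArg Nd.T e1)))
      have k2 := abs_le.1 (pos2 h G.toSt0 i ω ω' hi e1 l)
      rw [show 2 * (G.D : ℝ) ^ (2 * i) * ((G.D : ℝ) ^ i)⁻¹ = 2 * (G.D : ℝ) ^ i by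
        field_simp; ring] at k1
      rw [PiLp.sub_apply, abs_le]
      constructor <;> linarith [k1.1, k1.2, k2.1, k2.2]
  · have hD := Dpos G.toSt0
    have hK : s.j + y ≤ K := hy.trans hs.blk.le
    have h0 := pow_pos hD (s.j + y)
    refine det b.ent G.P le_rfl _ (G.cp (s.j + y)) _ hc0 (fun _ _ e _ => e) fun ω ω' e l => ?_
    have e1 : G.ξ s ω = G.ξ s ω' := congrArg Prod.snd e
    have e2 : G.pn s.k s.J s.W ω = G.pn s.k s.J s.W ω' := congrArg Prod.snd e1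
    have e3 : G.v s.j ω = G.v s.j ω' := by
      simp only [St0.v, ← (h.atm G.toSt0 s.j s.w _ (jK hs)).1]
      exact congrArg (fun z => vel G.D s.j z.1.c) e1
    have k0 := b.tsa.fl' _ _ _ _ (by positivity) (congrArg Prod.fst e)
    have k1 := (a.rot (G.pn s.k s.J s.W ω).1 (G.v K ω - G.v K ω')
      ((4 * m + 4) * ((G.D : ℝ) ^ (s.j + y))⁻¹)).2 (fun l => by
        by_cases hl : s.k ≤ (l : ℕ)
        · have s1 := abs_le.1 ((a.str G.toSt0 _ _ _ _ ω hs.blk).1 l hl)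
          have s2 := abs_le.1 ((a.str G.toSt0 _ _ _ _ ω' hs.blk).1 l hl)
          have s3 : (2 * m + 2) / (G.D : ℝ) ^ (s.J + s.W) ≤ (2 * m + 2) * ((G.D : ℝ) ^ (s.j + y))⁻¹ :=
            div_le_div_of_nonneg_left (by positivity) h0 (pow_le_pow_right₀ (Done G.toSt0) hy)
          rw [← e2] at s2
          simp only [map_sub, PiLp.sub_apply] at s1 s2 ⊢
          rw [abs_le]
          constructor <;> linarith [s1.1, s1.2, s2.1, s2.2]
        · have s1 := k0 ⟨l, not_le.1 hl⟩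
          rw [u_eq G s x₀ ω _ l.2, u_eq G s x₀ ω' _ l.2, ← e2, ← e3, ← mul_sub, ← PiLp.sub_apply,
            ← map_sub, sub_sub_sub_cancel_right, abs_mul, abs_of_pos (pow_pos hD _),
            ← le_inv_mul_iff₀ (pow_pos hD _), show (2 : ℝ) ^ (y * G.N) = (G.D : ℝ) ^ y by
              push_cast; rw [← pow_mul, mul_comm], ← mul_inv, ← pow_add] at s1
          exact s1.trans (le_mul_of_one_le_left (by positivity) (by linarith))) l
    have k2 := h.vv G.toSt0 _ K ω l hK le_rfl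
    have k3 := h.vv G.toSt0 _ K ω' l hK le_rfl
    have k4 := mul_le_mul_of_nonneg_right hc2 (inv_pos.2 h0).le
    have e4 : ∀ ω, G.v (s.j + y) ω l = ((G.D : ℝ) ^ (s.j + y))⁻¹ * G.cp (s.j + y) ω l := fun _ => rfl
    rw [PiLp.sub_apply, abs_le] at k1
    rw [e4] at k2 k3
    rw [← mul_le_mul_iff_right₀ (inv_pos.2 h0), ← abs_of_pos (inv_pos.2 h0), ← abs_mul,
      abs_of_pos (inv_pos.2 h0), abs_le]
    constructor <;> linarith [k1.1, k1.2, k2.1, k2.2, k3.1, k3.2]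
  · have hD := Dpos G.toSt0
    have hi : s.j + 2 * x ≤ K := h3.trans hs.blk.le
    have hp : ∀ ω ω', G.S (s.j + 2 * x) ω = G.S (s.j + 2 * x) ω' →
        G.pn s.k s.J s.W ω = G.pn s.k s.J s.W ω' :=
      fun ω ω' e => a.pn _ _ _ _ _ _ ω ω' hs.blk (hs.Jj.trans (Nat.le_add_right _ _)) h3 e
    have hcp : ∀ ω ω', G.S (s.j + 2 * x) ω = G.S (s.j + 2 * x) ω' →
        G.cp (s.j + 2 * x) ω = G.cp (s.j + 2 * x) ω' := fun ω ω' e => by
      rw [← h.c _ _ _ hi, ← h.c _ _ _ hi, e]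
    refine det b.ent G.P hs.blk.km _ (fun ω => ((G.tS s x).cel (G.bt x) ω).1) _ hc0
      (fun ω ω' e e' => ?_) fun ω ω' e => ?_
    · have e1 : G.S (s.j + 2 * x) ω = G.S (s.j + 2 * x) ω' := congrArg Prod.snd e'
      refine Prod.ext (Prod.ext e ?_) ?_
      · exact (a.tm G s x x ω hs (by omega)).trans
          ((congrArg Prod.fst e').trans (a.tm G s x x ω' hs (by omega)).symm)
      · refine (a.side G s x ω hs).trans (Eq.trans ?_ (a.side G s x ω' hs).symm)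
        refine Prod.ext ?_ (Prod.ext (hp ω ω' e1) (funext fun l => ?_))
        · simp only [h.cpn G.toSt0 s.j _ _ (Nat.le_add_right _ _) hi, hcp ω ω' e1]
        · have hl : ¬ s.k ≤ (l : ℕ) := by have := l.2; omega
          simp only [St0.Nn, nm, if_neg hl]
    · have e1 : G.S (s.j + 2 * x) ω = G.S (s.j + 2 * x) ω' := congrArg Prod.snd e
      refine b.tsa.fl _ _ _ _ _ (by positivity) fun l => ?_
      have hl : (l : ℕ) < m := lt_of_lt_of_le l.2 hs.blk.km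
      have t1 := a.x G s x ω l hs
      have t2 := a.x G s x ω' l hs
      rw [← hp ω ω' e1] at t2
      rw [sl_eq _ _ _ hl] at t1 t2
      rw [bt_eq]
      refine fin (Done G.toSt0) (by linarith) (by positivity : 0 ≤ 8 * (m : ℝ)) t1 t2 ?_ (by omega)
        le_rfl (by linarith)
      rw [← PiLp.sub_apply, ← map_sub]
      refine (rot1 _ _ (8 * (G.D : ℝ) ^ (s.j + 2 * x)) (fun l => ?_) _).trans_eq (by ring)
      have k1 := abs_le.1 (shift h G.toSt0 s.j _ ω ω' (Nat.le_add_right _ _) hi (hcp ω ω' e1) l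
        (tim2 h G.toSt0 (s.j + x) ω ω' (congrArg Prod.fst e)))
      have k2 := abs_le.1 (pos2 h G.toSt0 _ ω ω' hi e1 l)
      rw [show 2 * (G.D : ℝ) ^ (2 * (s.j + x)) * ((G.D : ℝ) ^ s.j)⁻¹ = 2 * (G.D : ℝ) ^ (s.j + 2 * x) by
        field_simp; ring] at k1
      rw [PiLp.sub_apply, abs_le]
      constructor <;> linarith [k1.1, k1.2, k2.1, k2.2]

end

end Vale.Agent.P076N.FL
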