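import Vale.Agent.P076N.FL.Spec

/-!
# P076N / FL : row DT3
-/

set_option linter.all false

open Finset Vale.Agent.P127 Vale.Agent.P127.Stk

namespace Vale.Agent.P076N.FL

noncomputable section

namespace Dt3Aux

variable {m K : ℕ} {C : ℝ}

theorem Done (G : St0 m K C) : (1 : ℝ) ≤ G.D := by
  exact_mod_cast Nat.one_le_two_pow

theorem Dz (G : St0 m K C) (n : ℕ) : (0 : ℤ) < (G.D : ℤ) ^ n := by
  simp [St0.D]

theorem ediv_close {a b q : ℤ} (hq : 0 < q) (h : a / q = b / q) : |(a : ℝ) - b| ≤ q := by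
  have h1 := Int.mul_ediv_add_emod a q
  have h2 := Int.mul_ediv_add_emod b q
  have h3 := Int.emod_nonneg a hq.ne'
  have h4 := Int.emod_nonneg b hq.ne'
  have h5 := Int.emod_lt_of_pos a hq
  have h6 := Int.emod_lt_of_pos b hq
  have h7 : |a - b| ≤ q := by
    rw [h] at h1
    rw [abs_le]
    constructor <;> linarith
  exact_mod_cast h7

theorem ediv_near (a : ℤ) {q : ℤ} (hq : 0 < q) : |((a / q : ℤ) : ℝ) - a / q| ≤ 1 := by
  have hq' : (0 : ℝ) < q := by exact_mod_cast hq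
  have h1 := ediv_close (a := q * (a / q)) (b := a) hq (Int.mul_ediv_cancel_left _ hq.ne')
  have e : ((a / q : ℤ) : ℝ) - a / q = (((q * (a / q) : ℤ) : ℝ) - a) / q := by
    push_cast
    field_simp
  rw [e, abs_div, abs_of_pos hq', div_le_one hq']
  exact h1

theorem floor_close {a b ρ : ℝ} (hρ : 0 < ρ) (h : ⌊a / ρ⌋ = ⌊b / ρ⌋) : |a - b| ≤ ρ := by
  have h1 := Int.abs_sub_lt_one_of_floor_eq_floor h
  rw [← sub_div, abs_div, abs_of_pos hρ, div_lt_one hρ] at h1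
  exact h1.le

theorem three {a b a' b' r r' : ℝ} (h1 : |a' - a| ≤ r) (h2 : |b' - b| ≤ r) (h3 : |a' - b'| ≤ r') :
    |a - b| ≤ 2 * r + r' := by
  rw [abs_le] at *
  constructor <;> linarith [h1.1, h1.2, h2.1, h2.2, h3.1, h3.2]

theorem key {c : ℝ} (hT : TSA) (hA : APX m K C c) (G : St m K C) (s : Jm) (x₀ x : ℕ) (ω ω' : G.Ω)
    (hJ : G.Jd s) (R : ℝ) (h : G.zn s x₀ x ω = G.zn s x₀ x ω')
    (r1 : (G.D : ℝ) ^ (s.j + 2 * s.w) ≤ R) (r2 : (G.D : ℝ) ^ (s.j + 2 * x) ≤ R)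
    (r3 : (G.D : ℝ) ^ (s.j + x₀) ≤ R) (r4 : |((G.x ω).T : ℝ) - (G.x ω').T| ≤ (G.D : ℝ) ^ s.j * R) :
    G.cp s.j ω = G.cp s.j ω' ∧ ∀ l, |G.y s.j ω l - G.y s.j ω' l| ≤ m * (2 * c + 2 * m + 3) * R := by
  have hD1 := Done G.toSt0
  have hD : (0 : ℝ) < G.D := by linarith
  have hc0 : 0 ≤ c := by linarith [hA.c1]
  have hR : 0 ≤ R := (pow_pos hD _).le.trans r1
  have hm : (0 : ℝ) ≤ m := Nat.cast_nonneg m
  have h1 : flv (2 ^ G.bt x) ((G.tS s x₀).x ω) = flv (2 ^ G.bt x) ((G.tS s x₀).x ω') :=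
    congrArg (fun z => z.1.1) h
  have h2 : (G.tS s x₀).side ω = (G.tS s x₀).side ω' := congrArg Prod.snd h
  rw [hA.side G s x₀ ω hJ, hA.side G s x₀ ω' hJ] at h2
  have hc : G.cp s.j ω = G.cp s.j ω' := congrArg Prod.fst h2
  have hp : G.pn s.k s.J s.W ω = G.pn s.k s.J s.W ω' := congrArg (fun z => z.2.1) h2
  have hn : G.Nn s (s.j + x₀) ω = G.Nn s (s.j + x₀) ω' := congrArg (fun z => z.2.2) h2
  have hv : G.v s.j ω = G.v s.j ω' := by unfold St0.v; rw [hc]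
  have hcr : c * (G.D : ℝ) ^ (s.j + 2 * s.w) ≤ c * R := mul_le_mul_of_nonneg_left r1 hc0
  refine ⟨hc, fun l => ?_⟩
  rw [← PiLp.sub_apply, mul_assoc]
  refine (hA.rot (G.pn s.k s.J s.W ω).1 _ _).2 (fun l => ?_) l
  rw [map_sub, PiLp.sub_apply]
  by_cases hl : s.k ≤ (l : ℕ)
  · have n1 := hA.n G s ω l hJ hl
    have n2 := hA.n G s ω' l hJ hl
    rw [← hp] at n2
    have n3 : |(G.pn s.k s.J s.W ω).1 (yv G.D s (G.ξ s ω)) l -
        (G.pn s.k s.J s.W ω).1 (yv G.D s (G.ξ s ω')) l| ≤ (G.D : ℝ) ^ (s.j + x₀) := by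
      refine floor_close (pow_pos hD _) ?_
      have := congrFun hn l
      simp only [St0.Nn, nm, if_pos hl] at this
      have e : (G.ξ s ω').2 = G.pn s.k s.J s.W ω := hp.symm
      rw [e] at this
      exact this
    have n4 := three n1 n2 n3
    have n5 := (hA.str G.toSt0 s.k s.J s.W _ ω hJ.blk).2 s.j (by have := hJ.lt; omega) l hl
    have e : ∀ (X v p : Vc m) (t : ℝ) (O : Vc m ≃ₗᵢ[ℝ] Vc m),
        O (X - t • v) l = O (X - t • p) l - t * O (v - p) l := fun X v p t O => by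
      have : X - t • v = (X - t • p) - t • (v - p) := by rw [smul_sub]; abel
      rw [this, map_sub O (X - t • p), map_smul, PiLp.sub_apply, PiLp.smul_apply, smul_eq_mul]
    have n6 : |(((G.x ω).T : ℝ) - (G.x ω').T) *
        (G.pn s.k s.J s.W ω).1 (G.v s.j ω - (G.pn s.k s.J s.W ω).2) l| ≤ (2 * m + 2) * R := by
      rw [abs_mul]
      refine (mul_le_mul r4 n5 (abs_nonneg _) (by positivity)).trans_eq ?_
      field_simp
    unfold St0.y
    rw [← hv, e _ (G.v s.j ω) (G.pn s.k s.J s.W ω).2 (G.x ω).T,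
      e _ (G.v s.j ω) (G.pn s.k s.J s.W ω).2 (G.x ω').T]
    rw [sub_mul, abs_le] at n6
    rw [abs_le] at n4 ⊢
    constructor <;> linarith [n4.1, n4.2, n6.1, n6.2]
  · have hl' : (l : ℕ) < s.k := by omega
    have n1 := hA.x G s x₀ ω ⟨l, hl'⟩ hJ
    have n2 := hA.x G s x₀ ω' ⟨l, hl'⟩ hJ
    rw [← hp] at n2
    have n3 := hT.fl' _ _ _ _ (by positivity) h1 ⟨l, hl'⟩
    have n4 : |(G.D : ℝ) ^ s.j * (G.tS s x₀).x ω ⟨l, hl'⟩ - (G.D : ℝ) ^ s.j * (G.tS s x₀).x ω' ⟨l, hl'⟩| ≤ R := by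
      rw [← mul_sub, abs_mul, abs_of_pos (pow_pos hD _)]
      refine (mul_le_mul_of_nonneg_left n3 (pow_pos hD _).le).trans (le_trans (le_of_eq ?_) r2)
      rw [pow_add]
      congr 1
      simp only [St.bt, St0.D]
      push_cast
      rw [← pow_mul, mul_comm G.N]
    have n5 := three n1 n2 n4
    simp only [sl, dif_pos l.2] at n5
    refine n5.trans ?_
    nlinarith [mul_nonneg hm hR]

theorem tdiv (h : CH m K C) (G : St0 m K C) (i r : ℕ) (ω : G.Ω) :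
    G.T (i + r) ω = G.T i ω / (G.D : ℤ) ^ (2 * r) := by
  rw [h.T, h.T, Int.ediv_ediv_of_nonneg (Dz G _).le, ← pow_add, mul_add]

theorem st {c : ℝ} (hT : TSA) (h : CH m K C) (hA : APX m K C c) (G : St m K C) (s : Jm) (x : ℕ) (ω ω' : G.Ω)
    (hJ : G.Jd s) (hx : 2 * s.w ≤ x) (he : G.st s x ω = G.st s x ω') :
    G.cp s.j ω = G.cp s.j ω' ∧ G.T (s.j + x) ω = G.T (s.j + x) ω' ∧
      ∀ l, |G.y s.j ω l - G.y s.j ω' l| ≤ m * (2 * c + 2 * m + 3) * (G.D : ℝ) ^ (s.j + 2 * x) := by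
  have hD1 := Done G.toSt0
  have ht : G.T (s.j + x) ω = G.T (s.j + x) ω' := by
    rw [← hA.tm G s x x ω hJ (by omega), ← hA.tm G s x x ω' hJ (by omega)]
    exact congrArg (fun z => z.1.2) he
  have h4 : |((G.x ω).T : ℝ) - (G.x ω').T| ≤ (G.D : ℝ) ^ s.j * (G.D : ℝ) ^ (s.j + 2 * x) := by
    have h5 := ht
    rw [h.T, h.T] at h5
    refine (ediv_close (Dz G.toSt0 _) h5).trans_eq ?_
    push_cast
    ring
  have hk := key hT hA G s x x ω ω' hJ _ he (pow_le_pow_right₀ hD1 (by omega)) le_rfl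
    (pow_le_pow_right₀ hD1 (by omega)) h4
  exact ⟨hk.1, ht, hk.2⟩

theorem near {c : ℝ} (h : CH m K C) (G : St0 m K C) (j x : ℕ) (ω ω' : G.Ω) (hc0 : 0 ≤ c)
    (hK : j + 2 * x ≤ K) (hc : G.cp j ω = G.cp j ω') (ht : G.T (j + x) ω = G.T (j + x) ω')
    (hy : ∀ l, |G.y j ω l - G.y j ω' l| ≤ c * (G.D : ℝ) ^ (j + 2 * x)) :
    Near G.D (2 * x) (c + 11) (G.S j ω) (G.S (j + 2 * x) ω') := by
  have hD1 := Done G
  have hD : (0 : ℝ) < G.D := by linarith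
  have hn := h.near G j (j + 2 * x) ω' (by omega) hK
  rw [Nat.add_sub_cancel_left] at hn
  have hcc : (G.S j ω').c = (G.S j ω).c := by rw [h.c G j ω (by omega), h.c G j ω' (by omega), hc]
  refine ⟨hn.cp.trans hcc, ?_, fun l => ?_⟩
  · have e : j + 2 * x = j + x + x := by ring
    show G.T j ω / _ = G.T (j + 2 * x) ω'
    rw [← tdiv h, e, tdiv h G (j + x), tdiv h G (j + x), ht]
  · have p1 := hn.ps l
    have p2 := h.ps G j ω l (by omega)
    have p3 := h.ps G j ω' l (by omega)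
    have p4 : |((G.S j ω).o l : ℝ) - (G.S j ω').o l| ≤ 6 + c * (G.D : ℝ) ^ (2 * x) := by
      have p5 := three p2 p3 (hy l)
      rw [← mul_sub, abs_mul, abs_of_pos (pow_pos hD _)] at p5
      refine le_of_mul_le_mul_left (p5.trans_eq ?_) (pow_pos hD j)
      ring
    have p6 : |((G.S j ω).T : ℝ) - (G.S j ω').T| ≤ (G.D : ℝ) ^ (2 * x) := by
      rw [tdiv h, tdiv h] at ht
      exact_mod_cast ediv_close (Dz G _) ht
    have p7 : |((G.S j ω).c l : ℝ) - (G.S (j + 2 * x) ω').c l / (G.D : ℝ) ^ (2 * x)| ≤ 1 := by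
      have := ediv_near ((G.S (j + 2 * x) ω').c l) (Dz G (2 * x))
      rw [← hcc, ← hn.cp]
      exact_mod_cast this
    have p8 := mul_le_mul p6 p7 (abs_nonneg _) (pow_pos hD _).le
    have p9 : (1 : ℝ) ≤ (G.D : ℝ) ^ (2 * x) := one_le_pow₀ hD1
    rw [hcc] at p1
    rw [← abs_mul, sub_mul, abs_le] at p8
    rw [abs_le] at p1 p4 ⊢
    constructor <;> linarith [p1.1, p1.2, p4.1, p4.2, p8.1, p8.2]

theorem fib {c : ℝ} (hT : TSA) (h : CH m K C) (hA : APX m K C c) (G : St m K C) (s : Jm) (x₀ x : ℕ)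
    (ω ω' : G.Ω) (hJ : G.Jd s) (h0 : x₀ ≤ K) (hx : x ≤ K) (he : G.zn s x₀ x ω = G.zn s x₀ x ω') (l : Fin m) :
    |(xpos (G.x ω) l : ℝ) - xpos (G.x ω') l| ≤ (m * (2 * c + 2 * m + 3) + 11) * (G.D : ℝ) ^ (3 * K) := by
  have hD1 := Done G.toSt0
  have hl := hJ.lt
  have hle := hJ.blk.le
  have hr : ∀ ω : G.Ω, (0 : ℝ) ≤ (G.x ω).T ∧ ((G.x ω).T : ℝ) ≤ (G.D : ℝ) ^ (3 * K) := fun ω => by
    have := G.rts _ (h.mem G.toSt0 0 ω (Nat.zero_le _))
    refine ⟨by exact_mod_cast this.2.1, le_trans ?_ (pow_le_pow_right₀ hD1 (by omega : 2 * K ≤ 3 * K))⟩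
    exact_mod_cast this.2.2.le
  have h4 : |((G.x ω).T : ℝ) - (G.x ω').T| ≤ (G.D : ℝ) ^ (3 * K) := by
    rw [abs_le]
    constructor <;> linarith [(hr ω).1, (hr ω).2, (hr ω').1, (hr ω').2]
  have hk := key hT hA G s x₀ x ω ω' hJ ((G.D : ℝ) ^ (3 * K)) he (pow_le_pow_right₀ hD1 (by omega))
    (pow_le_pow_right₀ hD1 (by omega)) (pow_le_pow_right₀ hD1 (by omega))
    (h4.trans (le_mul_of_one_le_left (by positivity) (one_le_pow₀ hD1)))
  have hv : G.v s.j ω' = G.v s.j ω := by unfold St0.v; rw [hk.1]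
  have p1 := hk.2 l
  have p2 := mul_le_mul h4 (h.vb G.toSt0 s.j ω l (by omega)) (abs_nonneg _) (by positivity)
  simp only [St0.y, PiLp.sub_apply, PiLp.smul_apply, smul_eq_mul, toV, hv] at p1
  rw [← abs_mul, sub_mul, abs_le] at p2
  rw [abs_le] at p1 ⊢
  constructor <;> linarith [p1.1, p1.2, p2.1, p2.2]

end Dt3Aux

theorem dt3 : ∀ m, B0 m → ∀ K C, ∃ c, DT3 m K C c := fun m hB K C => by
  obtain ⟨c, hA⟩ := hB.apx K C
  have hc : 0 ≤ c := by linarith [hA.c1]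
  have h0 : (0 : ℝ) ≤ m * (2 * c + 2 * m + 3) := by positivity
  refine ⟨m * (2 * c + 2 * m + 3) + 11, by positivity, fun G s x ω ω' hJ hx he => ?_,
    fun G s x ω ω' hJ hx hK he => ?_, fun G s x₀ x ω ω' hJ h1 h2 he =>
      Dt3Aux.fib hB.tsa (hB.ch K C) hA G s x₀ x ω ω' hJ h1 h2 he⟩
  · have h := Dt3Aux.st hB.tsa (hB.ch K C) hA G s x ω ω' hJ hx he
    exact ⟨h.1, h.2.1, fun l => (h.2.2 l).trans
      (mul_le_mul_of_nonneg_right (by linarith) (by positivity))⟩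
  · have h := Dt3Aux.st hB.tsa (hB.ch K C) hA G s x ω ω' hJ hx he
    exact Dt3Aux.near (hB.ch K C) G.toSt0 s.j x ω ω' h0 hK h.1 h.2.1 h.2.2

end

end Vale.Agent.P076N.FL
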