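import Vale.Agent.P076N.FL.Spec

/-! P076N / FL : the row ENT1 (`low`, `evt`, `rect`). -/

open Finset Vale.Agent.P127 Vale.Agent.P127.Stk

namespace Vale.Agent.P076N.FL

noncomputable section

open Classical

namespace Ent1

variable {Ω α β γ : Type} [Fintype Ω] (P : Law Ω)

/-- the values of `X` on the fibre `Z = z` -/
def vals (X : Ω → α) (Z : Ω → γ) (z : γ) : Finset α := (univ.filter fun ω => Z ω = z).image X

lemma mem_vals (X : Ω → α) (Z : Ω → γ) (ω : Ω) : X ω ∈ vals X Z (Z ω) :=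
  mem_image_of_mem X (mem_filter.2 ⟨mem_univ _, rfl⟩)

lemma vals_pos (X : Ω → α) (Z : Ω → γ) (ω : Ω) : (0 : ℝ) < #(vals X Z (Z ω)) := by
  exact_mod_cast card_pos.2 ⟨_, mem_vals X Z ω⟩

lemma cnt_pos {E : Ω → Prop} {ω : Ω} (h : E ω) : 0 < cnt E := by
  unfold cnt
  exact_mod_cast card_pos.2 ⟨ω, mem_filter.2 ⟨mem_univ _, h⟩⟩

lemma fib_pos (Y : Ω → β) (ω : Ω) : 0 < cnt fun ω' => Y ω' = Y ω := cnt_pos (ω := ω) rfl

lemma hc_le (X : Ω → α) (Z : Ω → γ) :
    hc P X Z ≤ P.ex fun ω => Real.log #(vals X Z (Z ω)) := by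
  have h := P.gibbs_cond X Z (fun x z => if x ∈ vals X Z z then (#(vals X Z z) : ℝ)⁻¹ else 0)
    (fun x z => by split_ifs <;> positivity) (fun z F => by
      rw [← sum_filter, sum_const, nsmul_eq_mul, ← div_eq_mul_inv]
      refine div_le_one_of_le₀ ?_ (by positivity)
      exact_mod_cast card_le_card fun x hx => (mem_filter.1 hx).2)
    (fun ω _ => by rw [if_pos (mem_vals X Z ω)]; exact inv_pos.2 (vals_pos X Z ω))
  refine h.trans (le_of_eq (P.ex_congr fun ω _ => ?_))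
  rw [if_pos (mem_vals X Z ω), Real.log_inv, neg_neg]

lemma H_id_le (Z : Ω → γ) :
    P.H id - P.H Z ≤ P.ex fun ω => Real.log (cnt fun ω' => Z ω' = Z ω) := by
  have h := hc_le P id Z
  have e : P.H (fun ω => (id ω, Z ω)) = P.H id :=
    P.H_congr fun ω ω' => ⟨fun h => congrArg Prod.fst h, fun h => by rw [show ω = ω' from h]⟩
  unfold hc at h
  rw [e] at h
  refine h.trans (le_of_eq (P.ex_congr fun ω _ => ?_))
  unfold vals cnt
  rw [image_id]

lemma card_pos' (P : Law Ω) : (0 : ℝ) < Fintype.card Ω := by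
  rcases isEmpty_or_nonempty Ω with h | h
  · have := P.sum_one
    simp at this
  · exact_mod_cast Fintype.card_pos

lemma le_H_id {e : ℝ} (h : Dm P e) : Real.log (Fintype.card Ω) - e ≤ P.H id := by
  rw [← P.ex_const (Real.log (Fintype.card Ω) - e)]
  refine P.ex_mono fun ω hω => ?_
  have h1 := Real.log_le_log (mul_pos hω (card_pos' P)) (h ω)
  rw [Real.log_mul hω.ne' (card_pos' P).ne', Real.log_exp] at h1
  rw [show P.pr id (id ω) = P.w ω from pr_id P ω]
  linarith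

lemma H_le (Y : Ω → β) : P.H Y ≤ Real.log (Fintype.card Ω)
    - P.ex fun ω => Real.log (cnt fun ω' => Y ω' = Y ω) := by
  have hN := card_pos' P
  have h := P.gibbs Y (fun y => cnt (fun ω' => Y ω' = y) / Fintype.card Ω)
    (fun y => div_nonneg (Nat.cast_nonneg _) hN.le) (by
      rw [← sum_div, div_le_one hN]
      unfold cnt img
      rw [← card_univ]
      exact_mod_cast (card_eq_sum_card_image Y univ).ge)
    (fun ω _ => div_pos (cnt_pos rfl) hN)
  refine h.trans (le_of_eq ?_)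
  rw [← P.ex_const (Real.log (Fintype.card Ω)), ← P.ex_sub]
  refine P.ex_congr fun ω _ => ?_
  rw [Real.log_div (fib_pos Y ω).ne' hN.ne']
  ring

end Ent1

open Ent1

theorem ent_low : ∀ (Ω α β : Type) [Fintype Ω] (P : Law Ω) (e ρ : ℝ) (X : Ω → α) (Y : Ω → β),
    Dm P e → 0 < ρ →
    (∀ ω, cnt (fun ω' => X ω' = X ω ∧ Y ω' = Y ω) ≤ ρ * cnt fun ω' => Y ω' = Y ω) →
    -Real.log ρ - e ≤ hc P X Y := by
  intro Ω α β _ P e ρ X Y hD hρ h
  have h1 := H_id_le P fun ω => (X ω, Y ω)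
  have h2 := le_H_id P hD
  have h3 := H_le P Y
  have h4 : (P.ex fun ω => Real.log (cnt fun ω' => (X ω', Y ω') = (X ω, Y ω)))
      ≤ P.ex fun ω => Real.log ρ + Real.log (cnt fun ω' => Y ω' = Y ω) := by
    refine P.ex_mono fun ω _ => ?_
    rw [← Real.log_mul hρ.ne' (fib_pos Y ω).ne']
    refine Real.log_le_log (cnt_pos (ω := ω) rfl) ?_
    simpa only [Prod.mk.injEq] using h ω
  rw [P.ex_add, P.ex_const] at h4
  unfold hc
  linarith

theorem ent_evt : ∀ (Ω : Type) [Fintype Ω] (P : Law Ω) (e : ℝ) (E : Ω → Prop), Dm P e →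
    prE P E * Fintype.card Ω ≤ Real.exp e * cnt E := by
  intro Ω _ P e E hD
  unfold prE cnt
  rw [sum_mul, mul_comm (Real.exp e), ← nsmul_eq_mul, ← sum_const]
  exact sum_le_sum fun ω _ => hD ω

theorem ent_rect : ∀ (Ω α β γ : Type) [Fintype Ω] (P : Law Ω) (e : ℝ) (X : Ω → α) (Y : Ω → β)
    (Z : Ω → γ), Dm P e → (∀ ω ω', X ω = X ω' → Y ω = Y ω' → ω = ω') →
    (∀ ω ω', Z ω = Z ω' → ∃ ω'', X ω'' = X ω ∧ Y ω'' = Y ω' ∧ Z ω'' = Z ω) → mi P X Y Z ≤ e := by
  intro Ω α β γ _ P e X Y Z hD hi hr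
  have h1 := hc_le P X Z
  have h2 := hc_le P Y Z
  have h3 := H_le P Z
  have h4 := le_H_id P hD
  have e1 : P.H (fun ω => (X ω, Y ω, Z ω)) = P.H id :=
    P.H_congr fun ω ω' => ⟨fun h => hi ω ω' (congrArg Prod.fst h)
      (congrArg (fun p => p.2.1) h), fun h => by rw [show ω = ω' from h]⟩
  have h5 : (P.ex fun ω => Real.log #(vals X Z (Z ω)) + Real.log #(vals Y Z (Z ω)))
      ≤ P.ex fun ω => Real.log (cnt fun ω' => Z ω' = Z ω) := by
    refine P.ex_mono fun ω _ => ?_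
    rw [← Real.log_mul (vals_pos X Z ω).ne' (vals_pos Y Z ω).ne']
    refine Real.log_le_log (mul_pos (vals_pos X Z ω) (vals_pos Y Z ω)) ?_
    have h6 : vals X Z (Z ω) ×ˢ vals Y Z (Z ω)
        ⊆ (univ.filter fun ω' => Z ω' = Z ω).image fun ω' => (X ω', Y ω') := by
      rintro ⟨x, y⟩ hxy
      obtain ⟨hx, hy⟩ := mem_product.1 hxy
      obtain ⟨a, ha, rfl⟩ := mem_image.1 hx
      obtain ⟨b, hb, rfl⟩ := mem_image.1 hy
      have ha' := (mem_filter.1 ha).2
      obtain ⟨c, c1, c2, c3⟩ := hr a b (ha'.trans (mem_filter.1 hb).2.symm)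
      exact mem_image.2 ⟨c, mem_filter.2 ⟨mem_univ _, c3.trans ha'⟩, by rw [c1, c2]⟩
    have h7 := (card_le_card h6).trans card_image_le
    rw [card_product] at h7
    unfold cnt
    exact_mod_cast h7
  rw [P.ex_add] at h5
  unfold mi
  unfold hc at h1 h2 ⊢
  linarith

end

end Vale.Agent.P076N.FL
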