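import Vale.Agent.P076N.FL.Spec

/-! P076N / FL : the row ENT2 (`det`, `num`, `flat`, `glue`). -/

open Finset Vale.Agent.P127 Vale.Agent.P127.Stk

namespace Vale.Agent.P076N.FL

noncomputable section

open Classical

theorem ent_det : ∀ (Ω β : Type) [Fintype Ω] (P : Law Ω) (n : ℕ) (X : Ω → Zv n) (Y : Ω → β)
    (c : ℝ), 0 ≤ c →
    (∀ ω ω', 0 < P.w ω → 0 < P.w ω' → Y ω = Y ω' → ∀ l, |(X ω l : ℝ) - X ω' l| ≤ c) →
    hc P X Y ≤ n * Real.log (2 * c + 1) := by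
  intro Ω β _ P n X Y c hc0 h
  have h1 := hc_le_log P X Y ((2 * ⌊c⌋₊ + 1) ^ n) fun ω hω =>
    ⟨Fintype.piFinset fun l => Icc (X ω l - ⌊c⌋₊) (X ω l + ⌊c⌋₊), by
      rw [Fintype.card_piFinset, prod_congr rfl fun l _ => show _ = 2 * ⌊c⌋₊ + 1 by
        rw [Int.card_Icc]; omega]
      simp, fun ω' hω' hY => Fintype.mem_piFinset.2 fun l => by
        have h2 := h ω' ω hω' hω hY l
        have h3 : ((X ω' l - X ω l).natAbs : ℝ) ≤ c := by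
          rw [Nat.cast_natAbs]; push_cast; exact h2
        have h4 := Nat.le_floor h3
        rw [mem_Icc]
        omega⟩
  refine h1.trans ?_
  push_cast
  rw [Real.log_pow]
  refine mul_le_mul_of_nonneg_left (Real.log_le_log (by positivity) ?_) (Nat.cast_nonneg _)
  linarith [Nat.floor_le hc0]

theorem ent_num : ∀ (Ω α β : Type) [Fintype Ω] (P : Law Ω) (X : Ω → α) (Y : Ω → β) (r : ℝ),
    0 ≤ r → (∀ ω, 0 < P.w ω →
      (#((univ.filter fun ω' => 0 < P.w ω' ∧ Y ω' = Y ω).image X) : ℝ) ≤ Real.exp r) →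
    hc P X Y ≤ r := by
  intro Ω α β _ P X Y r hr h
  have h1 := hc_le_log P X Y ⌊Real.exp r⌋₊ fun ω hω => ⟨_, Nat.le_floor (h ω hω),
    fun ω' hω' hY => mem_image_of_mem X (mem_filter.2 ⟨mem_univ _, hω', hY⟩)⟩
  refine h1.trans ?_
  have h2 : 0 < ⌊Real.exp r⌋₊ := Nat.floor_pos.2 (Real.one_le_exp hr)
  rw [Real.log_le_iff_le_exp (by exact_mod_cast h2)]
  exact Nat.floor_le (Real.exp_pos r).le

lemma ent_pr_pair {Ω α β : Type} [Fintype Ω] (P : Law Ω) {X : Ω → α} {Y : Ω → β} (h : Fn P Y X)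
    {ω : Ω} (hω : 0 < P.w ω) : P.pr (fun ω => (X ω, Y ω)) (X ω, Y ω) = P.pr X (X ω) := by
  unfold Law.pr
  rw [sum_filter, sum_filter]
  refine sum_congr rfl fun a _ => ?_
  rcases (P.nn a).eq_or_lt with h0 | h0
  · simp [← h0]
  · by_cases hx : X a = X ω
    · rw [if_pos hx, if_pos (Prod.ext hx (h a ω h0 hω hx))]
    · rw [if_neg hx, if_neg fun h1 => hx (congrArg Prod.fst h1)]

theorem ent_flat : ∀ (Ω α β : Type) [Fintype Ω] (P : Law Ω) (e : ℝ) (X : Ω → α) (Y : Ω → β),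
    Flat P X e → Flat P Y e → Fn P Y X → ∀ ω, 0 < P.w ω →
    (#((univ.filter fun ω' => 0 < P.w ω' ∧ Y ω' = Y ω).image X) : ℝ) ≤
      Real.exp (hc P X Y + 2 * e) := by
  intro Ω α β _ P e X Y hX hY hF ω hω
  obtain ⟨F, hFd⟩ : ∃ F, F = (univ.filter fun ω' => 0 < P.w ω' ∧ Y ω' = Y ω).image X := ⟨_, rfl⟩
  rw [← hFd]
  have n0 : (0 : ℝ) < #F := by
    rw [hFd]
    exact Nat.cast_pos.2 (card_pos.2
      ⟨_, mem_image_of_mem X (mem_filter.2 ⟨mem_univ ω, hω, rfl⟩)⟩)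
  have he := Real.exp_pos e
  have key : ∀ a, 0 < P.w a → #F * P.pr X (X a) ≤ Real.exp (2 * e) * P.pr Y (Y a) := by
    intro a ha
    have h1 : ∑ _x ∈ F, P.pr X (X a)
        ≤ ∑ x ∈ F, Real.exp e * P.pr (fun ω => (X ω, Y ω)) (x, Y ω) := by
      refine sum_le_sum fun x hx => ?_
      rw [hFd] at hx
      obtain ⟨b, hb, rfl⟩ := mem_image.1 hx
      obtain ⟨-, b1, b2⟩ := mem_filter.1 hb
      rw [← b2, ent_pr_pair P hF b1]
      exact hX a b ha b1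
    rw [sum_const, nsmul_eq_mul, ← mul_sum] at h1
    have h2 := (P.sum_pr_pair_le X Y (Y ω) F).trans (hY ω a hω ha)
    rw [two_mul, Real.exp_add, mul_assoc]
    exact h1.trans (mul_le_mul_of_nonneg_left h2 he.le)
  rw [← Real.log_le_iff_le_exp n0, ← sub_le_iff_le_add, ← P.ex_const (Real.log #F - 2 * e)]
  unfold hc Law.H
  rw [← P.ex_sub]
  refine P.ex_mono fun a ha => ?_
  have h1 := Real.log_le_log (mul_pos n0 (P.pr_pos X ha)) (key a ha)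
  rw [Real.log_mul n0.ne' (P.pr_pos X ha).ne', Real.log_mul (Real.exp_pos _).ne'
    (P.pr_pos Y ha).ne', Real.log_exp] at h1
  rw [ent_pr_pair P hF ha]
  linarith

theorem ent_glue : ∀ (Ω₁ Ω₂ β : Type) [Fintype Ω₁] [Fintype Ω₂] (P₁ : Law Ω₁) (P₂ : Law Ω₂)
    (B₁ : Ω₁ → β) (B₂ : Ω₂ → β), (∀ s, P₁.pr B₁ s = P₂.pr B₂ s) →
    ∃ (Ω' : Type) (_ : Fintype Ω') (R : Law Ω') (π₁ : Ω' → Ω₁) (π₂ : Ω' → Ω₂),
      (∀ ω, B₁ (π₁ ω) = B₂ (π₂ ω)) ∧ (∀ ω, R.pr π₁ ω = P₁.w ω) ∧ (∀ ω, R.pr π₂ ω = P₂.w ω) ∧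
      ∀ (α γ : Type) (X : Ω₁ → α) (Z : Ω₂ → γ), hc P₁ X B₁ + hc P₂ B₂ Z -
        hc R (fun ω => B₁ (π₁ ω)) (fun ω => (X (π₁ ω), Z (π₂ ω)))
          ≤ hc R (fun ω => X (π₁ ω)) fun ω => Z (π₂ ω) := by
  intro Ω₁ Ω₂ β _ _ P₁ P₂ B₁ B₂ h
  obtain ⟨Ω', i, R, π₁, π₂, h1, h2, h3, h4⟩ := glue_exists P₁ P₂ B₁ B₂ h
  refine ⟨Ω', i, R, π₁, π₂, h1, h2, h3, fun α γ X Z => ?_⟩
  have e1 := (h4 X Z).1
  have e2 := hc_of_law R P₂ π₂ h3 B₂ Z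
  have e3 : B₂ ∘ π₂ = fun ω => B₁ (π₁ ω) := funext fun ω => (h1 ω).symm
  rw [e3] at e2
  have e4 : R.H (fun ω => (X (π₁ ω), Z (π₂ ω), B₁ (π₁ ω)))
      = R.H fun ω => (B₁ (π₁ ω), X (π₁ ω), Z (π₂ ω)) :=
    R.H_congr fun ω ω' => by simp only [Prod.mk.injEq]; tauto
  have e5 : R.H (fun ω => (Z (π₂ ω), B₁ (π₁ ω))) = R.H fun ω => (B₁ (π₁ ω), Z (π₂ ω)) :=
    R.H_congr fun ω ω' => by simp only [Prod.mk.injEq]; tauto
  rw [← e1, ← e2]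
  unfold hc
  simp only [Function.comp_def]
  linarith

end

end Vale.Agent.P076N.FL
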