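import Vale.Agent.P076N.FL.Spec

/-!
# P076N / FL : gluing of links
-/

open Finset Vale.Agent.P127 Vale.Agent.P127.Stk

namespace Vale.Agent.P076N.FL

noncomputable section

namespace Glu

variable {m K : ℕ} {C : ℝ}

theorem mono (hb : B1 m) (G : St m K C) (c c' : ℝ) (r r' i j : ℕ) (h h' : ℝ) (hc : c ≤ c')
    (hr : r' ≤ r) (hK : r ≤ K) (hh : h' ≤ h) : G.LK c r i j h → G.LK c' r' i j h' := by
  rintro ⟨L⟩
  exact ⟨{ Ω' := L.Ω', R := L.R, π₁ := L.π₁, π₂ := L.π₂, m₁ := L.m₁, m₂ := L.m₂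
           near := fun ω hω => hb.nr.mono _ _ _ _ _ _ _ hc (L.near ω hω)
           cp := fun ω hω => by
             rw [(hb.ch K C).cpn _ r' r _ hr hK, (hb.ch K C).cpn _ r' r _ hr hK, L.cp ω hω]
           ent := hh.trans L.ent }⟩

theorem std (hb : B1 m) (G : St m K C) (r i j : ℕ) (hij : i ≤ j) (hK : j ≤ K) :
    G.LK 3 r i j (hc G.P (G.S i) (G.S j)) :=
  ⟨{ Ω' := G.Ω, R := G.P, π₁ := id, π₂ := id, m₁ := pr_id G.P, m₂ := pr_id G.P
     near := fun ω _ => (hb.ch K C).near _ i j ω hij hK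
     cp := fun _ _ => rfl
     ent := le_rfl }⟩

theorem glue (hb : B1 m) (G : St m K C) (c c' : ℝ) (r i j l : ℕ) (h h' : ℝ) (c0 : 0 ≤ c)
    (hr : r ≤ j) (hij : i ≤ j) (hjl : j ≤ l) (hK : l ≤ K) : G.LK c r i j h →
    G.LK c' r j l h' → G.LK (c + c' + 1) r i l (h + h' - m * Real.log (4 * c + 1)) := by
  rintro ⟨L⟩ ⟨L'⟩
  have D1 : 1 ≤ G.D := Nat.one_le_two_pow
  obtain ⟨Ω', _, R, p, q, e, mp, mq, he⟩ := hb.ent.glue L.Ω' L'.Ω' _ L.R L'.R
    (fun ω => G.S j (L.π₂ ω)) (fun ω => G.S j (L'.π₁ ω)) fun s =>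
      (pr_law_aux L.R G.P _ L.m₂ (G.S j) s).trans (pr_law_aux L'.R G.P _ L'.m₁ (G.S j) s).symm
  have pp : ∀ ω, 0 < R.w ω → 0 < L.R.w (p ω) := fun ω hω => mp (p ω) ▸ R.pr_pos p hω
  have pq : ∀ ω, 0 < R.w ω → 0 < L'.R.w (q ω) := fun ω hω => mq (q ω) ▸ R.pr_pos q hω
  have key : ∀ ω ω', 0 < R.w ω → 0 < R.w ω' →
      (G.S i (L.π₁ (p ω)), G.S l (L'.π₂ (q ω))) = (G.S i (L.π₁ (p ω')), G.S l (L'.π₂ (q ω'))) →
      (G.S j (L.π₂ (p ω))).c = (G.S j (L.π₂ (p ω'))).c ∧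
      (G.S j (L.π₂ (p ω))).T = (G.S j (L.π₂ (p ω'))).T ∧
      ∀ t, |((G.S j (L.π₂ (p ω))).o t : ℝ) - (G.S j (L.π₂ (p ω'))).o t| ≤ 2 * c := by
    intro ω ω' hω hω' E
    obtain ⟨E1, E2⟩ := Prod.mk.inj E
    have k : (G.S j (L.π₂ (p ω))).c = (G.S j (L.π₂ (p ω'))).c := by
      rw [e ω, e ω', ← (L'.near _ (pq ω hω)).cp, ← (L'.near _ (pq ω' hω')).cp, E2]
    exact ⟨k, hb.nr.mid _ _ _ 0 _ _ _ _ D1 (L.near _ (pp ω hω)) (E1 ▸ L.near _ (pp ω' hω')) k⟩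
  refine ⟨{ Ω' := Ω', R := R, π₁ := fun ω => L.π₁ (p ω), π₂ := fun ω => L'.π₂ (q ω)
            m₁ := fun ω => (pr_law_aux R L.R p mp L.π₁ ω).trans (L.m₁ ω)
            m₂ := fun ω => (pr_law_aux R L'.R q mq L'.π₂ ω).trans (L'.m₂ ω)
            near := fun ω hω => ?_, cp := fun ω hω => ?_, ent := ?_ }⟩
  · have := hb.nr.trans _ _ _ _ _ _ _ _ _ D1 c0 (L.near _ (pp ω hω))
      ((e ω).symm ▸ L'.near _ (pq ω hω))
    rwa [show j - i + (l - j) = l - i by omega] at this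
  · have ch := hb.ch K C
    rw [L.cp _ (pp ω hω), ← L'.cp _ (pq ω hω), ch.cpn _ r j _ hr (by omega),
      ch.cpn _ r j (L'.π₁ _) hr (by omega), ← ch.c _ j _ (by omega), ← ch.c _ j _ (by omega), e ω]
  · have a1 := he _ _ (fun ω => G.S i (L.π₁ ω)) fun ω => G.S l (L'.π₂ ω)
    have a2 := hb.ent.det _ _ R m (fun ω => (G.S j (L.π₂ (p ω))).o) _ (2 * c) (by positivity)
      fun ω ω' hω hω' E => (key ω ω' hω hω' E).2.2
    have a3 := hc_mono_left R (X := fun ω => G.S j (L.π₂ (p ω)))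
      (X' := fun ω => (G.S j (L.π₂ (p ω))).o)
      (Y := fun ω => (G.S i (L.π₁ (p ω)), G.S l (L'.π₂ (q ω)))) fun ω ω' hω hω' E => by
        obtain ⟨E1, E2⟩ := Prod.mk.inj E
        obtain ⟨k1, k2, -⟩ := key ω ω' hω hω' E2
        exact Nd.ext k1 E1 k2
    rw [show 2 * (2 * c) + 1 = 4 * c + 1 by ring] at a2
    linarith [L.ent, L'.ent]

theorem path (hb : B1 m) (cn : ℝ) (c0 : 0 ≤ cn) (G : St m K C) (i j : ℕ) (z : ℝ)
    (h : Path (G.El cn) i j z) (hK : j ≤ K) : i ≤ j ∧ G.LK (3 + j * (cn + 1)) i i j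
      (((m + 2) * ((j : ℝ) - i) - z) * G.lg - j * (m * Real.log (4 * (3 + K * (cn + 1)) + 1))) := by
  have l0 : 0 ≤ m * Real.log (4 * (3 + K * (cn + 1)) + 1) :=
    mul_nonneg (by positivity) (Real.log_nonneg (le_add_of_nonneg_left (by positivity)))
  induction h with
  | nil =>
    refine ⟨le_rfl, mono hb G _ _ i i _ _ _ _ (le_add_of_nonneg_right (by positivity)) le_rfl hK ?_
      (std hb G i i i le_rfl hK)⟩
    have := hc_nonneg G.P (G.S i) (G.S i)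
    have := mul_nonneg (Nat.cast_nonneg (α := ℝ) i) l0
    simp only [sub_self, mul_zero, zero_mul]
    linarith
  | @snoc j l z z' _ he ih =>
    obtain ⟨h1, h2, h3⟩ := he
    obtain ⟨h4, h5⟩ := ih (by omega)
    have k1 : (j : ℝ) + 1 ≤ l := by exact_mod_cast h1
    have k2 : (j : ℝ) ≤ K := by exact_mod_cast (by omega : j ≤ K)
    refine ⟨by omega, mono hb G _ _ i i _ _ _ _ ?_ le_rfl (by omega) ?_
      (glue hb G _ _ i i j l _ _ (by positivity) h4 h4 h1.le h2 h5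
        (mono hb G _ _ j i _ _ _ _ le_rfl h4 (by omega) le_rfl h3))⟩
    · linarith [mul_le_mul_of_nonneg_right k1 (by positivity : 0 ≤ cn + 1)]
    · have k3 : m * Real.log (4 * (3 + j * (cn + 1)) + 1) ≤
          m * Real.log (4 * (3 + K * (cn + 1)) + 1) := by gcongr
      linarith [mul_le_mul_of_nonneg_right k1 l0]

end Glu

/-- **Row FL.GLU** -/
theorem gl : ∀ m, B1 m → ∀ K C, GLU m K C := by
  intro m hb K C
  refine ⟨Glu.mono hb, Glu.std hb, Glu.glue hb, fun cn c0 => ?_⟩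
  have l0 : 0 ≤ m * Real.log (4 * (3 + K * (cn + 1)) + 1) :=
    mul_nonneg (by positivity) (Real.log_nonneg (le_add_of_nonneg_left (by positivity)))
  refine ⟨3 + K * (cn + 1) + K * (m * Real.log (4 * (3 + K * (cn + 1)) + 1)), by positivity,
    fun G i j z h hK => ?_⟩
  obtain ⟨h1, h2⟩ := Glu.path hb cn c0 G i j z h hK
  have k : (j : ℝ) ≤ K := by exact_mod_cast hK
  have k1 := mul_le_mul_of_nonneg_right k l0
  have k2 := mul_le_mul_of_nonneg_right k (by positivity : 0 ≤ cn + 1)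
  have k3 := mul_nonneg (Nat.cast_nonneg (α := ℝ) K) l0
  have k4 : 0 ≤ K * (cn + 1) := by positivity
  exact ⟨h1, Glu.mono hb G _ _ i i _ _ _ _ (by linarith) le_rfl (by omega) (by linarith) h2⟩

end

end Vale.Agent.P076N.FL
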