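import Vale.Agent.P076N.FL.Spec

/-!
# P076N / FL : row GP, the graph condition bounds the entropy of the links
-/

set_option linter.all false

open Finset Vale.Agent.P127 Vale.Agent.P127.Stk

namespace Vale.Agent.P076N.FL

open Classical

namespace Gp

/-- the number of roots in a window -/
theorem roots {m : ℕ} (b : B1 m) (K : ℕ) (C c₁ B : ℝ) (hB : 1 ≤ B) : ∃ c : ℝ, 0 ≤ c ∧
    ∀ (G : St m K C) (Ω β : Type) [Fintype Ω] (R : Law Ω) (π : Ω → G.Ω) (Y : Ω → β) (ρ σ : ℕ),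
      WGA B ((G.D : ℤ) ^ ρ) (G.V 0) → (∀ ω, 0 < R.w ω → ∃ (v n : Vc m) (s : ℤ), (∀ l, |v l| ≤ 11) ∧
        ∀ ω', 0 < R.w ω' → Y ω' = Y ω → (G.S 0 (π ω')).T / (G.D : ℤ) ^ (ρ + σ) = s ∧ ∀ l,
          |(xpos (G.S 0 (π ω')) l : ℝ) - (G.S 0 (π ω')).T * v l - n l| ≤ c₁ * (G.D : ℝ) ^ ρ) →
      hc R (fun ω => G.S 0 (π ω)) Y ≤ (σ + m * ρ) * G.lg + c := by
  obtain ⟨c, hc1, h⟩ := b.lat.root m c₁
  obtain ⟨_, lv⟩ := b.lv K C
  have h1 : 1 ≤ c * B := one_le_mul_of_one_le_of_one_le hc1 hB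
  refine ⟨Real.log (c * B), Real.log_nonneg h1, fun G Ω β _ R π Y ρ σ hW H => ?_⟩
  obtain ⟨l1, l2⟩ := lv.lg G
  refine b.ent.num _ _ _ R _ Y _ (add_nonneg (by positivity) (Real.log_nonneg h1)) fun ω hω => ?_
  obtain ⟨v, n, s, hv, H⟩ := H ω hω
  refine le_trans (Nat.cast_le.2 (card_le_card fun x hx => ?_))
    ((h G.D ρ σ B _ v n s Nat.one_le_two_pow hW hv).trans_eq ?_)
  · obtain ⟨ω', h2, rfl⟩ := mem_image.1 hx
    obtain ⟨-, h2, h3⟩ := mem_filter.1 h2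
    exact mem_filter.2 ⟨(b.ch K C).mem _ 0 _ K.zero_le, H ω' h2 h3⟩
  · rw [Real.exp_add, Real.exp_log (by linarith), ← l2, ← Real.exp_nat_mul, mul_comm]
    push_cast
    rfl

theorem near_pos {m K : ℕ} {C c : ℝ} (ch : CH m K C) (G : St0 m K C) {j : ℕ} (hj : j ≤ K)
    {S : Nd m} {ω : G.Ω} (h : Near G.D (j - 0) c S (G.S j ω)) (l : Fin m) :
    |(xpos S l : ℝ) - S.T * G.v j ω l - (G.D : ℝ) ^ j * (G.S j ω).o l| ≤ c * (G.D : ℝ) ^ j := by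
  have := h.ps l
  rw [ch.c G j ω hj, Nat.sub_zero] at this
  convert this using 2
  simp only [xpos, St0.v, vel, toV, PiLp.smul_apply, smul_eq_mul]
  push_cast
  ring

end Gp

open Gp in
theorem gp : ∀ m, B1 m → ∀ K C, GP m K C := by
  intro m b K C cn B hcn hB
  obtain ⟨c1, d1⟩ := b.dt1 K C
  obtain ⟨c3, d3⟩ := b.dt3 K C
  obtain ⟨cA, a0, hA⟩ := roots b K C cn B hB
  obtain ⟨cB, b0, hB⟩ := roots b K C (cn + 3 + c3) B hB
  have ch := b.ch K C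
  have l0 : 0 ≤ m * Real.log (2 * (2 * cn) + 1) :=
    mul_nonneg m.cast_nonneg (Real.log_nonneg (by linarith))
  have := d1.c0
  refine ⟨cA + cB + c1 + m * Real.log (2 * (2 * cn) + 1), by linarith, ?_, ?_⟩
  · rintro G r ρ h hW hρ ⟨L⟩
    have := hA G _ _ L.R L.π₁ (fun ω => G.S ρ (L.π₂ ω)) ρ ρ
      (b.lat.wga m G.D ρ K B _ Nat.one_le_two_pow hρ (by simpa [St0.Wg] using hW)) fun ω _ =>
      ⟨G.v ρ (L.π₂ ω), (G.D : ℝ) ^ ρ • toV (G.S ρ (L.π₂ ω)).o, (G.S ρ (L.π₂ ω)).T,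
        fun l => ch.vb _ ρ _ l hρ, fun ω' h' e => ?_⟩
    · linarith [L.ent]
    · have h1 := e ▸ L.near ω' h'
      exact ⟨by rw [← two_mul]; exact h1.tm, fun l => near_pos ch _ hρ h1 l⟩
  · rintro G r s x h hG hs hx ⟨L⟩
    have hj : s.j ≤ K := by have := hs.lt; have := hs.blk.le; omega
    have hD : (1 : ℝ) ≤ G.D := Nat.one_le_cast.2 Nat.one_le_two_pow
    have h1 := hB G _ _ L.R L.π₁ (G.st s x ∘ L.π₂) (s.j + 2 * x) s.j (b.lat.gph m B _ _ hG)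
      fun ω _ => ⟨G.v s.j (L.π₂ ω), G.y s.j (L.π₂ ω), G.T (s.j + x) (L.π₂ ω),
        fun l => ch.vb _ _ _ l hj, fun ω' h' e => ?_⟩
    · have h2 := hc_le_add' L.R (fun ω => G.S 0 (L.π₁ ω)) (G.st s x ∘ L.π₂) (G.S s.j ∘ L.π₂)
      have h3 := hc_pair L.R (G.S s.j ∘ L.π₂) (fun ω => G.S 0 (L.π₁ ω)) (G.st s x ∘ L.π₂)
      have h4 := hc_pair L.R (fun ω => G.S 0 (L.π₁ ω)) (G.S s.j ∘ L.π₂) (G.st s x ∘ L.π₂)
      have h5 := hc_mono_left L.R (X := fun ω => ((G.S s.j ∘ L.π₂) ω, G.S 0 (L.π₁ ω)))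
        (X' := fun ω => (G.S 0 (L.π₁ ω), (G.S s.j ∘ L.π₂) ω)) (Y := G.st s x ∘ L.π₂)
        fun ω ω' _ _ e => congrArg (fun p => p.1.swap) e
      have h6 := hc_mono_right L.R (fun ω => G.S 0 (L.π₁ ω))
        (Y := fun ω => ((G.S s.j ∘ L.π₂) ω, (G.st s x ∘ L.π₂) ω))
        (Y' := fun ω => ((G.st s x ∘ L.π₂) ω, (G.S s.j ∘ L.π₂) ω))
        fun ω ω' _ _ e => congrArg Prod.swap e
      have mid : ∀ ω ω', 0 < L.R.w ω → 0 < L.R.w ω' → (G.S 0 (L.π₁ ω), (G.st s x ∘ L.π₂) ω) =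
          (G.S 0 (L.π₁ ω'), (G.st s x ∘ L.π₂) ω') → _ ∧ _ := fun ω ω' p p' e =>
        have e1 : (G.S s.j (L.π₂ ω)).c = (G.S s.j (L.π₂ ω')).c := by
          rw [ch.c _ _ _ hj, ch.c _ _ _ hj, (d3.st G s x _ _ hs hx (Prod.mk.inj e).2).1]
        ⟨e1, b.nr.mid m G.D _ 0 cn _ _ _ Nat.one_le_two_pow (L.near ω p)
          ((Prod.mk.inj e).1 ▸ L.near ω' p') e1⟩
      have h7 := (hc_mono_left L.R (X := G.S s.j ∘ L.π₂) (X' := fun ω => (G.S s.j (L.π₂ ω)).o)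
        fun ω ω' p p' e => have := mid ω ω' p p' (Prod.mk.inj e).2
          Nd.ext this.1 (Prod.mk.inj e).1 this.2.1).trans
        (b.ent.det _ _ L.R m _ _ (2 * cn) (by linarith) fun ω ω' p p' e => (mid ω ω' p p' e).2.2)
      rw [hc_of_law _ _ _ L.m₂] at h2 h3
      have h8 := d1.st G s x hs hx
      have h9 : h ≤ hc L.R (fun ω => G.S 0 (L.π₁ ω)) (G.S s.j ∘ L.π₂) := L.ent
      push_cast at h1
      linarith
    · obtain ⟨e1, e2, e3⟩ := d3.st G s x _ _ hs hx e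
      have h1 := L.near ω' h'
      refine ⟨?_, fun l => ?_⟩
      · have h2 := h1.tm.trans (ch.T _ s.j (L.π₂ ω'))
        have h0 : (0 : ℤ) ≤ (G.D : ℤ) ^ (2 * s.j) := by positivity
        rw [← e2, ch.T, show s.j + 2 * x + s.j = 2 * s.j + 2 * x by ring, mul_add, pow_add,
          ← Int.ediv_ediv_of_nonneg h0, ← Int.ediv_ediv_of_nonneg h0, ← h2, Nat.sub_zero]
      · have h2 := abs_le.1 (near_pos ch _ hj h1 l)
        have h3 := abs_le.1 (ch.ps _ _ (L.π₂ ω') l hj)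
        have h4 := abs_le.1 (e3 l)
        have h5 := mul_le_mul_of_nonneg_left (pow_le_pow_right₀ hD (s.j.le_add_right (2 * x)))
          (by linarith : 0 ≤ cn + 3)
        rw [St0.v, e1] at h2
        rw [St0.v, abs_le]
        constructor <;> linarith [h2.1, h2.2, h3.1, h3.2, h4.1, h4.2]

end Vale.Agent.P076N.FL
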