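import Vale.Agent.P076N.FL.Dec

/-!
# P076N / FL : the row HT
-/

set_option linter.all false

open Finset Vale.Agent.P127 Vale.Agent.P127.Stk

namespace Vale.Agent.P076N.FL

variable {m K : ℕ} {C c : ℝ}

theorem St0.Nn_top (G : St0 m K C) {s : Jm} (h : s.k = m) (i : ℕ) (ω : G.Ω) : G.Nn s i ω = 0 := by
  funext l
  have := l.2
  exact if_neg (by omega)

theorem xi_fn (ap : APX m K C c) (G : St m K C) {s : Jm} (jd : G.Jd s) {ω ω' : G.Ω}
    (e : G.S s.j ω = G.S s.j ω') : G.ξ s ω = G.ξ s ω' :=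
  Prod.ext (jd.cons ω ω' (congrArg (ball G.D) e))
    (ap.pn _ _ _ _ _ s.j ω ω' jd.blk jd.Jj (by have := jd.lt; omega) e)

theorem ht : ∀ m, B1 m → ∀ K C c, TN m K C c → ∃ c, HT m K C c := by
  intro m b K C c₁ ⟨p1, tn⟩
  obtain ⟨c₂, d2⟩ := b.dt2 K C
  obtain ⟨c₃, mk⟩ := b.mkv K C
  obtain ⟨c₄, ap⟩ := b.apx K C
  choose c₅ p5 cl using fun k => b.tsa.cel k m
  have ch := b.ch K C
  have := d2.c0; have := mk.c0
  have p6 : 0 ≤ ∑ k ∈ range (m + 1), c₅ k := sum_nonneg fun k _ => p5 k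
  have sm : ∀ G : St m K C, c₁ * (c₂ + G.e) ≤ c₁ * (c₂ + 1) * G.e ∧ 0 ≤ c₁ * (c₂ + 1) * G.e ∧ c₂ ≤ c₂ * G.e ∧
      0 ≤ c₃ * G.e ∧ ∑ k ∈ range (m + 1), c₅ k ≤ (∑ k ∈ range (m + 1), c₅ k) * G.e := fun G => by
    have e1 := G.e1
    have a := le_mul_of_one_le_right d2.c0 e1
    exact ⟨by nlinarith, by positivity, a, by positivity, le_mul_of_one_le_right p6 e1⟩
  refine ⟨c₁ * (c₂ + 1) + c₂ + c₃ + ∑ k ∈ range (m + 1), c₅ k, by positivity,
    fun G s x x' jd h1 h2 h3 h4 => ?_, fun G s x₀ x x' jd hk h1 h2 h3 h4 h5 => ?_, fun G s x₀ y jd h => ?_⟩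
  · have A := tn G s (s.j + x) (s.j + x') _ _ c₂ jd (by omega) (by omega) h4 d2.c0
      fun l a1 a2 => d2.tub G s x l jd h1 (by omega) (by omega) (by omega)
    set Z := fun ω => (G.T (s.j + x') ω, G.Nn s (s.j + x') ω,
      (G.tS s x).tub (G.bt x) ω, G.cp s.j ω, G.pn s.k s.J s.W ω) with hZ
    have B := hc_mono_left G.P (X := fun ω => (G.T (s.j + x) ω, G.Nn s (s.j + x) ω))
      (X' := fun ω => (G.Nn s (s.j + x) ω, G.T (s.j + x) ω)) (Y := Z)
      fun ω ω' _ _ e => Prod.ext (Prod.mk.inj (Prod.mk.inj e).1).2 (Prod.mk.inj (Prod.mk.inj e).1).1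
    have D := hc_pair G.P (G.Nn s (s.j + x)) (G.T (s.j + x)) Z
    have E := hc_swap G.P (G.Nn s (s.j + x)) (G.st s x') Z
    have F := hc_mono_left G.P (X := G.st s x') (X' := (G.tS s x).cel (G.bt x')) (Y := Z) fun ω ω' _ _ e => by
      obtain ⟨e1, e2⟩ := Prod.mk.inj e
      simp only [hZ, Prod.mk.injEq] at e2
      refine Prod.ext e1 ?_
      show (G.tS s x').side ω = (G.tS s x').side ω'
      rw [ap.side G s x' ω jd, ap.side G s x' ω' jd, e2.2.1, e2.2.2.2.1, e2.2.2.2.2]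
    have F' := hc_mono_right G.P ((G.tS s x).cel (G.bt x'))
      (Y := fun ω => ((G.tS s x).tm (G.bt x') ω, (G.tS s x).tub (G.bt x) ω)) (Y' := Z) fun ω ω' _ _ e => by
        simp only [hZ, Prod.mk.injEq] at e
        beta_reduce
        rw [ap.tm G s x x' ω jd (by omega), ap.tm G s x x' ω' jd (by omega), e.1, e.2.2.1]
    have F'' := (cl s.k _ (G.tS s x) _ _ (ap.bnd G s x jd) (G.bt_le h2)).trans
      (single_le_sum (f := c₅) (fun k _ => p5 k) (mem_range.2 (Nat.lt_succ_of_le jd.blk.km)))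
    have H : hc G.P (G.T (s.j + x)) (fun ω => (G.Nn s (s.j + x) ω, Z ω)) ≤
        (G.tS s x).hT (G.bt x) (G.bt x) (G.bt x') := by
      rw [← funext fun ω => ap.tm G s x x ω jd (by omega)]
      refine hc_mono_right G.P _ fun ω ω' _ _ e => ?_
      simp only [hZ, Prod.mk.injEq] at e
      rw [ap.tm G s x x' ω jd (by omega), ap.tm G s x x' ω' jd (by omega), ap.side G s x ω jd,
        ap.side G s x ω' jd, e.1, e.2.1, e.2.2.2.1, e.2.2.2.2.1, e.2.2.2.2.2]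
    have := sm G
    have F3 : hc G.P ((G.tS s x).cel (G.bt x'))
      (fun ω => ((G.tS s x).tm (G.bt x') ω, (G.tS s x).tub (G.bt x) ω)) ≤ _ := F''
    push_cast at A
    unfold St.ν
    linarith
  · have A := tn G s (s.j + x) (s.j + x') _ _ c₂ jd (by omega) (by omega) h5 d2.c0
      fun l a1 a2 => d2.tub G s x₀ l jd h1 (by omega) (by omega) (by omega)
    set Z := fun ω => (G.T (s.j + x') ω, G.Nn s (s.j + x') ω,
      (G.tS s x₀).tub (G.bt x₀) ω, G.cp s.j ω, G.pn s.k s.J s.W ω) with hZ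
    have B := hc_mono_left G.P (X := fun ω => (G.T (s.j + x) ω, G.Nn s (s.j + x) ω))
      (X' := G.T (s.j + x)) (Y := Z)
      fun ω ω' _ _ e => Prod.ext (Prod.mk.inj e).1 ((G.Nn_top hk _ _).trans (G.Nn_top hk _ _).symm)
    have H : hc G.P (G.T (s.j + x)) Z ≤ (G.tS s x₀).hT (G.bt x₀) (G.bt x) (G.bt x') := by
      rw [← funext fun ω => ap.tm G s x₀ x ω jd (by omega)]
      refine hc_mono_right G.P _ fun ω ω' _ _ e => ?_
      simp only [hZ, Prod.mk.injEq] at e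
      rw [ap.tm G s x₀ x' ω jd (by omega), ap.tm G s x₀ x' ω' jd (by omega), ap.side G s x₀ ω jd,
        ap.side G s x₀ ω' jd, G.Nn_top hk, G.Nn_top hk, e.1, e.2.2.1, e.2.2.2.1, e.2.2.2.2]
    have := sm G
    have := G.e1
    rw [show (s.k : ℝ) = m by rw [hk]] at A
    push_cast at A
    linarith
  · have hK := jd.blk.le
    have A := mk.cap G s.j (s.j + y) (by omega) (by omega)
    have B := hc_mono_right G.P (G.cp (s.j + y)) (Y := G.ξ s) (Y' := fun ω => (G.cp s.j ω, G.x ω))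
      fun ω ω' _ _ e => xi_fn ap G jd
        (ch.ups G.toSt0 0 s.j ω ω' (Nat.zero_le _) (by omega) (Prod.mk.inj e).2 (Prod.mk.inj e).1)
    have D := hc_le_add' G.P (G.cp (s.j + y)) ((G.tS s x₀).dir (y * G.N)) (G.ξ s)
    have E := d2.dir G s x₀ y jd h
    have := sm G
    have := G.e1
    linarith

end Vale.Agent.P076N.FL
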