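import Vale.Agent.P076N.FL.Ht

/-!
# P076N / FL : the row JMP
-/

set_option linter.all false

open Finset Vale.Agent.P127 Vale.Agent.P127.Stk

namespace Vale.Agent.P076N.FL

theorem jmp : ∀ m, B2 m → ∀ K C, ∃ c, JMP m K C c := by
  intro m b K C
  obtain ⟨c₁, p1, tn⟩ := b.tn K C
  obtain ⟨c₂, d1⟩ := b.dt1 K C
  obtain ⟨c₃, d2⟩ := b.dt2 K C
  obtain ⟨c₄, d3⟩ := b.dt3 K C
  obtain ⟨c₅, sd⟩ := b.std K C
  obtain ⟨c₆, lv⟩ := b.lv K C
  obtain ⟨c₇, ap⟩ := b.apx K C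
  have ch := b.ch K C
  have := d1.c0; have := d2.c0; have := d3.c0; have := sd.c0
  have sm : ∀ G : St m K C, 0 ≤ c₁ * G.e ∧ 0 ≤ c₄ * G.e ∧ 0 ≤ c₅ * G.e ∧ c₂ ≤ c₂ * G.e ∧ c₃ ≤ c₃ * G.e := fun G => by
    have e1 := G.e1
    exact ⟨by positivity, by positivity, by positivity, le_mul_of_one_le_right d1.c0 e1,
      le_mul_of_one_le_right d2.c0 e1⟩
  refine ⟨c₁ + c₂ + c₃ + c₄ + c₅, by positivity, fun G s x jd h1 h2 => ?_, fun G s x jd hk h1 h2 => ?_⟩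
  · have hK := jd.blk.le
    obtain ⟨Ω', _, R, π₁, π₂, hB, m₁, m₂, hE⟩ := b.ent.glue _ _ _ G.P G.P (G.st s x) (G.st s x) fun _ => rfl
    refine ⟨⟨Ω', R, π₁, π₂, m₁, m₂, fun ω _ => ?_, fun ω _ => (d3.st G s x _ _ jd h1 (hB ω)).1, ?_⟩⟩
    · rw [Nat.add_sub_cancel_left]
      exact b.nr.mono _ _ _ _ _ _ _ (by linarith) (d3.near G s x _ _ jd h1 (by omega) (hB ω))
    · refine le_trans ?_ (hE _ _ (G.S s.j) (G.S (s.j + 2 * x)))
      have A := hc_mono_right R (fun ω => G.st s x (π₁ ω)) (Y := fun ω => G.S s.j (π₁ ω))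
        (Y' := fun ω => (G.S s.j (π₁ ω), G.S (s.j + 2 * x) (π₂ ω))) fun ω ω' _ _ e => (Prod.mk.inj e).1
      have B : hc R (fun ω => G.st s x (π₁ ω)) (fun ω => G.S s.j (π₁ ω)) = _ :=
        hc_of_law R G.P π₁ m₁ (G.st s x) (G.S s.j)
      have D := d1.st G s x jd h1
      have E := tn G s (s.j + x) (s.j + 2 * x) _ (G.S (s.j + 2 * x)) 0 jd (by omega) (by omega) h2 le_rfl
        fun l a1 a2 => (hc_zero G.P fun ω ω' _ _ e => ch.ups G.toSt0 l _ ω ω' a2 (by omega) (Prod.mk.inj e).1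
          (congrArg (cap G.D K (s.j + 2 * x)) (Prod.mk.inj e).2)).le
      have F := hc_mono_right G.P (fun ω => (G.T (s.j + x) ω, G.Nn s (s.j + x) ω)) (Y := G.S (s.j + 2 * x))
        (Y' := fun ω => (G.T (s.j + 2 * x) ω, G.Nn s (s.j + 2 * x) ω, G.S (s.j + 2 * x) ω))
        fun ω ω' _ _ e => (Prod.mk.inj (Prod.mk.inj e).2).2
      have H := hc_mono_left G.P (X := fun ω => (G.T (s.j + x) ω, G.Nn s (s.j + x) ω)) (X' := G.st s x)
        (Y := G.S (s.j + 2 * x)) fun ω ω' _ _ e =>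
          Prod.ext (d3.st G s x _ _ jd h1 (Prod.mk.inj e).1).2.1 (congrArg (fun p => p.1.2.2.2) e)
      have L := G.cost_lg s x
      have := sm G
      push_cast at E
      linarith
  · have hK := jd.blk.le
    have A := (abs_le.1 (sd.ch G s.j (s.j + 2 * x) (by omega) (by omega))).1
    have B := hc_swap G.P (G.S s.j) (G.st s x) (G.S (s.j + 2 * x))
    have D := hc_le_add G.P (G.st s x) (G.T (s.j + x)) (G.S (s.j + 2 * x))
    have E := d2.bp G s x jd hk h1 h2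
    have F := (hc_mono_right G.P (G.T (s.j + x)) (Y := G.T (s.j + 2 * x)) (Y' := G.S (s.j + 2 * x))
      fun ω ω' _ _ e => congrArg Nd.T e).trans (lv.dig G (s.j + x) (s.j + 2 * x) (by omega))
    have L := G.cost_lg s x
    have := sm G
    rw [show (s.k : ℝ) = m by rw [hk]] at L
    push_cast at A F
    linarith

end Vale.Agent.P076N.FL
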