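import Vale.Agent.P076N.FL.Spec

/-!
# P076N / FL : row LAT1 (lattice points in a strip)
-/

open Finset Vale.Agent.P127 Vale.Agent.P127.Stk

namespace Vale.Agent.P076N.FL

noncomputable section

namespace Lat1

theorem norm_le {m : ℕ} {x : Vc m} {r : ℝ} (hr : 0 ≤ r) (h : ∀ l, |x l| ≤ r) : ‖x‖ ≤ m * r := by
  refine le_of_sq_le_sq ?_ (by positivity)
  rw [EuclideanSpace.real_norm_sq_eq]
  have h1 : ∑ l, x l ^ 2 ≤ ∑ _l : Fin m, r ^ 2 :=
    sum_le_sum fun l _ => sq_le_sq' (abs_le.1 (h l)).1 (abs_le.1 (h l)).2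
  rw [sum_const, card_univ, Fintype.card_fin, nsmul_eq_mul] at h1
  have h2 : (m : ℝ) ≤ (m : ℝ) ^ 2 := by exact_mod_cast Nat.le_self_pow two_ne_zero m
  rw [mul_pow]
  exact h1.trans (mul_le_mul_of_nonneg_right h2 (sq_nonneg _))

theorem card_le (a : ℝ) {r : ℝ} (hr : 0 ≤ r) : (#(Icc ⌊a - r⌋ ⌊a + r⌋) : ℝ) ≤ 2 * r + 2 := by
  have h1 : ⌊a - r⌋ ≤ ⌊a + r⌋ + 1 := (Int.floor_mono (by linarith)).trans (Int.le_add_one le_rfl)
  have h2 : ((#(Icc ⌊a - r⌋ ⌊a + r⌋) : ℤ) : ℝ) = ((⌊a + r⌋ + 1 - ⌊a - r⌋ : ℤ) : ℝ) := by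
    rw [Int.card_Icc_of_le _ _ h1]
  push_cast at h2
  linarith [Int.floor_le (a + r), Int.lt_floor_add_one (a - r)]

theorem mem_Icc' {a r x : ℝ} (h : |x - a| ≤ r) : ⌊x⌋ ∈ Icc ⌊a - r⌋ ⌊a + r⌋ :=
  mem_Icc.2 ⟨Int.floor_mono (by linarith [(abs_le.1 h).1]),
    Int.floor_mono (by linarith [(abs_le.1 h).2])⟩

theorem inj {m : ℕ} (p : Pl m) :
    Function.Injective fun (y : Zv m) (l : Fin m) => ⌊((m : ℝ) + 1) * p.1 (toV y - p.2) l⌋ := by
  intro y y' h
  have hq : (0 : ℝ) < m + 1 := by positivity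
  have h1 : ∀ l, |p.1 (toV y - toV y') l| ≤ 1 / ((m : ℝ) + 1) := by
    intro l
    have h2 := Int.abs_sub_lt_one_of_floor_eq_floor (congrFun h l)
    have h3 : p.1 (toV y - toV y') l = p.1 (toV y - p.2) l - p.1 (toV y' - p.2) l := by
      rw [← PiLp.sub_apply, ← map_sub, sub_sub_sub_cancel_right]
    rw [← mul_sub, ← h3, abs_mul, abs_of_pos hq] at h2
    rw [le_div_iff₀ hq, mul_comm]
    exact h2.le
  have h4 := norm_le (by positivity) h1
  rw [LinearIsometryEquiv.norm_map] at h4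
  have h5 : (m : ℝ) * (1 / ((m : ℝ) + 1)) < 1 := by
    rw [mul_one_div, div_lt_one hq]
    exact lt_add_one _
  funext l
  have h6 : |(y l : ℝ) - y' l| < 1 :=
    lt_of_le_of_lt (PiLp.norm_apply_le (toV y - toV y') l) (h4.trans_lt h5)
  have h7 : |y l - y' l| < 1 := by exact_mod_cast h6
  have := abs_lt.1 h7
  omega

end Lat1

open Lat1 in
theorem lat_strip : ∀ (m : ℕ) (ρ : ℝ), ∃ c : ℝ, 1 ≤ c ∧ ∀ (k : ℕ) (L : ℝ) (p : Pl m) (n : Vc m)
    (Y : Finset (Zv m)), k ≤ m → 1 ≤ L →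
    (∀ y ∈ Y, (∀ l, |(y l : ℝ) - n l| ≤ L) ∧ InS p k ρ (toV y)) → (#Y : ℝ) ≤ c * L ^ k := by
  intro m ρ
  have hq : (0 : ℝ) < m + 1 := by positivity
  have hA : (0 : ℝ) ≤ (m + 1) * m := by positivity
  have hB : (0 : ℝ) ≤ (m + 1) * |ρ| := by positivity
  set c : ℝ := 2 * ((m + 1) * m) + 2 * ((m + 1) * |ρ|) + 2 with hc
  have hc1 : 1 ≤ c := by linarith
  refine ⟨c ^ m, one_le_pow₀ hc1, fun k L p n Y _ hL hY => ?_⟩
  let a : Fin m → ℝ := fun l => if (l : ℕ) < k then (m + 1) * p.1 (n - p.2) l else 0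
  let r : Fin m → ℝ := fun l => if (l : ℕ) < k then (m + 1) * (m * L) else (m + 1) * |ρ|
  have hr : ∀ l, 0 ≤ r l := fun l => by
    simp only [r]
    split_ifs
    · positivity
    · exact hB
  have h1 : #Y ≤ #(Fintype.piFinset fun l => Icc ⌊a l - r l⌋ ⌊a l + r l⌋) := by
    refine card_le_card_of_injOn _ (fun y hy => ?_) (inj p).injOn
    refine mem_coe.2 (Fintype.mem_piFinset.2 fun l => mem_Icc' ?_)
    obtain ⟨h2, h3⟩ := hY y hy
    simp only [a, r]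
    split_ifs with hl
    · have h4 : p.1 (toV y - p.2) l - p.1 (n - p.2) l = p.1 (toV y - n) l := by
        rw [← PiLp.sub_apply, ← map_sub, sub_sub_sub_cancel_right]
      rw [← mul_sub, h4, abs_mul, abs_of_pos hq]
      refine mul_le_mul_of_nonneg_left 
        (le_trans (PiLp.norm_apply_le (p.1 (toV y - n)) l) ?_) hq.le
      rw [LinearIsometryEquiv.norm_map]
      exact norm_le (by linarith) h2
    · rw [sub_zero, abs_mul, abs_of_pos hq]
      exact mul_le_mul_of_nonneg_left ((h3 l (not_lt.1 hl)).trans (le_abs_self _)) hq.le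
  have h2 : (#Y : ℝ) ≤ ∏ l, (#(Icc ⌊a l - r l⌋ ⌊a l + r l⌋) : ℝ) := by
    rw [Fintype.card_piFinset] at h1
    exact_mod_cast h1
  refine h2.trans ((prod_le_prod (g := fun l : Fin m => c * if (l : ℕ) < k then L else 1)
    (fun _ _ => Nat.cast_nonneg _) fun l _ => (card_le _ (hr l)).trans ?_).trans ?_)
  · simp only [r]
    split_ifs
    · nlinarith
    · linarith
  · rw [prod_mul_distrib, prod_const, card_univ, Fintype.card_fin, prod_ite, prod_const, prod_const,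
      one_pow, mul_one]
    refine mul_le_mul_of_nonneg_left (pow_le_pow_right₀ hL ?_) (by positivity)
    rw [Fin.card_filter_val_lt]
    exact min_le_right _ _

end

end Vale.Agent.P076N.FL
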