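import Vale.Agent.P076N.FL.Spec

/-! P076N / FL : the row LAT2 (`root`, `wga`, `gph`). -/

open Finset

namespace Vale.Agent.P076N.FL

noncomputable section

namespace Lat2

lemma card_win (a R : ℝ) (hR : 0 ≤ R) : (#(Icc ⌈a - R⌉ ⌊a + R⌋) : ℝ) ≤ 2 * R + 1 := by
  rw [Int.card_Icc]
  rcases le_total (⌊a + R⌋ + 1 - ⌈a - R⌉) 0 with h | h
  · rw [Int.toNat_eq_zero.2 h]; push_cast; linarith
  · have h1 : (((⌊a + R⌋ + 1 - ⌈a - R⌉).toNat : ℤ) : ℝ) = ((⌊a + R⌋ + 1 - ⌈a - R⌉ : ℤ) : ℝ) := by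
      rw [Int.toNat_of_nonneg h]
    push_cast at h1
    rw [h1]
    linarith [Int.floor_le (a + R), Int.le_ceil (a - R)]

lemma edr {q : ℤ} (hq : 0 < q) (a : ℤ) : q * (a / q) ≤ a ∧ a < q * (a / q) + q := by
  have h1 := Int.mul_ediv_add_emod a q
  have h2 := Int.emod_nonneg a hq.ne'
  have h3 := Int.emod_lt_of_pos a hq
  omega

end Lat2

open Lat2

theorem lat_root : ∀ (m : ℕ) (c₁ : ℝ), ∃ c : ℝ, 1 ≤ c ∧ ∀ (D ρ σ : ℕ) (B : ℝ) (X : Finset (Nd m))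
    (v n : Vc m) (s : ℤ), 1 ≤ D → WGA B ((D : ℤ) ^ ρ) X → (∀ l, |v l| ≤ 11) →
    (#(X.filter fun x => x.T / (D : ℤ) ^ (ρ + σ) = s ∧
      ∀ l, |(xpos x l : ℝ) - x.T * v l - n l| ≤ c₁ * (D : ℝ) ^ ρ) : ℝ)
        ≤ c * B * (D : ℝ) ^ (σ + m * ρ) := by
  intro m c₁
  have ha := abs_nonneg c₁
  refine ⟨(2 * (|c₁| + 11) + 1) ^ m, one_le_pow₀ (by linarith), ?_⟩
  intro D ρ σ B X v n s hD hW hv
  have hB : 0 ≤ B := (Nat.cast_nonneg _).trans (hW 0 0)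
  have hD1 : (1 : ℝ) ≤ D := by exact_mod_cast hD
  have hP : (1 : ℝ) ≤ (D : ℝ) ^ ρ := one_le_pow₀ hD1
  obtain ⟨R, hR⟩ : ∃ R : ℝ, R = (|c₁| + 11) * (D : ℝ) ^ ρ := ⟨_, rfl⟩
  have R0 : 0 ≤ R := by rw [hR]; positivity
  obtain ⟨box, hbox⟩ : ∃ box : ℤ → Finset (Zv m), ∀ s₁ : ℤ, box s₁ = Fintype.piFinset fun l =>
      Icc ⌈((D : ℝ) ^ ρ * s₁ * v l + n l) - R⌉ ⌊((D : ℝ) ^ ρ * s₁ * v l + n l) + R⌋ :=
    ⟨_, fun _ => rfl⟩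
  have hc : ∀ s₁, (#(box s₁) : ℝ) ≤ (2 * (|c₁| + 11) + 1) ^ m * (D : ℝ) ^ (m * ρ) := by
    intro s₁
    rw [hbox, Fintype.card_piFinset, mul_comm m, pow_mul, ← mul_pow]
    push_cast
    refine (prod_le_prod (fun _ _ => Nat.cast_nonneg _) fun l _ =>
      (card_win _ R R0).trans (show _ ≤ (2 * (|c₁| + 11) + 1) * (D : ℝ) ^ ρ by
        rw [hR]; linarith)).trans (le_of_eq ?_)
    simp
  obtain ⟨t, ht⟩ : ∃ t : Finset (Zv m × ℤ), t = (Ico ((D : ℤ) ^ σ * s)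
      ((D : ℤ) ^ σ * s + (D : ℤ) ^ σ)).biUnion fun s₁ => (box s₁).image fun y => (y, s₁) := ⟨_, rfl⟩
  have htc : (#t : ℝ) ≤ (D : ℝ) ^ σ * ((2 * (|c₁| + 11) + 1) ^ m * (D : ℝ) ^ (m * ρ)) := by
    have h1 : (#t : ℝ) ≤ ∑ s₁ ∈ Ico ((D : ℤ) ^ σ * s) ((D : ℤ) ^ σ * s + (D : ℤ) ^ σ),
        (#(box s₁) : ℝ) := by
      rw [ht]
      exact_mod_cast card_biUnion_le.trans (sum_le_sum fun _ _ => card_image_le)
    refine h1.trans ((sum_le_card_nsmul _ _ _ fun s₁ _ => hc s₁).trans (le_of_eq ?_))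
    rw [Int.card_Ico, add_sub_cancel_left, nsmul_eq_mul, ← Nat.cast_pow, Int.toNat_natCast]
    push_cast
    rfl
  obtain ⟨Y, hY⟩ : ∃ Y, Y = X.filter fun x => x.T / (D : ℤ) ^ (ρ + σ) = s ∧
      ∀ l, |(xpos x l : ℝ) - x.T * v l - n l| ≤ c₁ * (D : ℝ) ^ ρ := ⟨_, rfl⟩
  rw [← hY]
  have hm : Set.MapsTo (fun x : Nd m => (xpos x, x.T / (D : ℤ) ^ ρ)) Y t := by
    intro x hx
    rw [hY] at hx
    obtain ⟨-, h1, h2⟩ := mem_filter.1 (mem_coe.1 hx)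
    rw [pow_add, ← Int.ediv_ediv_of_nonneg (by positivity)] at h1
    have h3 := edr (q := (D : ℤ) ^ σ) (by positivity) (x.T / (D : ℤ) ^ ρ)
    rw [h1] at h3
    rw [ht]
    refine mem_coe.2 (mem_biUnion.2 ⟨x.T / (D : ℤ) ^ ρ, mem_Ico.2 h3,
      mem_image.2 ⟨xpos x, ?_, rfl⟩⟩)
    rw [hbox]
    refine Fintype.mem_piFinset.2 fun l => ?_
    obtain ⟨h4, h5⟩ := edr (q := (D : ℤ) ^ ρ) (by positivity) x.T
    generalize x.T / (D : ℤ) ^ ρ = a at *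
    have h6 : (D : ℝ) ^ ρ * a ≤ x.T := by exact_mod_cast h4
    have h7 : (x.T : ℝ) ≤ (D : ℝ) ^ ρ * a + (D : ℝ) ^ ρ := by exact_mod_cast h5.le
    have h8 : |((x.T : ℝ) - (D : ℝ) ^ ρ * a) * v l| ≤ (D : ℝ) ^ ρ * 11 := by
      rw [abs_mul, abs_of_nonneg (by linarith)]
      exact mul_le_mul (by linarith) (hv l) (abs_nonneg _) (by positivity)
    obtain ⟨k1, k2⟩ := abs_le.1 h8
    obtain ⟨k3, k4⟩ := abs_le.1 ((h2 l).trans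
      (mul_le_mul_of_nonneg_right (le_abs_self c₁) (by positivity)))
    rw [mem_Icc, Int.ceil_le, Int.le_floor, hR]
    constructor <;> linarith
  have h1 : (#Y : ℝ) ≤ ∑ _p ∈ t, B := by
    rw [card_eq_sum_card_fiberwise hm]
    push_cast
    refine sum_le_sum fun p _ => le_trans ?_ (hW p.1 p.2)
    refine Nat.cast_le.2 (card_le_card fun x hx => ?_)
    obtain ⟨h2, h3⟩ := mem_filter.1 hx
    rw [hY] at h2
    exact mem_filter.2 ⟨(mem_filter.1 h2).1, congrArg Prod.fst h3, congrArg Prod.snd h3⟩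
  rw [sum_const, nsmul_eq_mul] at h1
  refine h1.trans ((mul_le_mul_of_nonneg_right htc hB).trans (le_of_eq ?_))
  rw [pow_add]
  ring

theorem lat_wga : ∀ (m D ρ ρ' : ℕ) (B : ℝ) (X : Finset (Nd m)), 1 ≤ D → ρ ≤ ρ' →
    WGA B ((D : ℤ) ^ ρ') X → WGA B ((D : ℤ) ^ ρ) X := by
  intro m D ρ ρ' B X _ h hW y s
  refine le_trans (Nat.cast_le.2 (card_le_card fun x hx => ?_)) (hW y (s / (D : ℤ) ^ (ρ' - ρ)))
  obtain ⟨h1, h2, h3⟩ := mem_filter.1 hx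
  refine mem_filter.2 ⟨h1, h2, ?_⟩
  rw [← h3, Int.ediv_ediv_of_nonneg (by positivity), ← pow_add, Nat.add_sub_cancel' h]

theorem lat_gph : ∀ (m : ℕ) (B : ℝ) (ℓ : ℤ) (X : Finset (Nd m)), GphA B X → WGA B ℓ X := by
  intro m B ℓ X h y s
  refine le_trans (Nat.cast_le.2 (card_le_card fun x hx => ?_)) (h y)
  obtain ⟨h1, h2, -⟩ := mem_filter.1 hx
  exact mem_filter.2 ⟨h1, h2⟩

end

end Vale.Agent.P076N.FL
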