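import Vale.Agent.P076N.FL.LtB

/-!
# P076N / FL : row LT1
-/

set_option linter.all false

open Finset Vale.Agent.P127 Vale.Agent.P127.Stk

namespace Vale.Agent.P076N.FL

open AT

noncomputable section

variable {m K : ℕ} {C : ℝ}

namespace St.LD

variable {G : St m K C} {cn : ℝ} {r j : ℕ} {h : ℝ} (L : G.LD cn r 0 j h)

theorem lt1_tub (hcn : 0 ≤ cn) : hc L.R (fun ω => flv (2 ^ 0) (L.ts.x ω - L.ts.t ω • L.ts.u ω)) L.nn ≤
    m * Real.log (2 * (cn + 1) + 1) := by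
  refine hc_vec L.R _ L.nn (fun S l => S.o l) (cn + 1) (by linarith) fun ω hω l => ?_
  have hq : (0 : ℝ) < (G.D : ℝ) ^ j := by have := lt_DR G.toSt0; positivity
  have := lt_close hq (L.nps hω l)
  convert this using 4
  simp only [flv, pow_zero, div_one, PiLp.sub_apply, PiLp.smul_apply, smul_eq_mul, x_ap, t_eq, u_eq]
  congr 1
  field_simp

theorem lt1_pos (hcn : 0 ≤ cn) (hj : j ≤ K) (i : ℕ) (hi : j ≤ i) {ω : L.Ω'} (hω : 0 < L.R.w ω) (l : Fin m) :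
    |(dv ((G.D : ℤ) ^ i) (xpos (L.rt ω)) l : ℝ) - ((((L.rt ω).T / (G.D : ℤ) ^ i : ℤ) : ℝ) * vel G.D j (L.nn ω).c l +
      (G.D : ℝ) ^ j * (L.nn ω).o l / (G.D : ℝ) ^ i)| ≤ cn + 11 + 1 := by
  have hD := lt_DR G.toSt0
  have hq : (0 : ℝ) < (G.D : ℝ) ^ i := by positivity
  have hji : (G.D : ℝ) ^ j ≤ (G.D : ℝ) ^ i := pow_le_pow_right₀ hD hi
  rw [dv, ← lt_floor _ _ (ch_D0 _)]
  refine lt_close hq ?_
  obtain ⟨t1, t2⟩ := ediv_real (q := (G.D : ℤ) ^ i) (by have := ch_D0 G.toSt0; positivity) (L.rt ω).T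
  simp only [Int.cast_pow, Int.cast_natCast] at t1 t2
  have h1 := L.nps hω l
  have h2 := L.ub hj ω l
  set v := vel G.D j (L.nn ω).c l
  set s : ℝ := (((L.rt ω).T / (G.D : ℤ) ^ i : ℤ) : ℝ)
  have e : (xpos (L.rt ω) l : ℝ) - (G.D : ℝ) ^ i * (s * v + (G.D : ℝ) ^ j * (L.nn ω).o l / (G.D : ℝ) ^ i) =
      ((xpos (L.rt ω) l : ℝ) - (L.rt ω).T * v - (G.D : ℝ) ^ j * (L.nn ω).o l) +
        ((L.rt ω).T - (G.D : ℝ) ^ i * s) * v := by field_simp; ring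
  have h3 : |((L.rt ω).T - (G.D : ℝ) ^ i * s) * v| ≤ (G.D : ℝ) ^ i * 11 := by
    rw [abs_mul]
    exact mul_le_mul (by rw [abs_le]; constructor <;> linarith) h2 (abs_nonneg _) hq.le
  rw [e]
  refine (abs_add_le _ _).trans ?_
  nlinarith [mul_le_mul_of_nonneg_left hji hcn]

theorem lt1_side (hcn : 0 ≤ cn) (hj : j ≤ K) :
    hc L.R (fun ω => dv ((G.D : ℤ) ^ (2 * j)) (xpos (L.rt ω))) L.nn ≤ m * Real.log (2 * (cn + 11 + 1) + 1) := by
  refine hc_vec L.R _ L.nn (fun S l => (S.T : ℝ) * vel G.D j S.c l + (G.D : ℝ) ^ j * S.o l / (G.D : ℝ) ^ (2 * j))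
    _ (by linarith) fun ω hω l => ?_
  have := L.lt1_pos hcn hj (2 * j) (by omega) hω l
  rwa [L.nT hω] at this

theorem lt1_cel (hcn : 0 ≤ cn) (hj : j ≤ K) :
    hc L.R (fun ω => dv ((G.D : ℤ) ^ j) (xpos (L.rt ω))) (fun ω => (L.ts.tm 0 ω, L.nn ω)) ≤
      m * Real.log (2 * (cn + 11 + 1) + 1) := by
  refine hc_vec L.R _ _ (fun p l => (p.1 : ℝ) * vel G.D j p.2.c l + (G.D : ℝ) ^ j * p.2.o l / (G.D : ℝ) ^ j)
    _ (by linarith) fun ω hω l => ?_
  have := L.lt1_pos hcn hj j le_rfl hω l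
  rwa [← L.tm0] at this

theorem lt1_tm : hc L.R (L.ts.tm 0) L.nn ≤ j * G.lg := by
  have hq : (0 : ℤ) < (G.D : ℤ) ^ j := by have := ch_D0 G.toSt0; positivity
  have := hc_le_logR L.R (L.ts.tm 0) L.nn ((G.D : ℝ) ^ j) fun ω hω =>
    ⟨Finset.Ico ((G.D : ℤ) ^ j * (L.nn ω).T) ((G.D : ℤ) ^ j * ((L.nn ω).T + 1)), by
      rw [Int.card_Ico, show (G.D : ℤ) ^ j * ((L.nn ω).T + 1) - (G.D : ℤ) ^ j * (L.nn ω).T = ((G.D ^ j : ℕ) : ℤ) by
        rw [mul_add, mul_one, add_sub_cancel_left, Nat.cast_pow G.D j], Int.toNat_natCast, Nat.cast_pow G.D j], fun ω' h' e => by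
      rw [Finset.mem_Ico, ← ediv_eq_iff_Ico hq, tm0, lt_ediv, L.nT h', e]⟩
  rwa [Real.log_pow, lt_logD] at this

end St.LD

theorem lt1 (m : ℕ) (hB : B1 m) (K : ℕ) (C : ℝ) : LT1 m K C := by
  classical
  intro cn B hcn hB1
  obtain ⟨c₁, hc₁, hr⟩ := hB.lat.root m cn
  set c₂ : ℝ := m * Real.log (2 * (cn + 1) + 1) with hc₂
  set c₃ : ℝ := m * Real.log (2 * (cn + 11 + 1) + 1) with hc₃
  have p₂ : 0 ≤ c₂ := mul_nonneg (Nat.cast_nonneg _) (Real.log_nonneg (by linarith))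
  have p₃ : 0 ≤ c₃ := mul_nonneg (Nat.cast_nonneg _) (Real.log_nonneg (by linarith))
  have p₁ : 0 ≤ Real.log c₁ := Real.log_nonneg hc₁
  have pB : 0 ≤ Real.log B := Real.log_nonneg hB1
  refine ⟨Real.log c₁ + Real.log B + c₂ + c₃, by linarith, fun G r j h L hw hj => ?_⟩
  have hD := lt_DR G.toSt0
  have hD0 := ch_D0 G.toSt0
  have hent : h ≤ hc L.R L.rt L.nn := L.ent
  refine ⟨fun ω _ => ?_, ?_, ?_, fun hg => ?_, fun ω ω' _ _ e => ?_, fun ω ω' e => ?_⟩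
  · rw [L.u_eq, mul_comm]; exact lt_norm _ (by norm_num) (L.ub hj ω)
  · have hw' : WGA B ((G.D : ℤ) ^ j) (G.V 0) :=
      hB.lat.wga m G.D j K B _ hD0 hj (by simpa [St0.Wg, St0.D] using hw)
    have h1 := hc_le_add L.R L.rt (L.ts.tm 0) L.nn
    have h2 := hc_le_logR L.R L.rt (fun ω => (L.ts.tm 0 ω, L.nn ω)) (c₁ * B * (G.D : ℝ) ^ (0 + m * j))
      fun ω hω => ⟨_, hr G.D j 0 B (G.V 0) (vel G.D j (L.nn ω).c) ((G.D : ℝ) ^ j • toV (L.nn ω).o) (L.ts.tm 0 ω)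
        hD0 hw' (L.ub hj ω), fun ω' h' e => by
          have e1 : L.ts.tm 0 ω' = L.ts.tm 0 ω := congrArg Prod.fst e
          have e2 : L.nn ω' = L.nn ω := congrArg Prod.snd e
          refine Finset.mem_filter.2 ⟨L.rt_mem ω', by rw [← e1, L.tm0, add_zero], fun l => ?_⟩
          rw [← e2]
          simpa [toV] using L.nps h' l⟩
    rw [Real.log_mul (by positivity) (by positivity), Real.log_mul (by positivity) (by positivity), Real.log_pow,
      lt_logD] at h2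
    have h3 := hc_le_cond L.R (L.ts.tm 0) (fun ω => (L.ts.tm (j * G.N) ω, L.ts.tub 0 ω, L.ts.side ω)) L.nn
    have h4 : hc L.R (fun ω => (L.ts.tm (j * G.N) ω, L.ts.tub 0 ω, L.ts.side ω)) L.nn ≤
        hc L.R (fun ω => (flv (2 ^ 0) (L.ts.x ω - L.ts.t ω • L.ts.u ω),
          dv ((G.D : ℤ) ^ (2 * j)) (xpos (L.rt ω)))) L.nn := by
      refine hc_mono_left L.R fun ω ω' a b e => ?_
      simp only [Prod.mk.injEq] at e
      obtain ⟨⟨e1, e2⟩, e3⟩ := e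
      simp only [TSys.tub, L.side_eq, L.tmq, L.nT a, L.nT b, e1, e2, e3, Prod.mk.injEq, and_true, true_and]
      rw [L.u_eq, L.u_eq, e3]
    have h5 := hc_pair_le L.R (fun ω => flv (2 ^ 0) (L.ts.x ω - L.ts.t ω • L.ts.u ω))
      (fun ω => dv ((G.D : ℤ) ^ (2 * j)) (xpos (L.rt ω))) L.nn
    have h6 := L.lt1_tub hcn
    have h7 := L.lt1_side hcn hj
    have e : L.ts.hT 0 0 (j * G.N) =
      hc L.R (L.ts.tm 0) (fun ω => (L.ts.tm (j * G.N) ω, L.ts.tub 0 ω, L.ts.side ω)) := rfl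
    push_cast at h2
    rw [e]
    linarith
  · have h1 := hc_le_cond L.R L.rt (L.ts.cel 0) L.nn
    have h2 : hc L.R (L.ts.cel 0) L.nn ≤
        hc L.R (fun ω => (L.ts.tm 0 ω, dv ((G.D : ℤ) ^ j) (xpos (L.rt ω)))) L.nn := by
      refine hc_mono_left L.R fun ω ω' a b e => ?_
      simp only [Prod.mk.injEq, L.tm0] at e
      rw [L.cel0, L.cel0, e.1.1, e.1.2]
    rw [hc_pair L.R (L.ts.tm 0)] at h2
    have h3 := L.lt1_cel hcn hj
    have h4 := L.lt1_tm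
    show _ ≤ hc L.R L.rt (L.ts.cel 0)
    linarith
  · have h2 := hc_le_logR L.R L.rt L.ts.side (B * (G.D : ℝ) ^ (2 * j * m)) fun ω hω =>
      ⟨(below G.D (2 * j) (L.ts.side ω).1).biUnion fun y => (G.V 0).filter fun x => xpos x = y, by
        refine le_trans (Nat.cast_le.2 Finset.card_biUnion_le) ?_
        rw [Nat.cast_sum]
        refine (Finset.sum_le_card_nsmul _ _ B fun y _ => hg y).trans ?_
        rw [card_below, nsmul_eq_mul, mul_comm, Nat.cast_pow G.D], fun ω' h' e => by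
        refine Finset.mem_biUnion.2 ⟨xpos (L.rt ω'), ?_, Finset.mem_filter.2 ⟨L.rt_mem ω', rfl⟩⟩
        rw [mem_below hD0, ← e]; rfl⟩
    rw [Real.log_mul (by positivity) (by positivity), Real.log_pow, lt_logD] at h2
    push_cast at h2
    show hc L.R L.rt L.ts.side ≤ _
    linarith
  · rw [L.cel0, L.cel0, Prod.mk.injEq] at e
    rw [L.side_eq, L.side_eq, ← lt_ediv, ← lt_ediv, e.2]
    congr 1
    funext l
    have := congrFun e.1 l
    simp only [dv] at this ⊢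
    rw [← lt_ediv, ← lt_ediv, this]
  · have e : _ ∧ _ := ⟨congrArg Prod.fst e, congrArg Prod.snd e⟩
    have hq : (0 : ℝ) < (G.D : ℝ) ^ j := by positivity
    have key : ∀ a b : ℤ, a / (G.D : ℤ) ^ (2 * j) = b / (G.D : ℤ) ^ (2 * j) →
        |(a : ℝ) / (G.D : ℝ) ^ j - b / (G.D : ℝ) ^ j| ≤ (G.D : ℝ) ^ j := by
      intro a b hab
      obtain ⟨a1, a2⟩ := ediv_real (q := (G.D : ℤ) ^ (2 * j)) (by positivity) a
      obtain ⟨b1, b2⟩ := ediv_real (q := (G.D : ℤ) ^ (2 * j)) (by positivity) b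
      rw [hab] at a1 a2
      simp only [Int.cast_pow, Int.cast_natCast] at a1 a2 b1 b2
      rw [← sub_div, abs_div, abs_of_pos hq, div_le_iff₀ hq, ← pow_add, ← two_mul, abs_le]
      constructor <;> linarith
    rw [lt_Dpow]
    have hm : (0 : ℝ) ≤ m := Nat.cast_nonneg _
    constructor
    · refine (lt_norm _ hq.le fun l => ?_).trans (by nlinarith)
      rw [PiLp.sub_apply, L.x_ap, L.x_ap]
      exact key _ _ (congrFun e.1 l)
    · rw [L.t_eq, L.t_eq]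
      exact (key _ _ e.2).trans (by nlinarith)

end

end Vale.Agent.P076N.FL
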