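import Vale.Agent.P076N.FL.LtB

/-!
# P076N / FL : row LT2
-/

set_option linter.all false

open Finset Vale.Agent.P127 Vale.Agent.P127.Stk

namespace Vale.Agent.P076N.FL

open AT

noncomputable section

variable {m K : ℕ} {C : ℝ}

section

variable {Ω Ω' : Type} [Fintype Ω] [Fintype Ω']

theorem lt2_mono (P : Law Ω) {E E' : Ω → Prop} (h : ∀ ω, 0 < P.w ω → E ω → E' ω) : prE P E ≤ prE P E' := by
  classical
  unfold prE
  rw [← Finset.sum_filter_ne_zero]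
  refine Finset.sum_le_sum_of_subset_of_nonneg (fun ω hω => ?_) fun ω _ _ => P.nn ω
  simp only [Finset.mem_filter, Finset.mem_univ, true_and] at hω ⊢
  exact h ω (lt_of_le_of_ne (P.nn ω) (Ne.symm hω.2)) hω.1

theorem lt2_law (R : Law Ω') (P : Law Ω) (π : Ω' → Ω) (h : ∀ ω, R.pr π ω = P.w ω) (E : Ω → Prop) :
    prE R (fun ω => E (π ω)) = prE P E := by
  rw [← prE_eq_aux, ← prE_eq_aux]
  exact pr_law_aux R P π h (fun ω => E ω) True

/-- the uniform law -/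
def unif (Ω : Type) [Fintype Ω] (h : Nonempty Ω) : Law Ω where
  w := fun _ => 1 / Fintype.card Ω
  nn := fun _ => by positivity
  sum_one := by
    have : (0 : ℝ) < Fintype.card Ω := by exact_mod_cast Fintype.card_pos
    simp only [Finset.sum_const, Finset.card_univ, nsmul_eq_mul]
    field_simp

theorem unif_prE (h : Nonempty Ω) (E : Ω → Prop) : prE (unif Ω h) E = cnt E / Fintype.card Ω := by
  unfold prE cnt unif
  simp only [Finset.sum_const, nsmul_eq_mul, mul_one_div]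

theorem dm_prE (h : Nonempty Ω) {P : Law Ω} {e : ℝ} (hd : Dm P e) (E : Ω → Prop) :
    prE P E ≤ Real.exp e * prE (unif Ω h) E := by
  have : (0 : ℝ) < Fintype.card Ω := by exact_mod_cast Fintype.card_pos
  unfold prE
  rw [Finset.mul_sum]
  refine Finset.sum_le_sum fun ω _ => ?_
  show _ ≤ Real.exp e * (1 / Fintype.card Ω)
  rw [mul_one_div, le_div_iff₀ this]
  exact hd ω

theorem cnt_mono {E E' : Ω → Prop} (h : ∀ ω, E ω → E' ω) : cnt E ≤ cnt E' := by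
  classical
  unfold cnt
  exact_mod_cast Finset.card_le_card fun ω hω => by
    simp only [Finset.mem_filter, Finset.mem_univ, true_and] at hω ⊢
    exact h ω hω

theorem cnt_nn (E : Ω → Prop) : 0 ≤ cnt E := Nat.cast_nonneg _

theorem flat_low {β : Type} {P : Law Ω} {X : Ω → β} {e : ℝ} (hf : Flat P X e) (V : Finset β)
    (hV : ∀ ω, X ω ∈ V) {ω : Ω} (hω : 0 < P.w ω) : 1 ≤ #V * (Real.exp e * P.pr X (X ω)) := by
  classical
  have h1 : ∑ x ∈ img X, P.pr X x ≤ ∑ x ∈ V, P.pr X x :=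
    Finset.sum_le_sum_of_subset_of_nonneg (fun x hx => by
      obtain ⟨ω', rfl⟩ := mem_img.1 hx; exact hV ω') fun x _ _ => P.pr_nonneg X x
  rw [P.sum_pr_image] at h1
  refine h1.trans ((Finset.sum_le_card_nsmul _ _ _ fun x _ => ?_).trans (nsmul_eq_mul _ _).le)
  by_cases hx : ∃ ω', 0 < P.w ω' ∧ X ω' = x
  · obtain ⟨ω', h', rfl⟩ := hx
    exact hf ω' ω h' hω
  · refine le_trans ?_ (mul_nonneg (Real.exp_pos _).le (P.pr_nonneg _ _))
    rw [pr_eq_prE]
    refine (lt2_mono P (E' := fun _ => False) fun ω' h' e => hx ⟨ω', h', e⟩).trans ?_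
    simp [prE]

end

theorem lt2_unif (hB : B1 m) (G : St m K C) (h : Nonempty G.Ω) {y : ℕ} (hy : y ≤ K) (a : Nd m) (c : Zv m) :
    (unif G.Ω h).pr (fun ω => (G.x ω, G.cp y ω)) (a, c) ≤
      2 ^ K * Real.exp (-(G.GA 0 y * G.lg)) * (unif G.Ω h).pr G.x a := by
  obtain ⟨cl, hlv⟩ := hB.lv K C
  obtain ⟨g0, g1⟩ := hlv.gm G 0 y hy
  have hc : (0 : ℝ) < Fintype.card G.Ω := by exact_mod_cast Fintype.card_pos
  rw [pr_eq_prE, pr_eq_prE, unif_prE, unif_prE, ← g1, Real.exp_neg, Real.exp_log g0, ← mul_div_assoc]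
  refine div_le_div_of_nonneg_right ?_ hc.le
  by_cases hx : ∃ ω, (G.x ω, G.cp y ω) = (a, c)
  · obtain ⟨ω, e⟩ := hx
    obtain ⟨rfl, rfl⟩ := Prod.mk.inj e
    have h1 := (hB.rcn K C).capc G.toSt0 0 y ω (Nat.zero_le _) hy
    have h2 : cnt (fun ω' => G.cp 0 ω' = G.cp 0 ω ∧ G.x ω' = G.x ω) ≤ cnt fun ω' => G.x ω' = G.x ω :=
      cnt_mono fun _ h => h.2
    have h3 : cnt (fun ω' => (G.x ω', G.cp y ω') = (G.x ω, G.cp y ω)) ≤
        cnt fun ω' => G.cp y ω' = G.cp y ω ∧ G.x ω' = G.x ω := cnt_mono fun _ h => (Prod.mk.inj h).symm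
    rw [mul_right_comm, ← div_eq_mul_inv, le_div_iff₀ g0]
    exact (mul_le_mul_of_nonneg_right h3 g0.le).trans (h1.trans (mul_le_mul_of_nonneg_left h2 (by positivity)))
  · refine le_trans (cnt_mono (E' := fun _ => False) fun ω e => hx ⟨ω, e⟩) ?_
    have := cnt_nn fun ω => G.x ω = a
    simp only [cnt, Finset.filter_false, Finset.card_empty, Nat.cast_zero] at this ⊢
    positivity

theorem lt2_u (hB : B1 m) {G : St m K C} {cn : ℝ} {r j : ℕ} {h : ℝ} (L : G.LD cn r 0 j h) (hr : r ≤ j)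
    (hj : j ≤ K) {y : ℕ} (hy : y ≤ r) {ω : L.Ω'} (hω : 0 < L.R.w ω) (l : Fin m) :
    |(G.cp y (L.π₁ ω) l : ℝ) - (G.D : ℝ) ^ y * L.ts.u ω l| ≤ 1 := by
  have hc := hB.ch K C
  have e : G.cp y (L.π₁ ω) = G.cp y (L.π₂ ω) := by
    rw [hc.cpn G.toSt0 y r _ hy (hr.trans hj), hc.cpn G.toSt0 y r _ hy (hr.trans hj), L.cp ω hω]
  obtain ⟨h1, h2⟩ := hc.vv G.toSt0 y j (L.π₂ ω) l (hy.trans hr) hj
  have hq : (0 : ℝ) < (G.D : ℝ) ^ y := by have := lt_DR G.toSt0; positivity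
  have e2 : (G.cp y (L.π₂ ω) l : ℝ) = (G.D : ℝ) ^ y * G.v y (L.π₂ ω) l := by
    rw [St0.v, vel_apply]; field_simp
  have h3 := mul_le_mul_of_nonneg_left h2 hq.le
  have h4 := mul_nonneg hq.le h1
  rw [mul_inv_cancel₀ hq.ne'] at h3
  rw [e, e2, abs_le]
  show -1 ≤ _ - _ * G.v j (L.π₂ ω) l ∧ _ - _ * G.v j (L.π₂ ω) l ≤ 1
  constructor <;> linarith

theorem lt2 (m : ℕ) (hB : B1 m) (K : ℕ) (C : ℝ) : LT2 m K C := by
  classical
  obtain ⟨c₀, hc₀, hs⟩ := hB.lat.strip m (m + 1)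
  have l0 : 0 ≤ Real.log c₀ := Real.log_nonneg hc₀
  have l2 : 0 ≤ K * Real.log 2 := mul_nonneg (Nat.cast_nonneg _) (Real.log_nonneg (by norm_num))
  have l5 : 0 ≤ m * Real.log 5 := mul_nonneg (Nat.cast_nonneg _) (Real.log_nonneg (by norm_num))
  refine ⟨2 + Real.log c₀ + m * Real.log 5 + 2 * (K * Real.log 2), by linarith,
    fun G cn r j h L hm hr hj => ?_⟩
  have hne := (hB.rect K C).ne G.toSt0
  have hD := lt_DR G.toSt0
  have hD0 := ch_D0 G.toSt0
  have he := G.e1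
  have e2 : (2 : ℝ) ^ K = Real.exp (K * Real.log 2) := by rw [← Real.log_pow, Real.exp_log (by positivity)]
  refine ⟨fun y hy pl => ?_, fun hf y n a q hy hn hn' => ?_⟩
  · have hyK : y ≤ K := hy.trans (hr.trans hj)
    have hq : (0 : ℝ) < (G.D : ℝ) ^ y := by positivity
    set F : Nd m → Finset (Zv m) := fun a => (below G.D y a.c).filter fun c =>
      InS ((pl a).1, (G.D : ℝ) ^ y • (pl a).2) (m - 1) (m + 1) (toV c) with hF
    have hFc : ∀ a, (#(F a) : ℝ) ≤ c₀ * ((G.D : ℝ) ^ y) ^ (m - 1) := fun a => by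
      refine hs (m - 1) _ ((pl a).1, (G.D : ℝ) ^ y • (pl a).2) ((G.D : ℝ) ^ y • toV a.c) _ (Nat.sub_le _ _) (one_le_pow₀ hD) fun c hc => ?_
      obtain ⟨h1, h2⟩ := Finset.mem_filter.1 hc
      refine ⟨fun l => ?_, h2⟩
      obtain ⟨d1, d2⟩ := ediv_real (q := (G.D : ℤ) ^ y) (by positivity) (c l)
      have : c l / (G.D : ℤ) ^ y = a.c l := congrFun ((mem_below hD0 _ _ _).1 h1) l
      rw [this] at d1 d2
      simp only [Int.cast_pow, Int.cast_natCast] at d1 d2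
      simp only [toV, PiLp.smul_apply, smul_eq_mul]
      rw [abs_le]; constructor <;> linarith
    have h1 : prE L.R (fun ω => InS (pl (L.ts.ξ ω)) (m - 1) (2 ^ (y * G.N))⁻¹ (L.ts.u ω)) ≤
        prE L.R fun ω => G.cp y (L.π₁ ω) ∈ F (G.x (L.π₁ ω)) := by
      refine lt2_mono _ fun ω hω hE => Finset.mem_filter.2 ⟨?_, fun l hl => ?_⟩
      · rw [mem_below hD0]
        have := (hB.ch K C).cpn G.toSt0 0 y (L.π₁ ω) (Nat.zero_le _) hyK
        rw [Nat.sub_zero] at this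
        rw [← this]; exact (ch_fl G.toSt0 _).2.1
      · have h2 := hE l hl
        rw [lt_Dpow] at h2
        set p := pl (G.x (L.π₁ ω))
        have h3 : ‖toV (G.cp y (L.π₁ ω)) - (G.D : ℝ) ^ y • L.ts.u ω‖ ≤ m * 1 :=
          lt_norm _ zero_le_one fun l => by simpa [toV] using lt2_u hB L hr hj hy hω l
        have h4 := PiLp.norm_apply_le (p.1 (toV (G.cp y (L.π₁ ω)) - (G.D : ℝ) ^ y • L.ts.u ω)) l
        rw [p.1.norm_map, Real.norm_eq_abs] at h4
        have e : toV (G.cp y (L.π₁ ω)) - (G.D : ℝ) ^ y • p.2 =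
            (toV (G.cp y (L.π₁ ω)) - (G.D : ℝ) ^ y • L.ts.u ω) + (G.D : ℝ) ^ y • (L.ts.u ω - p.2) := by
          rw [smul_sub]; abel
        show |p.1 (toV (G.cp y (L.π₁ ω)) - (G.D : ℝ) ^ y • p.2) l| ≤ _
        rw [e, map_add, map_smul, PiLp.add_apply, PiLp.smul_apply, smul_eq_mul]
        refine (abs_add_le _ _).trans ?_
        rw [abs_mul, abs_of_pos hq]
        have h5 : (G.D : ℝ) ^ y * |p.1 (L.ts.u ω - p.2) l| ≤ 1 := by
          rw [← mul_inv_cancel₀ hq.ne']; exact mul_le_mul_of_nonneg_left h2 hq.le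
        linarith
    rw [lt2_law L.R G.P L.π₁ L.m₁ fun ω => G.cp y ω ∈ F (G.x ω)] at h1
    have h2 := dm_prE hne G.dom fun ω => G.cp y ω ∈ F (G.x ω)
    have h3 := prE_le_of_pr' (unif G.Ω hne) G.x (G.cp y) _ _ (by positivity) (fun ω => G.cp y ω ∈ F (G.x ω)) F
      hFc (lt2_unif hB G hne hyK) fun ω _ h => h
    refine h1.trans (h2.trans ((mul_le_mul_of_nonneg_left h3 (Real.exp_pos _).le).trans ?_))
    have e3 : ((G.D : ℝ) ^ y) ^ (m - 1) = Real.exp (((m : ℝ) - 1) * y * G.lg) := by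
      rw [← lt_logD, ← Real.exp_log (by positivity : 0 < ((G.D : ℝ) ^ y) ^ (m - 1)), Real.log_pow, Real.log_pow,
        Nat.cast_sub hm, mul_assoc, Nat.cast_one]
    rw [e3, e2, ← Real.exp_log (by linarith : 0 < c₀), ← Real.exp_add, ← Real.exp_add, ← Real.exp_add,
      ← Real.exp_add, Real.log_exp]
    refine Real.exp_le_exp.2 ?_
    nlinarith
  · have hyK : y ≤ K := hy.trans (hr.trans hj)
    have hq : (0 : ℝ) < (G.D : ℝ) ^ y := by positivity
    set F : Finset (Zv m) := box (fun l => (G.D : ℝ) ^ y * (q l / 2 ^ n)) 2 with hF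
    have hFc : (#F : ℝ) ≤ 5 ^ m := by
      have := card_box (fun l : Fin m => (G.D : ℝ) ^ y * (q l / 2 ^ n)) (r := 2) (by norm_num)
      rw [Fintype.card_fin] at this
      exact this.trans (by norm_num)
    have h1 : L.R.pr (fun ω => (L.ts.ξ ω, L.ts.dir n ω)) (a, q) ≤
        prE L.R fun ω => G.x (L.π₁ ω) = a ∧ G.cp y (L.π₁ ω) ∈ F := by
      rw [pr_eq_prE]
      refine lt2_mono _ fun ω hω hE => ⟨congrArg Prod.fst hE, mem_box fun l => ?_⟩
      have h2 : ⌊L.ts.u ω l / (2 ^ n)⁻¹⌋ = q l := congrFun (congrArg Prod.snd hE) l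
      have h3 := abs_le.1 (lt2_u hB L hr hj hy hω l)
      have hn0 : (0 : ℝ) < 2 ^ n := by positivity
      have h4 : (G.D : ℝ) ^ y ≤ 2 ^ n := by rw [← lt_Dpow]; exact pow_le_pow_right₀ (by norm_num) hn
      have h5 := Int.floor_le (L.ts.u ω l / (2 ^ n)⁻¹)
      have h6 := Int.lt_floor_add_one (L.ts.u ω l / (2 ^ n)⁻¹)
      rw [h2, div_inv_eq_mul] at h5 h6
      have h7 : q l / 2 ^ n ≤ L.ts.u ω l := by rw [div_le_iff₀ hn0]; exact h5
      have h8 : L.ts.u ω l - q l / 2 ^ n ≤ 1 / 2 ^ n := by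
        rw [sub_le_iff_le_add, ← add_div, le_div_iff₀ hn0]; linarith
      have h9 : (G.D : ℝ) ^ y * (L.ts.u ω l - q l / 2 ^ n) ≤ 1 :=
        (mul_le_mul_of_nonneg_left h8 hq.le).trans (by rw [mul_one_div, div_le_one hn0]; exact h4)
      have h10 := mul_nonneg hq.le (sub_nonneg.2 h7)
      rw [abs_le]; constructor <;> linarith [h3.1, h3.2]
    rw [lt2_law L.R G.P L.π₁ L.m₁ fun ω => G.x ω = a ∧ G.cp y ω ∈ F] at h1
    have e0 : L.R.pr L.ts.ξ a = G.P.pr G.x a := pr_law_aux L.R G.P L.π₁ L.m₁ G.x a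
    rw [e0]
    refine h1.trans ?_
    by_cases hx : ∃ ω, 0 < G.P.w ω ∧ G.x ω = a
    swap
    · refine (lt2_mono G.P (E' := fun _ => False) fun ω h' e => hx ⟨ω, h', e.1⟩).trans ?_
      simp only [prE, Finset.filter_false, Finset.sum_empty]
      exact mul_nonneg (Real.exp_pos _).le (G.P.pr_nonneg _ _)
    obtain ⟨ω, hω, rfl⟩ := hx
    have h2 := dm_prE hne G.dom fun ω' => G.x ω' = G.x ω ∧ G.cp y ω' ∈ F
    have h3 := prE_le_of_pr (unif G.Ω hne) G.x (G.cp y) _ _ (by positivity)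
      (fun ω' => G.x ω' = G.x ω ∧ G.cp y ω' ∈ F) (G.x ω) F hFc (lt2_unif hB G hne hyK _) fun _ _ h => h
    have h4 := flat_low hf (G.V 0) (fun ω => (ch_fl G.toSt0 ω).1) hω
    have h5 := (hB.rcn K C).rootc G.toSt0 ω
    have hc : (0 : ℝ) < Fintype.card G.Ω := by exact_mod_cast Fintype.card_pos
    have h6 : (unif G.Ω hne).pr G.x (G.x ω) ≤ 2 ^ K * (Real.exp G.e * G.P.pr G.x (G.x ω)) := by
      rw [pr_eq_prE, unif_prE, div_le_iff₀ hc]
      have p1 : 0 ≤ Real.exp G.e * G.P.pr G.x (G.x ω) := mul_nonneg (Real.exp_pos _).le (G.P.pr_nonneg _ _)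
      nlinarith [mul_le_mul_of_nonneg_left h4 (cnt_nn fun ω' => G.x ω' = G.x ω), mul_le_mul_of_nonneg_right h5 p1]
    refine h2.trans ((mul_le_mul_of_nonneg_left (h3.trans (mul_le_mul_of_nonneg_left h6 (by positivity)))
      (Real.exp_pos _).le).trans ?_)
    have e5 : (5 : ℝ) ^ m = Real.exp (m * Real.log 5) := by rw [← Real.log_pow, Real.exp_log (by positivity)]
    rw [e5, e2, ← mul_assoc, ← mul_assoc, ← mul_assoc]
    refine mul_le_mul_of_nonneg_right ?_ (G.P.pr_nonneg _ _)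
    simp only [← Real.exp_add]
    refine Real.exp_le_exp.2 ?_
    nlinarith

end

end Vale.Agent.P076N.FL
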