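import Vale.Agent.P076N.FL.Spec

/-!
# P076N / FL : row LT3 (plates)
-/

open Finset Vale.Agent.P127 Vale.Agent.P127.Stk
open scoped RealInnerProductSpace

namespace Vale.Agent.P076N.FL

noncomputable section

namespace Lt3

/-- a box of lattice points -/
def box (m R : ℕ) : Finset (Zv m) := Fintype.piFinset fun _ => Icc (-(R : ℤ)) R

theorem card_Icc' (R : ℕ) : #(Icc (-(R : ℤ)) R) = 2 * R + 1 := by
  rw [Int.card_Icc]
  omega

theorem card_box (m R : ℕ) : #(box m R) = (2 * R + 1) ^ m := by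
  simp only [box, Fintype.card_piFinset, card_Icc', prod_const, card_univ, Fintype.card_fin]

theorem H_le {Ω S : Type} [Fintype Ω] (P : Law Ω) (X : Ω → S) (F : Finset S) (h : ∀ ω, X ω ∈ F) :
    P.H X ≤ Real.log #F := by
  rw [P.H_congr (Y := fun ω => (⟨X ω, h ω⟩ : F)) (by simp)]
  simpa using P.H_le_log_card fun ω => (⟨X ω, h ω⟩ : F)

theorem ediv_mem {x q : ℤ} {R : ℕ} (hq : 0 < q) (h : |x| ≤ R * q) : x / q ∈ Icc (-(R : ℤ)) R :=
  mem_Icc.2 ⟨Int.le_ediv_of_mul_le hq (by linarith [(abs_le.1 h).1]),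
    Int.ediv_le_of_le_mul hq (abs_le.1 h).2⟩

theorem inner_le {m : ℕ} {ν y : Vc m} {r : ℝ} (h : ‖ν‖ = 1) (hy : ∀ l, |y l| ≤ r) :
    |⟪ν, y⟫| ≤ m * r := by
  rw [PiLp.inner_apply]
  refine (abs_sum_le_sum_abs _ _).trans ((sum_le_card_nsmul _ _ r fun l _ => ?_).trans_eq (by simp))
  have : |ν l| ≤ 1 := h ▸ PiLp.norm_apply_le ν l
  simpa [abs_mul] using (mul_le_of_le_one_right (abs_nonneg _) this).trans (hy l)

theorem pow_le {x : ℝ} {a R n : ℕ} (h : ((2 * R + 1 : ℕ) : ℝ) ≤ a * Real.exp x) :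
    (((2 * R + 1) ^ n : ℕ) : ℝ) ≤ Real.exp (n * (x + a)) := by
  rw [Nat.cast_pow, Real.exp_nat_mul]
  refine pow_le_pow_left₀ (by positivity) (h.trans ?_) n
  rw [Real.exp_add, mul_comm]
  exact mul_le_mul_of_nonneg_left (by linarith [Real.add_one_le_exp (a : ℝ)]) (by positivity)

end Lt3

open Lt3 in
theorem lt3 : ∀ m, B2 m → ∀ K C, LT3 m K C := by
  intro m B K C cn cn0
  have ch := B.ch K C
  have rc := B.rect K C
  obtain ⟨_, lv⟩ := B.lv K C
  have m0 : (0 : ℝ) ≤ m := m.cast_nonneg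
  have k0 : (0 : ℝ) ≤ m * cn := by positivity
  refine ⟨80 * m + m * cn + 9, by positivity, fun G r j h L hj hx => ?_⟩
  obtain ⟨lg1, hd⟩ := lv.lg G
  have hp : ∀ n : ℕ, (G.D : ℝ) ^ n = Real.exp (n * G.lg) := fun n => by rw [Real.exp_nat_mul, hd]
  have d1 : (1 : ℝ) ≤ G.D := Nat.one_le_cast.2 Nat.one_le_two_pow
  have d0 : (0 : ℝ) < G.D := zero_lt_one.trans_le d1
  have mem : ∀ ω, G.x ω ∈ G.V 0 := fun ω => ch.mem G.toSt0 0 ω K.zero_le
  have hX : ∀ ω l, |xpos (G.x ω) l| ≤ 4 * (G.D : ℤ) ^ (2 * K) := fun ω l => by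
    simpa using hx _ (mem ω) l
  have hT : ∀ ω, |((G.x ω).T : ℝ)| ≤ ((G.D : ℝ) ^ K) ^ 2 := fun ω => by
    obtain ⟨-, a, b⟩ := G.rts _ (mem ω)
    rw [← pow_mul', abs_of_nonneg (by exact_mod_cast a)]
    exact_mod_cast b.le
  have T0 : ∀ ω, (G.S K ω).T = 0 := fun ω =>
    (ch.T G.toSt0 K ω).trans (Int.ediv_eq_zero_of_lt (G.rts _ (mem ω)).2.1 (G.rts _ (mem ω)).2.2)
  have e1 : (1 : ℝ) ≤ G.D ^ K := one_le_pow₀ d1
  have ho : ∀ ω l, |(G.S K ω).o l| ≤ 18 * (G.D : ℤ) ^ K := fun ω l => by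
    have a := ch.ps G.toSt0 K ω l le_rfl
    have b : |(xpos (G.x ω) l : ℝ)| ≤ 4 * ((G.D : ℝ) ^ K) ^ 2 := by
      rw [← pow_mul']
      exact_mod_cast hX ω l
    have c := mul_le_mul (hT ω) (ch.vb G.toSt0 K ω l le_rfl) (abs_nonneg _) (by positivity)
    have d : G.y K ω l = xpos (G.x ω) l - (G.x ω).T * G.v K ω l := rfl
    rw [← abs_mul] at c
    have : |((G.S K ω).o l : ℝ)| ≤ 18 * (G.D : ℝ) ^ K := by
      refine le_of_mul_le_mul_left ?_ (pow_pos d0 K)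
      rw [← abs_of_pos (pow_pos d0 K), ← abs_mul, abs_of_pos (pow_pos d0 K), abs_le]
      rw [abs_le] at a b c
      constructor <;> nlinarith [a.1, a.2, b.1, b.2, c.1, c.2]
    exact_mod_cast this
  have hc : ∀ ω l, |(G.S K ω).c l| ≤ 18 * (G.D : ℤ) ^ K := fun ω l => by
    have a : |((G.D : ℝ) ^ K)⁻¹ * G.cp K ω l| ≤ 11 := ch.vb G.toSt0 K ω l le_rfl
    rw [abs_mul, abs_of_pos (by positivity), inv_mul_le_iff₀ (by positivity)] at a
    have : |((G.S K ω).c l : ℝ)| ≤ 18 * (G.D : ℝ) ^ K := by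
      rw [ch.c G.toSt0 K ω le_rfl]
      linarith
    exact_mod_cast this
  refine ⟨?_, ?_, fun c₀ p v b ν E np n1 p1 hc₀ hE => ?_⟩
  · have q0 : (0 : ℤ) < G.D ^ (2 * j) := by positivity
    have q1 : ((4 * G.D ^ (2 * (K - j)) : ℕ) : ℤ) * G.D ^ (2 * j) = 4 * G.D ^ (2 * K) := by
      push_cast
      rw [mul_assoc, ← pow_add, ← mul_add, Nat.sub_add_cancel hj]
    refine (H_le (S := Zv m × ℤ) L.R L.ts.side (box m (4 * G.D ^ (2 * (K - j))) ×ˢ Icc _ _) fun ω =>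
      mem_product.2 ⟨Fintype.mem_piFinset.2 fun l => ediv_mem q0 (q1 ▸ hX _ l),
        ediv_mem (R := 4 * G.D ^ (2 * (K - j))) q0 ?_⟩).trans ?_
    · obtain ⟨-, a, b⟩ := G.rts _ (mem (L.π₁ ω))
      rw [q1]
      exact (abs_of_nonneg a).le.trans (by linarith)
    rw [card_product, card_box, card_Icc', ← pow_succ]
    refine ((Real.log_le_iff_le_exp (by positivity)).2
      (pow_le (a := 9) (x := (2 * (K - j) : ℕ) * G.lg) ?_)).trans ?_
    · rw [← hp]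
      push_cast
      linarith [one_le_pow₀ (n := 2 * (K - j)) (show (1 : ℝ) ≤ 2 ^ G.N from mod_cast d1)]
    · push_cast [hj]
      linarith
  · refine (Nat.cast_le.2 (card_le_card_of_injOn (fun S => (S.c, S.o))
      (t := box m (18 * G.D ^ K) ×ˢ box m (18 * G.D ^ K)) ?_ ?_)).trans ?_
    · simp only [coe_image]
      rintro _ ⟨ω, -, rfl⟩
      exact mem_product.2 ⟨Fintype.mem_piFinset.2 fun l => mem_Icc.2 (abs_le.1 (mod_cast hc ω l)),
        Fintype.mem_piFinset.2 fun l => mem_Icc.2 (abs_le.1 (mod_cast ho ω l))⟩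
    · simp only [coe_image]
      rintro _ ⟨ω, -, rfl⟩ _ ⟨ω', -, rfl⟩ e
      exact Nd.ext (congrArg Prod.fst e) (congrArg Prod.snd e) ((T0 ω).trans (T0 ω').symm)
    rw [card_product, card_box, ← pow_add]
    refine (pow_le (a := 37) (x := K * G.lg) ?_).trans (Real.exp_le_exp.2 ?_)
    · rw [← hp]
      push_cast at e1 ⊢
      linarith
    · push_cast
      linarith
  have hr : ∀ t : ℝ, (G.D : ℝ) ^ t = Real.exp (t * G.lg) := fun t => by
    rw [← hd, ← Real.exp_mul, mul_comm]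
  have key : ∀ (v b : ℝ) (Z : Finset (Nd m)), Z.Nonempty → (∀ S ∈ Z, ∃ ω, S = G.S K ω ∧
      |⟪ν, G.v K ω⟫ - v| ≤ (G.D : ℝ) ^ (c₀ * K) / (G.D : ℝ) ^ K ∧
      |⟪ν, toV S.o⟫ - b| ≤ (G.D : ℝ) ^ (c₀ * K)) →
      Real.log #Z + Real.log (G.A K ^ 2 * (G.D : ℝ) ^ (K * m)) ≤
        Real.log (C * G.Q) - c₀ * K * G.lg := fun v b Z ne hZ => by
    have A0 := G.val.pos K le_rfl
    have z0 : (0 : ℝ) < #Z := by exact_mod_cast ne.card_pos
    have a := np ν v b Z n1 fun S hS => by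
      obtain ⟨ω, rfl, a, b⟩ := hZ S hS
      refine ⟨T0 ω, fun l => (ho ω l).trans ?_, ?_, b⟩
      · exact mul_le_mul_of_nonneg_right (by norm_num) (by positivity)
      · rw [ch.c G.toSt0 K ω le_rfl]
        exact a
    have s := card_nsmul_le_sum Z (fun S => G.F.a K S {S.c} ^ 2) (G.A K ^ 2) fun S hS => by
      obtain ⟨ω, rfl, -⟩ := hZ S hS
      exact pow_le_pow_left₀ A0.le (rc.top G.toSt0 _ ▸
        (G.val.amp K le_rfl _ (ch.mem G.toSt0 K ω le_rfl)).1) 2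
    have t := (mul_le_mul_of_nonneg_right s (pow_pos d0 (K * m)).le).trans a
    rw [nsmul_eq_mul, mul_assoc, mul_right_comm C, hr] at t
    have u : 0 < #Z * (G.A K ^ 2 * (G.D : ℝ) ^ (K * m)) := by positivity
    have := Real.log_le_log u t
    rw [Real.log_mul z0.ne' (by positivity), Real.log_mul (left_ne_zero_of_mul (u.trans_le t).ne')
      (Real.exp_ne_zero _), Real.log_exp] at this
    linarith
  rcases E.eq_empty_or_nonempty with rfl | ne
  · obtain ⟨ω⟩ := rc.ne G.toSt0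
    simpa using key _ _ {G.S K ω} (singleton_nonempty _) fun S hS => ⟨ω, mem_singleton.1 hS,
      by rw [sub_self, abs_zero]; positivity, by rw [mem_singleton.1 hS, sub_self, abs_zero]; positivity⟩
  refine key v (G.D ^ j * b / G.D ^ K) _ (ne.image _) fun S hS => ?_
  obtain ⟨ω, hω, rfl⟩ := mem_image.1 hS
  obtain ⟨w0, h1, h2⟩ := hE ω hω
  have W : p * G.D ^ (K - j) * (7 * m + m * cn + 2) ≤ (G.D : ℝ) ^ (c₀ * K) := by
    rw [hr, hp, Nat.cast_sub hj]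
    refine le_trans ?_ (Real.exp_le_exp.2 hc₀)
    rw [Real.exp_add, Real.exp_add, Real.exp_log (by linarith)]
    exact mul_le_mul_of_nonneg_left (by linarith [Real.add_one_le_exp (80 * m + m * cn + 9)])
      (by positivity)
  have a1 : (1 : ℝ) ≤ G.D ^ j := one_le_pow₀ d1
  have a2 : (1 : ℝ) ≤ G.D ^ (K - j) := one_le_pow₀ d1
  have a3 : (G.D : ℝ) ^ K = G.D ^ j * G.D ^ (K - j) := by rw [← pow_add, Nat.add_sub_cancel' hj]
  have vv : ∀ l, |(G.v K (L.π₂ ω) - G.v j (L.π₂ ω)) l| ≤ ((G.D : ℝ) ^ j)⁻¹ := fun l =>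
    (abs_of_nonneg (ch.vv G.toSt0 j K _ l hj le_rfl).1).le.trans (ch.vv G.toSt0 j K _ l hj le_rfl).2
  have b1 := inner_le n1 vv
  have b2 := inner_le (y := G.y K (L.π₂ ω) - (G.D : ℝ) ^ K • toV (G.S K (L.π₂ ω)).o) n1
    fun l => ch.ps G.toSt0 K _ l le_rfl
  have b3 := inner_le (y := G.y j (L.π₂ ω) - (G.D : ℝ) ^ j • toV (G.S j (L.π₂ ω)).o) n1
    fun l => ch.ps G.toSt0 j _ l hj
  have b4 := inner_le (y := toV (xpos (G.x (L.π₁ ω))) - ((G.x (L.π₁ ω)).T : ℝ) • G.v j (L.π₂ ω) -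
      (G.D : ℝ) ^ j • toV (G.S j (L.π₂ ω)).o) (r := cn * G.D ^ j) n1 fun l => by
    have := (L.near ω w0).ps l
    rw [ch.c G.toSt0 j _ hj] at this
    refine le_of_eq_of_le (congrArg _ ?_) this
    simp [toV, xpos, St0.v, vel, St0.S, St0.x, P076N.ch]
    ring
  have t1 := hT (L.π₁ ω)
  have t2 := hT (L.π₂ ω)
  have h1 : |⟪ν, G.v j (L.π₂ ω)⟫ - v| ≤ p * ((G.D : ℝ) ^ j)⁻¹ := by
    refine le_of_le_of_eq h1 ?_
    simp [pow_mul', div_eq_mul_inv]
  have h2 : |⟪ν, ((G.D : ℝ) ^ j)⁻¹ • toV (xpos (G.x (L.π₁ ω)))⟫ -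
    v * ((G.x (L.π₁ ω)).T / (G.D : ℝ) ^ j) - b| ≤ p := h2
  simp only [St0.y, inner_sub_right, real_inner_smul_right] at b1 b2 b3 b4 h2
  have c1 := mul_le_mul t1 h1 (abs_nonneg _) (by positivity)
  have c2 := mul_le_mul t2 b1 (abs_nonneg _) (by positivity)
  rw [← abs_mul] at c1 c2
  rw [a3] at b2 c1 c2
  refine ⟨_, rfl, ?_, ?_⟩ <;> rw [a3]
  all_goals generalize (G.D : ℝ) ^ (c₀ * K) = w at W ⊢
  all_goals generalize (G.D : ℝ) ^ (K - j) = e at *
  all_goals generalize (G.D : ℝ) ^ j = a at *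
  · refine (abs_sub_le _ _ _).trans ((add_le_add b1 h1).trans ?_)
    rw [← add_mul, le_div_iff₀ (by positivity), mul_assoc, inv_mul_cancel_left₀ (by positivity)]
    refine le_trans ?_ W
    rw [mul_right_comm]
    exact mul_le_mul_of_nonneg_right (by nlinarith) (by positivity)
  · have a0 : 0 < a := by positivity
    have h3 := mul_le_mul_of_nonneg_left h2 a0.le
    rw [← abs_of_pos a0, ← abs_mul, abs_of_pos a0, mul_sub, mul_sub, mul_inv_cancel_left₀ a0.ne',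
      mul_left_comm, mul_div_cancel₀ _ a0.ne'] at h3
    rw [show ∀ x, (a * e) ^ 2 * (x * a⁻¹) = x * (a * e * e) from fun x => by field_simp] at c1 c2
    have g1 : a ≤ a * e := le_mul_of_one_le_right a0.le a2
    have g2 : a * e ≤ a * e * e := le_mul_of_one_le_right (by positivity) a2
    have g3 : a * e * e ≤ p * (a * e * e) := le_mul_of_one_le_left (by positivity) p1
    have g4 := mul_le_mul_of_nonneg_left (g1.trans g2) (zero_le_one.trans p1)
    have g5 := mul_le_mul_of_nonneg_left W (a0.le.trans g1)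
    have g6 := mul_le_mul_of_nonneg_left (g2.trans g3) m0
    have g7 := mul_le_mul_of_nonneg_left g3 m0
    have g8 := mul_le_mul_of_nonneg_left ((g1.trans g2).trans g3) m0
    have g9 := mul_le_mul_of_nonneg_left ((g1.trans g2).trans g3) k0
    rw [sub_div' (by positivity), abs_div, abs_of_pos (a0.trans_le g1), div_le_iff₀ (by positivity),
      abs_le]
    rw [abs_le] at b2 b3 b4 h3 c1 c2
    constructor <;> linarith [b2.1, b2.2, b3.1, b3.2, b4.1, b4.2, h3.1, h3.2, c1.1, c1.2, c2.1, c2.2]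

end

end Vale.Agent.P076N.FL
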