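import Vale.Agent.P076N.FL.Ch
import Vale.Agent.P076N.AT.Ent

/-!
# P076N / FL : the tube system of a link, explicit formulas
-/

set_option linter.all false

open Finset Vale.Agent.P127 Vale.Agent.P127.Stk

namespace Vale.Agent.P076N.FL

noncomputable section

variable {m K : ℕ} {C : ℝ}

theorem lt_norm (y : Vc m) {r : ℝ} (hr : 0 ≤ r) (h : ∀ l, |y l| ≤ r) : ‖y‖ ≤ m * r := by
  refine abs_le_of_sq_le_sq' ?_ (by positivity) |>.2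
  rw [EuclideanSpace.real_norm_sq_eq]
  have h1 : ∑ l, y l ^ 2 ≤ ∑ _l : Fin m, r ^ 2 := Finset.sum_le_sum fun l _ => by
    rw [← sq_abs]; exact pow_le_pow_left₀ (abs_nonneg _) (h l) 2
  simp only [Finset.sum_const, Finset.card_univ, Fintype.card_fin, nsmul_eq_mul] at h1
  have h2 : (m : ℝ) ≤ m ^ 2 := by exact_mod_cast Nat.le_self_pow (by norm_num) m
  nlinarith [mul_le_mul_of_nonneg_right h2 (sq_nonneg r)]

theorem lt_logD (G : St0 m K C) : Real.log (G.D : ℝ) = G.lg := by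
  simp [St0.D, St0.lg, Real.log_pow]

theorem lt_Dpow (G : St0 m K C) (j : ℕ) : (2 : ℝ) ^ (j * G.N) = (G.D : ℝ) ^ j := by
  simp [St0.D, ← pow_mul, mul_comm]

theorem lt_DR (G : St0 m K C) : (1 : ℝ) ≤ G.D := by exact_mod_cast ch_D0 G

theorem lt_floor (D j : ℕ) (hD : 0 < D) (a : ℤ) : ⌊(a : ℝ) / (D : ℝ) ^ j⌋ = a / (D : ℤ) ^ j := by
  have := Int.floor_div_natCast (a : ℝ) (D ^ j)
  simpa using this

theorem lt_ediv (D j : ℕ) (a : ℤ) : a / (D : ℤ) ^ j / (D : ℤ) ^ j = a / (D : ℤ) ^ (2 * j) := by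
  rw [Int.ediv_ediv_of_nonneg (by positivity), two_mul, pow_add]

theorem lt_close {q : ℝ} (hq : 0 < q) {a g r : ℝ} (h : |a - q * g| ≤ r * q) : |(⌊a / q⌋ : ℝ) - g| ≤ r + 1 := by
  obtain ⟨h1, h2⟩ := abs_le.1 h
  have h3 : a / q - g ≤ r := by rw [sub_le_iff_le_add, div_le_iff₀ hq]; linarith
  have h4 : -r ≤ a / q - g := by rw [le_sub_iff_add_le, le_div_iff₀ hq]; linarith
  have := Int.floor_le (a / q)
  have := Int.lt_floor_add_one (a / q)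
  rw [abs_le]; constructor <;> linarith

namespace St.LD

variable {G : St m K C} {cn : ℝ} {r j : ℕ} {h : ℝ} (L : G.LD cn r 0 j h)

/-- the root -/
abbrev rt (ω : L.Ω') : Nd m := G.x (L.π₁ ω)

/-- the node -/
abbrev nn (ω : L.Ω') : Nd m := G.S j (L.π₂ ω)

theorem x_ap (ω : L.Ω') (l : Fin m) : L.ts.x ω l = (xpos (L.rt ω) l : ℝ) / (G.D : ℝ) ^ j := by
  simp [TSys.x, ts, toV, div_eq_inv_mul]

theorem t_eq (ω : L.Ω') : L.ts.t ω = ((L.rt ω).T : ℝ) / (G.D : ℝ) ^ j := rfl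

theorem u_eq (ω : L.Ω') : L.ts.u ω = vel G.D j (L.nn ω).c := by
  show G.v j _ = _
  rw [St0.v, show (L.nn ω).c = G.cp j (L.π₂ ω) from nd_c (ch_fl G.toSt0 _).2.1 j]

theorem tm0 (ω : L.Ω') : L.ts.tm 0 ω = (L.rt ω).T / (G.D : ℤ) ^ j := by
  rw [TSys.tm, t_eq, pow_zero, div_one, lt_floor _ _ (ch_D0 _)]

theorem tmq (ω : L.Ω') : L.ts.tm (j * G.N) ω = (L.rt ω).T / (G.D : ℤ) ^ (2 * j) := by
  rw [TSys.tm, t_eq, lt_Dpow, div_div, ← pow_add, lt_floor _ _ (ch_D0 _), two_mul]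

theorem cel0 (ω : L.Ω') : L.ts.cel 0 ω = (dv ((G.D : ℤ) ^ j) (xpos (L.rt ω)), (L.rt ω).T / (G.D : ℤ) ^ j) := by
  rw [TSys.cel, tm0]
  congr 1
  funext l
  rw [flv, x_ap, pow_zero, div_one, lt_floor _ _ (ch_D0 _), dv]

theorem side_eq (ω : L.Ω') :
    L.ts.side ω = (dv ((G.D : ℤ) ^ (2 * j)) (xpos (L.rt ω)), (L.rt ω).T / (G.D : ℤ) ^ (2 * j)) := rfl

theorem nT {ω : L.Ω'} (hω : 0 < L.R.w ω) : (L.rt ω).T / (G.D : ℤ) ^ (2 * j) = (L.nn ω).T := (L.near ω hω).tm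

theorem nps {ω : L.Ω'} (hω : 0 < L.R.w ω) (l : Fin m) :
    |(xpos (L.rt ω) l : ℝ) - (L.rt ω).T * vel G.D j (L.nn ω).c l - (G.D : ℝ) ^ j * (L.nn ω).o l| ≤
      cn * (G.D : ℝ) ^ j := by
  have := (L.near ω hω).ps l
  rw [Nat.sub_zero] at this
  rw [vel_apply, xpos]
  convert this using 2
  push_cast [-Nat.cast_pow]
  show _ = ((L.rt ω).o l : ℝ) + (L.rt ω).T * ((L.rt ω).c l - _) - _
  ring

theorem ub (hj : j ≤ K) (ω : L.Ω') (l : Fin m) : |vel G.D j (L.nn ω).c l| ≤ 11 := by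
  rw [show (L.nn ω).c = G.cp j (L.π₂ ω) from nd_c (ch_fl G.toSt0 _).2.1 j]
  exact abs_vel_le (ch_D0 _) hj (by
    rw [(ch_fl G.toSt0 _).2.1]; exact (G.rts _ (ch_fl G.toSt0 _).1).1 l)

theorem rt_mem (ω : L.Ω') : L.rt ω ∈ G.V 0 := (ch_fl G.toSt0 _).1

end St.LD

end

end Vale.Agent.P076N.FL
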