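import Vale.Agent.P076N.FL.Spec
import Vale.Agent.P076N.VS.Base

/-! P076N / FL : the row LV (the numbers of one level). -/

open Finset Vale.Agent.P127 Vale.Agent.P127.Stk

namespace Vale.Agent.P076N.FL

noncomputable section

open Classical

namespace Lvx

variable {m K : ℕ} {C : ℝ}

lemma one_le_lg (G : St0 m K C) : 1 ≤ G.lg := by
  have h1 : (4 : ℝ) ≤ G.N := by exact_mod_cast G.N4
  have h2 := Real.log_two_gt_d9
  unfold St0.lg
  nlinarith

lemma log_D (G : St0 m K C) : Real.log G.D = G.lg := by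
  unfold St0.lg
  push_cast
  rw [Real.log_pow]

lemma D_pos (G : St0 m K C) : 0 < G.D := by positivity

lemma D_pos' (G : St0 m K C) : (0 : ℝ) < G.D := by exact_mod_cast D_pos G

lemma g_lg (G : St m K C) (i : ℕ) : G.g i * G.lg = Real.log (G.Γ i) :=
  div_mul_cancel₀ _ (by linarith [one_le_lg G.toSt0])

lemma gm_pos (G : St0 m K C) (i : ℕ) {j : ℕ} (hj : j ≤ K) : 0 < G.Gm i j :=
  prod_pos fun l hl => by linarith [G.val.one l ((mem_Ico.1 hl).2.trans_le hj)]

lemma dig (hC : CH m K C) (G : St m K C) {i i' : ℕ} (h : i ≤ i') :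
    hc G.P (G.T i) (G.T i') ≤ 2 * ((i' : ℝ) - i) * G.lg := by
  have hq : (0 : ℤ) < (G.D : ℤ) ^ (2 * (i' - i)) := by have := D_pos G.toSt0; positivity
  have h1 := hc_le_log G.P (G.T i) (G.T i') (G.D ^ (2 * (i' - i))) fun ω _ =>
    ⟨Ico ((G.D : ℤ) ^ (2 * (i' - i)) * G.T i' ω)
      ((G.D : ℤ) ^ (2 * (i' - i)) * G.T i' ω + (G.D : ℤ) ^ (2 * (i' - i))), by
        rw [Int.card_Ico, add_sub_cancel_left, ← Nat.cast_pow, Int.toNat_natCast],
      fun ω' _ hT => by
        have e : G.T i ω' / (G.D : ℤ) ^ (2 * (i' - i)) = G.T i' ω := by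
          rw [← hT, hC.T, hC.T, Int.ediv_ediv_of_nonneg (by positivity), ← pow_add]
          congr 2
          omega
        have h1 := Int.mul_ediv_add_emod (G.T i ω') ((G.D : ℤ) ^ (2 * (i' - i)))
        have h2 := Int.emod_nonneg (G.T i ω') hq.ne'
        have h3 := Int.emod_lt_of_pos (G.T i ω') hq
        rw [e] at h1
        rw [mem_Ico]
        omega⟩
  rw [Nat.cast_pow, Real.log_pow, log_D, Nat.cast_mul, Nat.cast_sub h] at h1
  exact h1

lemma amp (G : St0 m K C) {i : ℕ} (hi : i < K) {S : Nd m} (hS : S ∈ G.V i) :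
    G.A i ≤ 4 * C * G.Γ i * G.A (i + 1) := by
  have h1 := VS.rec1 G.F (D_pos G) G.V hi S
  have h2 := sum_le_card_nsmul (GG G.D G.V i S) (fun c' => G.F.a (i + 1) (par G.D S c')
    (UU G.D K G.V (i + 1) (par G.D S c'))) (2 * G.A (i + 1)) fun c' hc' =>
      (G.val.amp (i + 1) hi _ (mem_filter.1 hc').2).2
  rw [nsmul_eq_mul] at h2
  have h3 := mul_le_mul_of_nonneg_right (G.val.deg i hi S hS).2
    (show 0 ≤ 2 * G.A (i + 1) by linarith [G.val.pos (i + 1) hi])
  have h4 := mul_le_mul_of_nonneg_left (h2.trans h3) (show 0 ≤ C by linarith [G.C1])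
  linarith [(G.val.amp i hi.le S hS).1]

lemma kid (hR : RECT m K C) (G : St0 m K C) {i : ℕ} (hi : i < K) (ω : G.Ω) {c' : Zv m}
    (hc : c' ∈ GG G.D G.V i (G.S i ω)) : ∃ ω', G.S i ω' = G.S i ω ∧ G.cp (i + 1) ω' = c' := by
  obtain ⟨h1, h2⟩ := mem_filter.1 hc
  have h3 := (gm_pos G (i + 1) le_rfl).trans_le (hR.uu G (i + 1) hi _ h2).1
  obtain ⟨τ', hτ⟩ := card_pos.1 (Nat.cast_pos.1 h3)
  have h4 := hR.kid G i (G.S i ω) c' hi h1
  rw [if_pos hc] at h4
  rw [← h4] at hτ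
  obtain ⟨h5, h6⟩ := mem_filter.1 hτ
  obtain ⟨ω', -, h7, h8⟩ := hR.ext G i ω hi.le τ' h5
  exact ⟨ω', h8, by rw [← h6, ← h7]; rfl⟩

end Lvx

open Lvx

theorem lv : ∀ m, B0 m → ∀ K C, BK m K C → ∃ c, LV m K C c := by
  intro m hB K C hBK
  obtain ⟨c₁, c10, hc₁⟩ := hBK 0
  obtain ⟨c₂, c21, hc₂⟩ := hB.lat.strip m (2 * m + 2)
  obtain ⟨c₃, hA⟩ := hB.apx K C
  have hC := hB.ch K C
  have hR := hB.rect K C
  have l2 := Real.log_nonneg c21
  have l3 := abs_nonneg (Real.log (4 * C))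
  refine ⟨c₁ + Real.log c₂ + 2 * |Real.log (4 * C)|, by linarith, fun G =>
    ⟨one_le_lg _, by rw [← log_D, Real.exp_log (D_pos' _)]⟩, fun G i => ⟨le_max_right _ _, ?_⟩,
    fun G i hi => ?_, fun G k J W pn i hb h1 h2 => ?_, fun G i hi => ?_,
    fun G i i' h => dig hC G h, fun G i j hj => ⟨gm_pos _ i hj, ?_⟩⟩
  · have h0 : 0 < G.lg := by linarith [one_le_lg G.toSt0]
    have h1 : 0 ≤ G.tE i / G.lg := div_nonneg (hc_nonneg _ _ _) h0.le
    have h2 : 0 ≤ G.sE i / G.lg := div_nonneg (hc_nonneg _ _ _) h0.le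
    have h3 : 0 ≤ G.φ i := le_max_right _ _
    refine max_le ?_ (by positivity)
    unfold St.δ
    linarith
  · have h0 : 0 < G.lg := by linarith [one_le_lg G.toSt0]
    have h1 := G.val.one i hi
    have h2 : 0 ≤ G.g i := div_nonneg (Real.log_nonneg h1) h0.le
    obtain ⟨ω⟩ := hR.ne G.toSt0
    have h3 := amp G.toSt0 hi (hC.mem G.toSt0 i ω hi.le)
    have p1 := G.val.pos i hi.le
    have p2 := G.val.pos (i + 1) hi
    have h4 : Real.log (G.A i / G.A (i + 1)) ≤ Real.log (4 * C) + Real.log (G.Γ i) := by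
      rw [← Real.log_mul (by linarith [G.C1]) (by linarith)]
      exact Real.log_le_log (div_pos p1 p2) ((div_le_iff₀ p2).2 h3)
    refine ⟨h2, ?_⟩
    unfold St.φ
    rw [max_mul_of_nonneg _ _ h0.le, sub_mul, div_mul_cancel₀ _ h0.ne', zero_mul, g_lg]
    refine max_le ?_ ?_ <;> linarith [le_abs_self (Real.log (4 * C)), Real.log_nonneg h1]
  · have hi : i < K := h2.trans_le hb.le
    obtain ⟨ω⟩ := hR.ne G.toSt0
    have hD := D_pos' G.toSt0
    have hD1 : (1 : ℝ) ≤ G.D := by exact_mod_cast D_pos G.toSt0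
    have h3 := hc₂ k G.D ((pn ω).1, (G.D : ℝ) ^ (i + 1) • (pn ω).2) ((G.D : ℝ) • toV (G.S i ω).c)
      (GG G.D G.V i (G.S i ω)) hb.km hD1 fun c' hc' => by
        obtain ⟨ω', e1, e2⟩ := kid hR G.toSt0 hi ω hc'
        refine ⟨fun l => ?_, fun l hl => ?_⟩
        · have h4 := mem_Ico.1 (Fintype.mem_piFinset.1 (mem_filter.1 hc').1 l)
          rw [pow_one] at h4
          have h5 : (G.D : ℝ) * (G.S i ω).c l ≤ c' l := by exact_mod_cast h4.1
          have h6 : (c' l : ℝ) ≤ G.D * ((G.S i ω).c l + 1) := by exact_mod_cast h4.2.le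
          show |(c' l : ℝ) - G.D * (G.S i ω).c l| ≤ G.D
          rw [abs_le]
          constructor <;> linarith
        · have h4 := (hA.str G.toSt0 k J W pn ω' hb).2 (i + 1) h2 l hl
          rw [hb.bl i h1 h2 ω' ω (congrArg (ball G.D) e1)] at h4
          have e3 : toV c' - (G.D : ℝ) ^ (i + 1) • (pn ω).2
              = (G.D : ℝ) ^ (i + 1) • (G.v (i + 1) ω' - (pn ω).2) := by
            rw [smul_sub, St0.v, vel, e2, smul_inv_smul₀ (by positivity)]
          show |(pn ω).1 (toV c' - (G.D : ℝ) ^ (i + 1) • (pn ω).2) l| ≤ 2 * m + 2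
          rw [e3, map_smul, PiLp.smul_apply, smul_eq_mul, abs_mul, abs_of_pos (by positivity)]
          rwa [le_div_iff₀' (by positivity)] at h4
    have h4 := (G.val.deg i hi _ (hC.mem G.toSt0 i ω hi.le)).1
    have h5 := Real.log_le_log (by linarith [G.val.one i hi]) (h4.trans h3)
    rw [Real.log_mul (by linarith) (by positivity), Real.log_pow, log_D] at h5
    rw [g_lg]
    linarith
  · have h0 : 0 < G.lg := by linarith [one_le_lg G.toSt0]
    have e1 : 2 * ((2 - G.tE i / G.lg + G.δ i) / 2) * G.lg = (2 + G.δ i) * G.lg - G.tE i := by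
      field_simp; ring
    have h1 : G.tE i ≤ 2 * G.lg := by
      have h2 := dig hC G (Nat.le_succ i)
      have h3 := hc_mono_right G.P (G.T i) (Y := G.T (i + 1)) (Y' := G.S (i + 1))
        fun ω ω' _ _ h => congrArg Nd.T h
      push_cast at h2
      unfold St.tE
      linarith
    have hb := fun ω => hc₁ G m 0 K _ i ω 0 ((hB.blk K C).all G.toSt0) (Nat.zero_le _) (by omega)
    have hm : ∀ ω ω', G.b i ω' = G.b i ω → G.S i ω' ∈ (G.V i).filter fun S =>
        ball G.D S = G.b i ω ∧ InS ((G.pn m 0 K ω).1, 0) m 0 (toV S.o) := fun ω ω' h =>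
      mem_filter.2 ⟨hC.mem G.toSt0 i ω' hi.le, h, fun l hl => absurd l.2 (not_lt.2 hl)⟩
    have h2 : G.sE i ≤ c₁ + (m - G.φ i) * G.lg := by
      refine hB.ent.num _ _ _ G.P (G.S i) (G.b i) _ ?_ fun ω _ => le_trans ?_ (hb ω)
      · obtain ⟨ω⟩ := hR.ne G.toSt0
        refine Real.one_le_exp_iff.1 (le_trans ?_ (hb ω))
        exact_mod_cast card_pos.2 ⟨_, hm ω ω rfl⟩
      · refine Nat.cast_le.2 (card_le_card fun S hS => ?_)
        obtain ⟨ω', h3, rfl⟩ := mem_image.1 hS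
        exact hm ω ω' (mem_filter.1 h3).2.2
    have e2 : G.δ i * G.lg = (m - G.φ i) * G.lg - G.sE i := by
      unfold St.δ; field_simp
    unfold St.a
    rcases le_total ((2 - G.tE i / G.lg + G.δ i) / 2) 0 with h | h
    · rw [max_eq_right h, ← e1]
      constructor
      · nlinarith
      · linarith
    · rw [max_eq_left h, e1]
      constructor <;> linarith
  · unfold St0.Gm St.GA
    rw [Real.log_prod fun l hl => by linarith [G.val.one l ((mem_Ico.1 hl).2.trans_le hj)], sum_mul]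
    exact sum_congr rfl fun l _ => (g_lg G l).symm

end

end Vale.Agent.P076N.FL
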