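import Vale.Agent.P076N.FL.Flx

/-!
# P076N / FL : the rows LWJ and LWA
-/

set_option linter.all false

open Finset Vale.Agent.P127 Vale.Agent.P127.Stk

namespace Vale.Agent.P076N.FL

variable {m K : ℕ} {C : ℝ}

theorem St0.lg_le (G : St0 m K C) : G.lg ≤ G.N := by
  have := Real.log_two_lt_d9
  exact mul_le_of_le_one_right (Nat.cast_nonneg _) (by linarith)

/-- small errors force `N` to be large -/
theorem St.N_ge (G : St m K C) {θ : ℝ} {n : ℕ} (h : G.e ≤ θ * G.lg) (hθ : θ ≤ 1 / (n + 1)) : n ≤ G.N := by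
  have h1 := G.e1
  have h2 := G.lg_le
  have h3 := G.lg_pos
  have h4 : θ * G.lg ≤ 1 / (n + 1) * G.lg := mul_le_mul_of_nonneg_right hθ h3.le
  have h5 : (1 : ℝ) ≤ 1 / (n + 1) * G.lg := by linarith
  rw [div_mul_eq_mul_div, le_div_iff₀ (by positivity)] at h5
  exact_mod_cast (by linarith : (n : ℝ) ≤ G.N)

/-- small errors: constants times `e` -/
theorem St.ce (G : St m K C) {θ c o : ℝ} (h : G.e ≤ θ * G.lg) (hc : 0 ≤ c) (hθ : θ ≤ o / (c + 1)) :
    (c + 1) * G.e ≤ o * G.lg := by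
  have h4 : θ * G.lg ≤ o / (c + 1) * G.lg := mul_le_mul_of_nonneg_right hθ G.lg_pos.le
  have h5 : G.e ≤ o / (c + 1) * G.lg := h.trans h4
  rw [div_mul_eq_mul_div, le_div_iff₀ (by positivity)] at h5
  linarith

theorem St.AA_nn {c : ℝ} (lv : LV m K C c) (G : St m K C) (i j : ℕ) : 0 ≤ G.AA i j :=
  sum_nonneg fun l _ => (lv.a0 G l).1

theorem lwj : ∀ m, B2 m → (∀ k, StLW k) → LWJ m := by
  intro m b hl ε hε
  have l2 : 0 < Real.log 2 := Real.log_pos one_lt_two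
  have h0 := fun k => hl (k + 1) k le_rfl m (ε * Real.log 2 / 4) (by positivity)
  choose e' he' n₀ hL using h0
  obtain ⟨ε', p0, hε'⟩ := fin_min (range m) (fun k θ => θ = e' k) fun k _ => ⟨_, he' k, rfl⟩
  refine ⟨ε', p0, fun K C => ?_⟩
  obtain ⟨c₁, ht⟩ := b.ht K C
  obtain ⟨c₂, dc⟩ := b.dec K C
  obtain ⟨c₃, ap⟩ := b.apx K C
  have := ht.c0; have := dc.c0
  have hc : 0 ≤ (m + 1) * c₁ + c₂ := by positivity
  refine ⟨min (min ε' (1 / ((range m).sup n₀ + 1 : ℝ))) (ε / 2 / ((m + 1) * c₁ + c₂ + 1)), by positivity,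
    fun G s x x' β sm jd br h1 h2 h3 h4 h5 => ?_⟩
  obtain ⟨k, J, W, j, w⟩ := s
  have km := jd.blk.km
  have w1 := jd.w1
  obtain ⟨k, rfl⟩ : ∃ k', k = k' + 1 := ⟨k - 1, by have := jd.k1; dsimp only at this; omega⟩
  dsimp only at km w1 h5
  have hk : k ∈ range m := mem_range.2 km
  obtain ⟨_, a1, rfl⟩ := hε' k hk
  have hN := G.N_ge (n := (range m).sup n₀) sm.1 ((min_le_left _ _).trans (min_le_right _ _))
  have hn := le_sup (f := n₀) hk
  have ce := G.ce sm.1 hc (min_le_right _ _)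
  have w1' : (1 : ℝ) ≤ w := by exact_mod_cast w1
  have hx : x < x' := by
    by_contra h
    have : x' = x := by omega
    rw [this, sub_self, mul_zero] at h5
    linarith
  have hΔ : (1 : ℝ) ≤ (x' : ℝ) - x := by
    have : (x : ℝ) + 1 ≤ x' := by exact_mod_cast hx
    linarith
  have N0 : (0 : ℝ) ≤ G.N := Nat.cast_nonneg _
  have hq : ((G.bt x' : ℕ) : ℝ) - (G.bt x : ℕ) = 2 * ((x' : ℝ) - x) * G.N := by push_cast; ring
  have L := hL k (w * G.N) (G.bt x) (G.bt x') _ (G.tS ⟨k + 1, J, W, j, w⟩ x)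
    (by have := Nat.mul_le_mul_right G.N (show 2 * x + 1 ≤ 2 * x' by omega)
        unfold St.bt; rw [add_mul] at this; omega)
    (by rw [hq]; push_cast
        have h6 : ε' * ((x' : ℝ) - x) ≤ e' k * (2 * ((x' : ℝ) - x)) :=
          mul_le_mul a1 (by linarith) (by linarith) (he' k).le
        nlinarith)
    (ap.bnd G _ x jd)
    (fun pl => (b.brd K C G _ x β jd br pl).trans
      (sm.2.trans ((min_le_left _ _).trans ((min_le_left _ _).trans a1))))
  have A := ht.one G _ x x' jd h1 h2 h3 h4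
  have B := (abs_le.1 (dc.dec G _ x x' jd h1 h2)).2
  rw [hq] at L
  have A' := mul_le_mul_of_nonneg_left A (show (0 : ℝ) ≤ k + 2 by positivity)
  have km' : (k : ℝ) + 1 ≤ m := by exact_mod_cast km
  have e1 := G.e1
  have l0 := G.lg_pos
  have q1 : (k + 2) * (c₁ * G.e) ≤ (m + 1) * (c₁ * G.e) :=
    mul_le_mul_of_nonneg_right (by linarith) (by positivity)
  have q2 : c₂ ≤ c₂ * G.e := le_mul_of_one_le_right dc.c0 e1
  have q3 : ε / 2 * G.lg ≤ ε / 2 * G.lg * ((x' : ℝ) - x) := le_mul_of_one_le_right (by positivity) hΔ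
  have q4 : ε * Real.log 2 / 4 * (2 * ((x' : ℝ) - x) * G.N) = ε / 2 * G.lg * ((x' : ℝ) - x) := by
    unfold St0.lg; ring
  dsimp only at A' B ⊢
  push_cast at A' B ⊢
  linarith

theorem lwa : ∀ m, B2 m → LWJ m → LWA m := by
  intro m b hl ε hε
  obtain ⟨ε', p0, hl⟩ := hl ε hε
  obtain ⟨Ml, hM⟩ := exists_nat_ge (2 * (m + 1) / (ε * ε'))
  refine ⟨Ml, fun K C => ?_⟩
  obtain ⟨θ, t0, hl⟩ := hl K C
  obtain ⟨c₁, lv⟩ := b.lv K C
  obtain ⟨c₂, dc⟩ := b.dec K C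
  refine ⟨θ, t0, fun G s x x' β sm jd br h1 h2 h3 h4 h5 => ?_⟩
  have a0 := G.AA_nn lv (s.j + x) (s.j + x')
  have a1 : 0 ≤ 2 * (s.k + 1 : ℝ) * G.AA (s.j + x) (s.j + x') := by positivity
  by_cases h : 2 * (m + 1) * ((x' : ℝ) - x) ≤ ε * x
  · have := dc.triv G s x x' jd h3
    linarith
  · push Not at h
    rw [div_le_iff₀ (by positivity)] at hM
    have h2' : (Ml : ℝ) * s.w ≤ x := by exact_mod_cast h2
    have h4' : (x' : ℝ) ≤ 2 * x := by exact_mod_cast h4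
    have hw : (s.w : ℝ) ≤ ε' * ((x' : ℝ) - x) := by
      have w0 : (0 : ℝ) ≤ s.w := Nat.cast_nonneg _
      have a : 2 * (m + 1) * (s.w : ℝ) ≤ Ml * (ε * ε') * s.w := mul_le_mul_of_nonneg_right hM w0
      have b : ε * ε' * (Ml * s.w) ≤ ε * ε' * x := mul_le_mul_of_nonneg_left h2' (by positivity)
      have c : ε' * (ε * x) ≤ ε' * (2 * (m + 1) * ((x' : ℝ) - x)) := mul_le_mul_of_nonneg_left h.le p0.le
      exact le_of_mul_le_mul_left (show 2 * (m + 1) * (s.w : ℝ) ≤ 2 * (m + 1) * (ε' * ((x' : ℝ) - x)) by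
        linarith) (by positivity)
    have L := hl G s x x' β sm jd br h1 h3 h4 h5 hw
    have n := mul_nonneg (Nat.cast_nonneg (α := ℝ) s.k) (sub_nonneg.2 (dc.nu G s x x' jd h3).2)
    have q : ε * ((x' : ℝ) - x) ≤ ε * x := mul_le_mul_of_nonneg_left (by linarith) hε.le
    have r := le_of_mul_le_mul_right (show (G.cost s x' - G.cost s x) * G.lg ≤
      (2 * (s.k + 1) * G.AA (s.j + x) (s.j + x') + ε * ((x' : ℝ) - x)) * G.lg by linarith) G.lg_pos
    linarith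

end Vale.Agent.P076N.FL
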