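import Vale.Agent.P076N.FL.Spec

/-!
# P076N / FL, row MK: the Markov property, entropies of caps and roots
-/

open Finset Vale.Agent.P127 Vale.Agent.P127.Stk

namespace Vale.Agent.P076N.FL

noncomputable section

namespace Mk

variable {Ω α : Type} [Fintype Ω]

theorem cnt_mono {E E' : Ω → Prop} (h : ∀ ω, E ω → E' ω) : cnt E ≤ cnt E' := by
  classical
  exact Nat.cast_le.2 (card_le_card fun ω => by simpa using h ω)

theorem cnt_true : cnt (fun _ : Ω => () = ()) = Fintype.card Ω := by simp [cnt]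

theorem hc_unit (P : Law Ω) (X : Ω → α) : hc P X (fun _ => ()) = P.H X := by
  have h0 : P.H (fun _ => ()) = 0 := by simp [Law.H, Law.pr, Law.ex, P.sum_one]
  rw [hc, h0, sub_zero]
  exact P.H_congr fun _ _ => by simp

theorem lg_le {K : ℕ} {e a : ℝ} (he : 1 ≤ e) (ha : 0 < a) :
    Real.log a - (K + 1) * e ≤ -Real.log (2 ^ K / a) - e := by
  have h2 : Real.log 2 ≤ 1 := by linarith [Real.log_two_lt_d9]
  rw [Real.log_div (by positivity) ha.ne', Real.log_pow]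
  nlinarith [mul_le_mul_of_nonneg_left (h2.trans he) (Nat.cast_nonneg (α := ℝ) K)]

end Mk

theorem mkv : ∀ m, B0 m → ∀ K C c, LV m K C c → ∃ c, MK m K C c := by
  intro m h K C c lv
  have r := h.rect K C
  have inj : ∀ (G : St m K C) (ω ω' : G.Ω), G.x ω = G.x ω' → G.τ ω = G.τ ω' → ω = ω' :=
    fun G ω ω' a b => Subtype.ext (Prod.ext a b)
  refine ⟨K + 1, by positivity, fun G i hi => h.ent.rect _ _ _ _ _ _ _ _ _ G.dom (inj G)
    fun ω ω' e => ?_, fun G i hi => h.ent.rect _ _ _ _ _ _ _ _ _ G.dom (inj G) fun ω ω' e => ?_,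
    fun G i j hij hj => ?_, fun G => ⟨?_, ?_⟩⟩
  · obtain ⟨w, a, b, d⟩ := r.ext G.toSt0 i ω hi.le (G.τ ω')
      (r.ub G.toSt0 i _ _ hi e ▸ r.mem G.toSt0 i ω' hi.le)
    exact ⟨w, a, b, by rw [St0.b, St0.b, d]⟩
  · exact r.ext G.toSt0 i ω hi (G.τ ω') (e ▸ r.mem G.toSt0 i ω' hi)
  · obtain ⟨g0, g1⟩ := lv.gm G i j hj
    rw [← g1]
    refine (Mk.lg_le G.e1 g0).trans (h.ent.low _ _ _ _ _ _ _ _ G.dom (by positivity) fun ω => ?_)
    rw [div_mul_eq_mul_div, le_div_iff₀ g0]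
    refine le_trans (mul_le_mul_of_nonneg_right (Mk.cnt_mono fun ω' k => ?_) g0.le)
      (((h.rcn K C).capc G.toSt0 i j ω hij hj).trans (mul_le_mul_of_nonneg_left
        (Mk.cnt_mono fun ω' k => Prod.ext k.1 k.2) (by positivity)))
    exact ⟨k.1, (Prod.ext_iff.1 k.2).2⟩
  · have g0 : (0 : ℝ) < #(G.V 0) := by exact_mod_cast G.val.ne.card_pos
    rw [← Mk.hc_unit]
    refine (Mk.lg_le G.e1 g0).trans (h.ent.low _ _ _ _ _ _ _ _ G.dom (by positivity) fun ω => ?_)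
    rw [div_mul_eq_mul_div, le_div_iff₀ g0, Mk.cnt_true]
    exact le_trans (mul_le_mul_of_nonneg_right (Mk.cnt_mono fun ω' k => k.1) g0.le)
      ((h.rcn K C).rootc G.toSt0 ω)
  · rw [← Mk.hc_unit]
    exact hc_le_log _ _ _ _ fun ω _ => ⟨G.V 0, le_rfl, fun ω' _ _ =>
      (h.ch K C).mem G.toSt0 0 ω' (Nat.zero_le _)⟩

end

end Vale.Agent.P076N.FL
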