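import Vale.Agent.P076N.FL.Spec

/-! P076N / FL : the row NR (nodes in tubes). -/

open Finset

namespace Vale.Agent.P076N.FL

noncomputable section

namespace Nrx

variable {m : ℕ}

lemma edr {q : ℤ} (hq : 0 < q) (a : ℤ) :
    0 ≤ (a : ℝ) - q * ((a / q : ℤ) : ℝ) ∧ (a : ℝ) - q * ((a / q : ℤ) : ℝ) ≤ q := by
  have h1 := Int.mul_ediv_add_emod a q
  have h2 := Int.emod_nonneg a hq.ne'
  have h3 := Int.emod_lt_of_pos a hq
  have h4 : 0 ≤ a - q * (a / q) := by omega
  have h5 : a - q * (a / q) ≤ q := by omega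
  exact ⟨by exact_mod_cast h4, by exact_mod_cast h5⟩

lemma dd (D r r' : ℕ) (a : ℤ) : a / (D : ℤ) ^ r / (D : ℤ) ^ r' = a / (D : ℤ) ^ (r + r') := by
  rw [Int.ediv_ediv_of_nonneg (by positivity), pow_add]

lemma trans' {D r r' : ℕ} {c c' c'' : ℝ} {S S' S'' : Nd m} (hD : 1 ≤ D) (h : Near D r c S S')
    (h' : Near D r' c' S' S'') (hc : c + c' * (D : ℝ) ^ r' + 1 ≤ c'' * (D : ℝ) ^ r') :
    Near D (r + r') c'' S S'' := by
  refine ⟨funext fun l => ?_, ?_, fun l => ?_⟩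
  · rw [← h.cp, ← h'.cp]
    simp only [dv]
    rw [dd, add_comm]
  · rw [← h'.tm, ← h.tm, dd, mul_add]
  · have hD0 : (0 : ℝ) < D := by exact_mod_cast hD
    have p1 := h.ps l
    have p2 := h'.ps l
    obtain ⟨t1, t2⟩ := edr (q := (D : ℤ) ^ (2 * r)) (by positivity) S.T
    obtain ⟨d1, d2⟩ := edr (q := (D : ℤ) ^ r') (by positivity) (S''.c l)
    rw [h.tm] at t1 t2
    rw [show S''.c l / (D : ℤ) ^ r' = S'.c l from congrFun h'.cp l] at d1 d2
    push_cast at t1 t2 d1 d2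
    rw [two_mul, pow_add] at t1 t2
    rw [pow_add]
    obtain ⟨P, hP⟩ : ∃ P : ℝ, P = (D : ℝ) ^ r := ⟨_, rfl⟩
    obtain ⟨Q, hQ⟩ : ∃ Q : ℝ, Q = (D : ℝ) ^ r' := ⟨_, rfl⟩
    have P0 : 0 < P := by rw [hP]; positivity
    have Q0 : 0 < Q := by rw [hQ]; positivity
    rw [← hP] at p1 t1 t2 ⊢
    rw [← hQ] at p2 d1 d2 hc ⊢
    have key : (S.o l : ℝ) + S.T * (S.c l - S''.c l / (P * Q)) - P * Q * S''.o l
        = ((S.o l : ℝ) + S.T * (S.c l - S'.c l / P) - P * S'.o l)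
          + P * ((S'.o l : ℝ) + S'.T * (S'.c l - S''.c l / Q) - Q * S''.o l)
          - (S.T - P * P * S'.T) * (S''.c l - Q * S'.c l) / (P * Q) := by
      field_simp; ring
    have b1 : 0 ≤ ((S.T : ℝ) - P * P * S'.T) * (S''.c l - Q * S'.c l) / (P * Q) := by positivity
    have b2 : ((S.T : ℝ) - P * P * S'.T) * (S''.c l - Q * S'.c l) / (P * Q) ≤ P := by
      rw [div_le_iff₀ (by positivity)]
      have := mul_le_mul t2 d2 d1 (by positivity)
      linarith
    obtain ⟨p3, p4⟩ := abs_le.1 p1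
    obtain ⟨p5, p6⟩ := abs_le.1 p2
    have p7 := mul_le_mul_of_nonneg_left p5 P0.le
    have p8 := mul_le_mul_of_nonneg_left p6 P0.le
    have p9 := mul_le_mul_of_nonneg_left hc P0.le
    rw [key, abs_le]
    constructor <;> linarith

lemma step {D : ℕ} (hD : 1 ≤ D) (S : Nd m) {c' : Zv m} (h : dv ((D : ℤ) ^ 1) c' = S.c) :
    Near D 1 1 S (par D S c') := by
  refine ⟨h, rfl, fun l => ?_⟩
  have hD0 : (0 : ℝ) < D := by exact_mod_cast hD
  obtain ⟨o1, o2⟩ := edr (q := (D : ℤ)) (by positivity) (S.o l)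
  obtain ⟨r1, r2⟩ := edr (q := (D : ℤ) ^ 2) (by positivity) (S.T * (c' l - D * S.c l))
  have e : (par D S c').o l = S.o l / D - (S.T * (c' l - D * S.c l)) / (D : ℤ) ^ 2 := rfl
  rw [e, show (par D S c').c l = c' l from rfl]
  generalize S.o l / (D : ℤ) = a at *
  generalize S.T * (c' l - D * S.c l) / (D : ℤ) ^ 2 = b at *
  push_cast at o1 o2 r1 r2 ⊢
  have key : (S.o l : ℝ) + S.T * (S.c l - c' l / (D : ℝ) ^ 1) - (D : ℝ) ^ 1 * (a - b)
      = (S.o l - D * a) - (S.T * (c' l - D * S.c l) - (D : ℝ) ^ 2 * b) / D := by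
    field_simp; ring
  have b1 : 0 ≤ ((S.T : ℝ) * (c' l - D * S.c l) - (D : ℝ) ^ 2 * b) / D := by positivity
  have b2 : ((S.T : ℝ) * (c' l - D * S.c l) - (D : ℝ) ^ 2 * b) / D ≤ D := by
    rw [div_le_iff₀ hD0]; linarith
  rw [key, abs_le]
  constructor <;> linarith

lemma mono {D r : ℕ} {c c' : ℝ} {S S' : Nd m} (h : c ≤ c') (hn : Near D r c S S') :
    Near D r c' S S' :=
  ⟨hn.cp, hn.tm, fun l => (hn.ps l).trans (mul_le_mul_of_nonneg_right h (by positivity))⟩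

lemma refl (D : ℕ) (S : Nd m) : Near D 0 0 S S :=
  ⟨funext fun l => by simp [dv], by simp, fun l => by simp⟩

lemma ch_c {D K : ℕ} {x : Nd m} {τ : Zv m} (h : cap D K 0 τ = x.c) (i : ℕ) :
    (ch D K 0 x τ i).c = cap D K i τ := by
  cases i with
  | zero => exact h.symm
  | succ i => simp [ch, par, parB]

end Nrx

open Nrx

theorem nr : NR where
  mono _ _ _ _ _ _ _ h hn := mono h hn
  refl _ D S := refl D S
  trans m D r r' c c' S S' S'' hD hc h h' := trans' hD h h' (by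
    have : (1 : ℝ) ≤ (D : ℝ) ^ r' := one_le_pow₀ (by exact_mod_cast hD)
    nlinarith)
  mid m D r _ c S S₁ S₂ hD h1 h2 hc := by
    refine ⟨h1.tm.symm.trans h2.tm, fun l => ?_⟩
    have hP : (0 : ℝ) < (D : ℝ) ^ r := by
      have : (0 : ℝ) < D := by exact_mod_cast hD
      positivity
    obtain ⟨p1, p2⟩ := abs_le.1 (h1.ps l)
    obtain ⟨p3, p4⟩ := abs_le.1 (h2.ps l)
    rw [hc] at p1 p2
    rw [abs_le]
    constructor <;> refine le_of_mul_le_mul_right ?_ hP <;> linarith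
  chn m D K x τ i j hD h hij hj := by
    induction j, hij using Nat.le_induction with
    | base => rw [Nat.sub_self]; exact mono (by norm_num) (refl D _)
    | succ j hij ih =>
      have h1 : dv ((D : ℤ) ^ 1) (cap D K (0 + j + 1) τ) = (ch D K 0 x τ j).c := by
        rw [ch_c h]
        funext l
        simp only [cap, dv]
        rw [dd, show K - (0 + j + 1) + 1 = K - j by omega]
      have h2 : (2 : ℝ) ≤ D := by exact_mod_cast hD
      rw [show j + 1 - i = j - i + 1 by omega]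
      exact trans' (by omega) (ih (by omega)) (step (by omega) _ h1) (by rw [pow_one]; linarith)

end

end Vale.Agent.P076N.FL
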