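import Vale.Agent.P076N.FL.Spec

/-!
# P076N / FL : near equality bounds the number of cells
-/

open Finset Vale.Agent.P127 Vale.Agent.P127.Stk

namespace Vale.Agent.P076N.FL

noncomputable section

open Classical

namespace Rc

theorem card_img {Ω α β : Type} {_ : DecidableEq α} {_ : DecidableEq β} {E E' : Finset Ω}
    {f : Ω → α} {g : Ω → β} (h : E ⊆ E') (hf : ∀ ω ω', g ω = g ω' → f ω = f ω') :
    #(E.image f) ≤ #(E'.image g) := by
  have h1 : E.image f = (E.image fun ω => (f ω, g ω)).image Prod.fst := by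
    rw [image_image]
    rfl
  have h2 : E.image g = (E.image fun ω => (f ω, g ω)).image Prod.snd := by
    rw [image_image]
    rfl
  refine le_trans ?_ (card_le_card (image_subset_image h))
  rw [h1, h2, card_image_of_injOn (f := Prod.snd)]
  · exact card_image_le
  intro a ha b hb e
  simp only [coe_image, Set.mem_image] at ha hb
  obtain ⟨ω, -, rfl⟩ := ha
  obtain ⟨ω', -, rfl⟩ := hb
  exact Prod.ext (hf _ _ e) e

/-- the scales in units of `n` bits -/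
theorem scales {n x₀ z a b : ℕ} (hn : 0 < n) (h1 : x₀ * n ≤ a) (h2 : a ≤ b) (h3 : b ≤ z * n) :
    ∃ x x', x₀ ≤ x ∧ x ≤ x' ∧ x' ≤ z ∧ x * n ≤ a ∧ b ≤ x' * n ∧ x' * n + a ≤ x * n + b + 2 * n := by
  have a1 := Nat.div_mul_le_self a n
  have a2 := Nat.lt_div_mul_add (a := a) hn
  have a3 := Nat.div_mul_le_self (b + (n - 1)) n
  have a4 := Nat.lt_div_mul_add (a := b + (n - 1)) hn
  refine ⟨a / n, (b + (n - 1)) / n, (Nat.le_div_iff_mul_le hn).2 h1,
    Nat.div_le_div_right (by omega), ?_, a1, by omega, by omega⟩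
  rw [← Nat.lt_succ_iff, Nat.div_lt_iff_lt_mul hn, Nat.succ_mul]
  omega

/-- the final arithmetic -/
theorem num {m k κ Δ d y N L lg er ε ε₁ M c e θ co A ν h : ℝ} (k1 : 1 ≤ k) (km : k ≤ m)
    (κ0 : 0 ≤ κ) (κ1 : κ ≤ 1) (N0 : 0 ≤ N) (L0 : 0 ≤ L) (L1 : L ≤ 1) (hl : lg = N * L)
    (y0 : 0 ≤ y) (r0 : 0 ≤ er) (r1 : (2 * m + 4) * er ≤ ε / 2) (ε0 : 0 ≤ ε₁) (ε1 : ε₁ * M ≤ ε / 2)
    (y1 : 4 * m + 5 ≤ ε * y) (Δ1 : Δ ≤ M * y) (Δ2 : Δ * (2 * N) ≤ d + 2 * (2 * N)) (c0 : 0 ≤ c)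
    (e1 : 1 ≤ e) (e2 : e ≤ θ * lg) (θ1 : (c + 2) * θ ≤ 1) (hA : A - (1 - κ) * Δ ≤ er * y)
    (hc : 2 * (k + 1) * (1 - κ) * Δ - er * y ≤ co) (hν : ν ≤ (m - k) * Δ * lg)
    (hd : co * lg + ν + h - (2 * (k + 1) + (m - k)) * Δ * lg ≤ c)
    (hw : co * lg + k * ((m - k) * Δ * lg - ν) ≤ (2 * (k + 1) * A + ε₁ * Δ) * lg) :
    h + 2 * e ≤ (k + 1) * κ * d * L + ε * (2 * y * N) := by
  have l0 : 0 ≤ lg := by rw [hl]; positivity
  have l1 : lg ≤ N := hl ▸ mul_le_of_le_one_right N0 L1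
  have a1 : c + 2 * e ≤ lg := by
    nlinarith [mul_le_mul_of_nonneg_left e2 (by linarith : 0 ≤ c + 2),
      mul_le_mul_of_nonneg_right θ1 l0]
  have a2 := le_mul_of_one_le_left (sub_nonneg.2 hν) k1
  have a3 := mul_le_mul_of_nonneg_right hc l0
  have a4 := mul_le_mul_of_nonneg_right
    (mul_le_mul_of_nonneg_left hA (by linarith : 0 ≤ 2 * (k + 1))) l0
  have a5 := mul_le_mul_of_nonneg_right (mul_le_mul_of_nonneg_left Δ1 ε0) l0
  have a6 := mul_le_mul_of_nonneg_left Δ2 (by positivity : 0 ≤ (k + 1) * κ * L)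
  have a7 : (k + 1) * κ * lg ≤ (m + 1) * lg :=
    mul_le_mul_of_nonneg_right ((mul_le_of_le_one_right (by linarith) κ1).trans (by linarith)) l0
  have a8 := mul_le_mul_of_nonneg_right km (by positivity : 0 ≤ er * y * lg)
  have a9 := mul_le_mul_of_nonneg_right r1 (mul_nonneg y0 l0)
  have b1 := mul_le_mul_of_nonneg_right ε1 (mul_nonneg y0 l0)
  have b2 := mul_le_mul_of_nonneg_right y1 l0
  have b3 := mul_le_mul_of_nonneg_left l1 (by linarith : 0 ≤ ε * y)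
  subst hl
  linarith

end Rc

open Rc in
/-- **RC** -/
theorem rc : ∀ m, B2 m → LWJ m → RC m := by
  intro m hb lw ε M hε
  obtain ⟨ε', p1, lw⟩ := lw (ε / (2 * (M + 1))) (by positivity)
  refine ⟨min (ε' * (ε / (m + 1))) (ε / 2 / (2 * m + 4)), ⌈(4 * m + 5) / ε⌉₊, by positivity,
    fun K C => ?_⟩
  obtain ⟨θ', p2, lw⟩ := lw K C
  obtain ⟨c, dec⟩ := hb.dec K C
  have c0 := dec.c0
  refine ⟨min θ' (1 / (c + 2)), by positivity,
    fun G s x₀ y κ β sm fl jd br w2 y0 wy My top κ0 κ1 h a b a1 ab b1 ω hω => ?_⟩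
  have km := jd.blk.km
  have kK := jd.blk.le
  have km' : (s.k : ℝ) ≤ m := Nat.cast_le.2 km
  have ab' : (0 : ℝ) ≤ (b : ℝ) - a := sub_nonneg.2 (Nat.cast_le.2 ab)
  have L0 : 0 < Real.log 2 := Real.log_pos one_lt_two
  have L1 : Real.log 2 ≤ 1 := by linarith [Real.log_two_lt_d9]
  have N0 : 0 < 2 * G.N := by linarith [G.N4]
  obtain ⟨x, x', c1, c2, c3, c4, c5, c6⟩ := scales (x₀ := x₀) (z := x₀ + M * y) N0
    (by unfold St.bt at a1; linarith) ab (by unfold St.bt at b1; linarith)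
  have e1 : G.bt x ≤ a := by unfold St.bt; linarith
  have e2 : b ≤ G.bt x' := by unfold St.bt; linarith
  have e3 : ((G.bt y : ℕ) : ℝ) = 2 * y * G.N := by push_cast; rfl
  rw [e3]
  rcases le_or_gt ((m + 1) * ((x' : ℝ) - x)) (ε * y) with hs | hs
  · refine (hb.tsa.num _ _ _ a b _ ab).trans ?_
    have d1 : #((univ.filter fun ω' => 0 < (G.tS s x₀).P.w ω' ∧ (G.tS s x₀).cel b ω' =
        (G.tS s x₀).cel b ω ∧ (G.tS s x₀).side ω' = (G.tS s x₀).side ω).image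
        ((G.tS s x₀).cel b)) ≤ 1 := card_le_one_iff_subset_singleton.2
      ⟨_, image_subset_iff.2 fun ω' h => mem_singleton.2 (mem_filter.1 h).2.2.1⟩
    refine (mul_le_of_le_one_right (by positivity) (by exact_mod_cast d1)).trans ?_
    rw [← Real.exp_log (x := 2) two_pos, ← Real.exp_nat_mul, Real.exp_le_exp, Real.exp_log two_pos]
    push_cast [ab]
    have d2 : (b : ℝ) - a ≤ ((x' : ℝ) - x) * (2 * G.N) := by
      have k1 : ((x * (2 * G.N) : ℕ) : ℝ) ≤ a := Nat.cast_le.2 c4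
      have k2 : (b : ℝ) ≤ (x' * (2 * G.N) : ℕ) := Nat.cast_le.2 c5
      push_cast at k1 k2
      linarith
    have d3 : (0 : ℝ) ≤ (x' : ℝ) - x := sub_nonneg.2 (Nat.cast_le.2 c2)
    calc _ ≤ ((m : ℝ) + 1) * (((x' : ℝ) - x) * (2 * G.N)) * 1 := by gcongr
      _ ≤ ε * (2 * y * G.N) := by
        linarith [mul_le_mul_of_nonneg_right hs (by positivity : (0 : ℝ) ≤ 2 * G.N)]
      _ ≤ _ := le_add_of_nonneg_left (by positivity)
  have l0 : 0 ≤ G.lg := by unfold St0.lg; positivity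
  obtain ⟨f1, f2⟩ := dec.zn G s x₀ x x' c2
  obtain ⟨g1, g2⟩ := h x x' c1 c2 c3
  have d1 := hb.ent.flat _ _ _ G.P G.e _ _ (fl.zn s x₀ x jd (by omega) (by omega))
    (fl.zn s x₀ x' jd (by omega) (by omega)) f1 ω hω
  refine le_trans (Nat.cast_le.2 (card_img (fun ω' h => ?_) fun ω₁ ω₂ h =>
    (hb.tsa.nest _ _ _ _ _ e1 ω₁ ω₂).2 (congrArg Prod.fst h))) (d1.trans (Real.exp_le_exp.2 ?_))
  · simp only [mem_filter, mem_univ, true_and] at h ⊢
    exact ⟨h.1, Prod.ext ((hb.tsa.nest _ _ _ _ _ e2 ω' ω).2 h.2.1) h.2.2⟩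
  have d2 := lw G s x x' β ⟨sm.1.trans (mul_le_mul_of_nonneg_right (min_le_left _ _) l0),
    sm.2.trans (min_le_left _ _)⟩ jd br (by omega) c2 (by omega) (by omega) (by
      refine (wy.trans (mul_le_mul_of_nonneg_right (min_le_left _ _) (Nat.cast_nonneg y))).trans ?_
      rw [mul_assoc, div_mul_eq_mul_div]
      exact mul_le_mul_of_nonneg_left ((div_le_iff₀' (by positivity)).2 hs.le) p1.le)
  have d3 := dec.side G s x₀ x (G.bt x) (G.bt x') jd c1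
  refine le_trans (by linarith) (num (M := M) (c := c) (h := (G.tS s x).hB (G.bt x) (G.bt x'))
    (by exact_mod_cast jd.k1) km' κ0 κ1 (Nat.cast_nonneg _) L0.le L1 rfl (Nat.cast_nonneg y)
    (by positivity) ((le_div_iff₀' (by positivity)).1 (min_le_right _ _)) (by positivity) ?_ ?_ ?_
    ?_ c0 G.e1 sm.1 ((le_div_iff₀' (by positivity)).1 (min_le_right _ _)) (abs_le.1 g1).2 g2
    (dec.nu G s x x' jd c2).2 (abs_le.1 (dec.dec G s x x' jd (by omega) c2)).2 d2)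
  · rw [div_mul_eq_mul_div, div_le_div_iff₀ (by positivity) two_pos]
    nlinarith
  · exact (div_le_iff₀' hε).1 (Nat.ceil_le.1 y0)
  · have k : ((x' : ℕ) : ℝ) ≤ (x + M * y : ℕ) := Nat.cast_le.2 (by omega)
    push_cast at k
    linarith
  · have k : ((x' * (2 * G.N) + a : ℕ) : ℝ) ≤ (x * (2 * G.N) + b + 2 * (2 * G.N) : ℕ) :=
      Nat.cast_le.2 c6
    push_cast at k
    linarith

end

end Vale.Agent.P076N.FL
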