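import Vale.Agent.P076N.FL.Spec
import Vale.Agent.P076N.VS.Base

/-!
# P076N / FL, rows RECT and RCN: the product structure of the flags (helper1)
-/

set_option linter.all false

open Finset

namespace Vale.Agent.P076N.FL

noncomputable section

open Classical

namespace Rct

variable {m D K : ℕ} {C : ℝ}

theorem ch_add (x : Nd m) (τ : Zv m) (i : ℕ) :
    ∀ l, ch D K i (ch D K 0 x τ i) τ l = ch D K 0 x τ (i + l)
  | 0 => rfl
  | l + 1 => by rw [ch, ch_add x τ i l, ← add_assoc, ch, zero_add]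

theorem cap_le {τ τ' : Zv m} {i : ℕ} (hi : i ≤ K) (h : cap D K i τ' = cap D K i τ) {l : ℕ}
    (hl : l ≤ i) : cap D K l τ' = cap D K l τ := by
  induction hl using Nat.decreasingInduction with
  | self => exact h
  | of_succ l a b => rw [← VS.cap_succ (by omega), b, VS.cap_succ (by omega)]

theorem ch_congr (x : Nd m) {τ τ' : Zv m} {i : ℕ} (hi : i ≤ K) (h : cap D K i τ' = cap D K i τ) :
    ∀ l ≤ i, ch D K 0 x τ' l = ch D K 0 x τ l
  | 0, _ => rfl
  | l + 1, a => by rw [ch, ch, ch_congr x hi h l (by omega), zero_add, cap_le hi h a]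

theorem D0 (G : St0 m K C) : 0 < G.D := by positivity

theorem kid (G : St0 m K C) (i : ℕ) (S : Nd m) (c' : Zv m) (hi : i < K)
    (hc : c' ∈ below G.D 1 S.c) : (UU G.D K G.V i S).filter (fun τ => cap G.D K (i + 1) τ = c') =
      if c' ∈ GG G.D G.V i S then UU G.D K G.V (i + 1) (par G.D S c') else ∅ := by
  convert VS.UU_child (D0 G) G.V hi S hc using 2
  simp [GG, hc]

theorem card_UU (G : St0 m K C) {i : ℕ} (hi : i < K) (S : Nd m) : (#(UU G.D K G.V i S) : ℝ) =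
    ∑ c' ∈ GG G.D G.V i S, (#(UU G.D K G.V (i + 1) (par G.D S c')) : ℝ) := by
  rw [card_eq_sum_card_fiberwise (f := cap G.D K (i + 1)) (t := below G.D 1 S.c) fun τ a =>
    (VS.mem_below (D0 G)).2 ((VS.cap_succ hi τ).trans ((VS.mem_UU (D0 G)).1 a).1), Nat.cast_sum,
    GG, sum_filter]
  refine sum_congr rfl fun c' a => ?_
  rw [VS.UU_child (D0 G) G.V hi S a]
  split_ifs <;> simp

theorem Gm1 (G : St0 m K C) {i j : ℕ} (hj : j ≤ K) : 1 ≤ G.Gm i j :=
  (prod_const_one (s := Ico i j)).ge.trans (prod_le_prod (fun _ _ => zero_le_one)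
    fun l a => G.val.one l ((mem_Ico.1 a).2.trans_le hj))

theorem uu (G : St0 m K C) (i : ℕ) (hi : i ≤ K) : ∀ S ∈ G.V i,
    G.Gm i K ≤ #(UU G.D K G.V i S) ∧ (#(UU G.D K G.V i S) : ℝ) ≤ 2 ^ (K - i) * G.Gm i K := by
  induction hi using Nat.decreasingInduction with
  | self => exact fun S _ => by simp [VS.UU_top (D0 G), St0.Gm]
  | of_succ i a ih =>
    intro S s
    have g := zero_le_one.trans (Gm1 G (i := i + 1) le_rfl)
    obtain ⟨d1, d2⟩ := G.val.deg i a S s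
    rw [card_UU G a, St0.Gm, prod_eq_prod_Ico_succ_bot a, show K - i = K - (i + 1) + 1 by omega]
    refine ⟨le_trans ?_ (card_nsmul_le_sum _ _ _ fun c' b => (ih _ (mem_filter.1 b).2).1),
      (sum_le_card_nsmul _ _ _ fun c' b => (ih _ (mem_filter.1 b).2).2).trans ?_⟩
    · exact nsmul_eq_mul _ (G.Gm (i + 1) K) ▸ mul_le_mul_of_nonneg_right d1 g
    · rw [nsmul_eq_mul]
      exact (mul_le_mul_of_nonneg_right d2 (by positivity)).trans_eq (by rw [St0.Gm]; ring)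

end Rct

open Rct

theorem rect (m K : ℕ) (C : ℝ) (h : CH m K C) : RECT m K C := by
  refine ⟨fun G => ?_, fun G i ω hi => (VS.mem_UU (D0 G)).2 ⟨(h.c G i ω hi).symm, fun l _ a =>
    (ch_add _ _ i l).symm ▸ h.mem G _ ω a⟩, fun G i ω hi τ' hτ => ?_, fun G i S S' hi e => ?_, kid, uu,
    fun G S => VS.UU_top (D0 G) _ S⟩
  · obtain ⟨x, hx⟩ := G.val.ne
    obtain ⟨τ, hτ⟩ := card_pos.1 (Nat.cast_pos.1 (one_pos.trans_le ((Gm1 G le_rfl).trans
      (uu G 0 K.zero_le x hx).1)))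
    exact ⟨⟨(x, τ), VS.mem_flags.2 ⟨hx, hτ⟩⟩⟩
  · obtain ⟨a, b⟩ := (VS.mem_UU (D0 G)).1 hτ
    have c := a.trans (h.c G i ω hi)
    have e := ch_congr ω.1.1 hi c
    refine ⟨⟨(ω.1.1, τ'), VS.mem_flags.2 ⟨(VS.mem_flags.1 ω.2).1, (VS.mem_UU (D0 G)).2
      ⟨(cap_le hi c i.zero_le).trans (h.c G 0 ω K.zero_le).symm, fun l l1 l2 => ?_⟩⟩⟩, rfl, rfl,
      e i le_rfl⟩
    rw [zero_add] at l2 ⊢
    rcases le_or_gt l i with d | d
    · exact (e l d).symm ▸ h.mem G l ω l2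
    · obtain ⟨l, rfl⟩ : ∃ l', l = i + l' := ⟨l - i, by omega⟩
      rw [← ch_add, e i le_rfl]
      exact b l (by omega) l2
  · have c : S.c = S'.c := (congrArg Nd.c e :)
    ext τ
    rw [VS.mem_UU (D0 G), VS.mem_UU (D0 G), c]
    refine and_congr_right fun _ => forall₂_congr fun l a => ?_
    obtain ⟨l, rfl⟩ : ∃ l', l = l' + 1 := ⟨l - 1, by omega⟩
    rw [VS.ch_succ, VS.ch_succ, par, par, e]

theorem cnt_UU {m K : ℕ} {C : ℝ} (h : CH m K C) (r : RECT m K C) (G : St0 m K C) {i : ℕ}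
    (hi : i ≤ K) (ω : G.Ω) :
    cnt (fun ω' => G.cp i ω' = G.cp i ω ∧ G.x ω' = G.x ω) = #(UU G.D K G.V i (G.S i ω)) := by
  refine congrArg _ (card_bij (fun ω' _ => G.τ ω') (fun ω' a => ?_) (fun ω₁ a ω₂ b e => ?_)
    fun τ a => ?_)
  · simp only [mem_filter] at a
    exact h.ups G 0 i ω' ω i.zero_le hi a.2.2 a.2.1 ▸ r.mem G i ω' hi
  · simp only [mem_filter] at a b
    exact Subtype.ext (Prod.ext (a.2.2.trans b.2.2.symm) e)
  · obtain ⟨ω', a1, a2, a3⟩ := r.ext G i ω hi τ a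
    refine ⟨ω', ?_, a2⟩
    simp only [mem_filter]
    exact ⟨mem_univ _, by rw [← h.c G i _ hi, a3, h.c G i _ hi], a1⟩

theorem rcn (m K : ℕ) (C : ℝ) (h : CH m K C) (r : RECT m K C) : RCN m K C := by
  have p : ∀ i, (2 : ℝ) ^ (K - i) ≤ 2 ^ K := fun i => pow_le_pow_right₀ one_le_two (K.sub_le i)
  refine ⟨fun G i j ω a b => ?_, fun G ω => ?_⟩
  · have g := zero_le_one.trans (Gm1 G (i := i) b)
    have g' := zero_le_one.trans (Gm1 G (i := j) le_rfl)
    rw [cnt_UU h r G b, cnt_UU h r G (a.trans b)]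
    calc _ ≤ 2 ^ K * G.Gm j K * G.Gm i j := mul_le_mul_of_nonneg_right
          ((r.uu G j b _ (h.mem G j ω b)).2.trans (mul_le_mul_of_nonneg_right (p j) g')) g
      _ = 2 ^ K * G.Gm i K := by
          rw [mul_assoc, mul_comm (G.Gm j K)]
          exact congrArg _ (prod_Ico_consecutive _ a b)
      _ ≤ _ := mul_le_mul_of_nonneg_left (r.uu G i (a.trans b) _ (h.mem G i ω (a.trans b))).1
          (by positivity)
  · have e : cnt (fun ω' => G.x ω' = G.x ω) = #(UU G.D K G.V 0 (G.S 0 ω)) := by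
      rw [← cnt_UU h r G K.zero_le]
      refine congrArg cnt (funext fun ω' => propext (and_iff_right_of_imp fun a => ?_).symm)
      rw [← h.c G 0 _ K.zero_le, ← h.c G 0 _ K.zero_le]
      exact congrArg Nd.c a
    have f : #(G.V 0) • G.Gm 0 K ≤ Fintype.card G.Ω := by
      rw [Fintype.card_coe, card_eq_sum_card_fiberwise (f := Prod.fst) (t := G.V 0) fun a b =>
        (VS.mem_flags.1 b).1, Nat.cast_sum]
      refine card_nsmul_le_sum _ _ _ fun x hx => (r.uu G 0 K.zero_le x hx).1.trans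
        (Nat.cast_le.2 (card_le_card_of_injOn (fun τ => (x, τ)) (fun τ a => ?_)
          fun _ _ _ _ a => (Prod.ext_iff.1 a).2))
      exact mem_coe.2 (mem_filter.2 ⟨VS.mem_flags.2 ⟨hx, a⟩, rfl⟩)
    rw [nsmul_eq_mul] at f
    rw [e]
    exact (mul_le_mul_of_nonneg_right (r.uu G 0 K.zero_le _ (h.mem G 0 ω K.zero_le)).2
      (Nat.cast_nonneg _)).trans (by
        rw [mul_assoc, mul_comm (G.Gm 0 K)]
        exact mul_le_mul_of_nonneg_left f (by positivity))

end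

end Vale.Agent.P076N.FL
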