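import Vale.Agent.P076N.FL.Lt3

/-!
# P076N / FL : row REG (the regular law)
-/

open Finset Vale.Agent.P127 Vale.Agent.P127.Stk

namespace Vale.Agent.P076N.FL

noncomputable section

open Lt3 in
/-- flags with roots close to a given root -/
theorem reg_cnt {m K : ℕ} {C : ℝ} (ch : CH m K C) (G : St0 m K C) (c : ℕ) (ω : G.Ω)
    (E : G.Ω → Prop) (h : ∀ ω', E ω' → ∀ l,
      |(xpos (G.x ω') l : ℝ) - xpos (G.x ω) l| ≤ c * (G.D : ℝ) ^ (3 * K)) :
    cnt E ≤ 2 ^ ((2 * c + 23 + 3 * K) * (2 * m + 1) * G.N) := by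
  classical
  have d1 : (1 : ℤ) ≤ G.D := Nat.one_le_cast.2 Nat.one_le_two_pow
  have p1 : (G.D : ℤ) ^ K ≤ G.D ^ (3 * K) := pow_le_pow_right₀ d1 (by omega)
  have p2 : (G.D : ℤ) ^ (2 * K) ≤ G.D ^ (3 * K) := pow_le_pow_right₀ d1 (by omega)
  have p3 : (0 : ℤ) ≤ c * G.D ^ (3 * K) := by positivity
  have p4 : (0 : ℤ) ≤ G.D ^ K := by positivity
  have R : (((c + 11) * G.D ^ (3 * K) : ℕ) : ℤ) = c * G.D ^ (3 * K) + 11 * G.D ^ (3 * K) := by
    rw [Nat.cast_mul, Nat.cast_pow, Nat.cast_add, add_mul, Nat.cast_ofNat]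
  have a := card_le_card_of_injOn (s := univ.filter E)
    (t := box m ((c + 11) * G.D ^ (3 * K)) ×ˢ box m ((c + 11) * G.D ^ (3 * K)) ×ˢ
      Icc (-(((c + 11) * G.D ^ (3 * K) : ℕ) : ℤ)) ((c + 11) * G.D ^ (3 * K) : ℕ))
    (fun ω' => (xpos (G.x ω') - xpos (G.x ω), G.τ ω', (G.x ω').T)) (fun ω' e => ?_)
    fun ω₁ _ ω₂ _ e => ?_
  · rw [card_product, card_product, card_box, card_Icc', ← pow_succ, ← pow_add] at a
    have b : 2 * ((c + 11) * G.D ^ (3 * K)) + 1 ≤ 2 ^ ((2 * c + 23 + 3 * K) * G.N) := by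
      have n1 : 1 ≤ G.N := le_trans (by norm_num) G.N4
      have e1 : 1 ≤ G.D ^ (3 * K) := Nat.one_le_pow _ _ (Nat.two_pow_pos _)
      have e2 : 2 * c + 23 ≤ 2 ^ ((2 * c + 23) * G.N) := Nat.lt_two_pow_self.le.trans
        (Nat.pow_le_pow_right two_pos (Nat.le_mul_of_pos_right _ n1))
      rw [add_mul (2 * c + 23), pow_add, mul_comm (3 * K), pow_mul 2 G.N]
      exact le_trans (by nlinarith) (Nat.mul_le_mul_right _ e2)
    have := a.trans (Nat.pow_le_pow_left b _)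
    rw [← pow_mul, show m + (m + 1) = 2 * m + 1 by ring, mul_right_comm] at this
    unfold cnt
    exact_mod_cast this
  · have e := h ω' (mem_filter.1 e).2
    obtain ⟨-, t0, t1⟩ := G.rts _ (ch.mem G 0 ω' K.zero_le)
    refine mem_product.2 ⟨Fintype.mem_piFinset.2 fun l => mem_Icc.2 (abs_le.1 ?_),
      mem_product.2 ⟨Fintype.mem_piFinset.2 fun l => mem_Icc.2 (abs_le.1 ?_),
        mem_Icc.2 (abs_le.1 ?_)⟩⟩ <;> rw [R]
    · have : |xpos (G.x ω') l - xpos (G.x ω) l| ≤ c * (G.D : ℤ) ^ (3 * K) := by exact_mod_cast e l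
      exact this.trans (by linarith)
    · have a : |((G.D : ℝ) ^ K)⁻¹ * G.cp K ω' l| ≤ 11 := ch.vb G K ω' l le_rfl
      rw [abs_mul, abs_of_pos (by positivity), inv_mul_le_iff₀ (by positivity)] at a
      have b : |G.cp K ω' l| ≤ (G.D : ℤ) ^ K * 11 := by exact_mod_cast a
      rw [show G.cp K ω' l = G.τ ω' l by simp [St0.cp, cap, dv, St0.τ]] at b
      exact b.trans (by linarith)
    · exact (abs_of_nonneg t0).le.trans (t1.le.trans (by linarith))
  · obtain ⟨e1, e2, e3⟩ : xpos (G.x ω₁) = xpos (G.x ω₂) ∧ G.τ ω₁ = G.τ ω₂ ∧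
        (G.x ω₁).T = (G.x ω₂).T := by simpa using e
    have e4 : (G.x ω₁).c = (G.x ω₂).c := ((ch.c G 0 ω₁ K.zero_le).trans
      (congrArg (cap G.D K 0) e2)).trans (ch.c G 0 ω₂ K.zero_le).symm
    refine Subtype.ext (Prod.ext (Nd.ext e4 (funext fun l => ?_) e3) e2)
    have := congrFun e1 l
    simp only [xpos, e3, e4, add_left_inj] at this
    exact this

theorem reg : ∀ m, B1 m → REGA → ∀ K C, REG m K C := by
  classical
  intro m B ra K C
  have ch := B.ch K C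
  obtain ⟨c, dt⟩ := B.dt3 K C
  let F := Fin (m + K + 1)
  obtain ⟨n, hn⟩ : ∃ n, n = Fintype.card (F × F × F × F × F × F × F) + 1 := ⟨_, rfl⟩
  obtain ⟨a, ha⟩ : ∃ a, a = (2 * ⌈c⌉₊ + 23 + 3 * K) * (2 * m + 1) := ⟨_, rfl⟩
  refine ⟨4 * (n + 1) + n * a + n, fun G => ?_⟩
  have := (B.rect K C).ne G
  obtain ⟨P₀, h₀, -⟩ := ra Empty G.Ω (fun _ => Unit) (fun _ _ => ()) 0 3 (fun k => k.elim)
    (by simpa using le_trans (by norm_num) (Real.add_one_le_exp 3))
  let G₀ : St m K C := ⟨G, P₀, 3, by norm_num, h₀⟩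
  let jm : F × F × F × F × F × F × F → Jm := fun t => ⟨t.1, t.2.1, t.2.2.1, t.2.2.2.1, t.2.2.2.2.1⟩
  let κ := {t : F × F × F × F × F × F × F //
    G.Jd (jm t) ∧ (t.2.2.2.2.2.1 : ℕ) ≤ K ∧ (t.2.2.2.2.2.2 : ℕ) ≤ K}
  have N1 : (1 : ℝ) ≤ G.N := Nat.one_le_cast.2 (le_trans (by norm_num) G.N4)
  have l0 := Real.log_nonneg N1
  have l1 : 0 ≤ Real.log ((a * G.N : ℕ) + 1) := Real.log_nonneg (by simp; positivity)
  have l2 : Real.log ((a * G.N : ℕ) + 1) ≤ a + Real.log G.N := by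
    refine (Real.log_le_log (by positivity) (show _ ≤ ((a : ℝ) + 1) * G.N by
      push_cast; linarith)).trans ?_
    rw [Real.log_mul (by positivity) (by positivity)]
    linarith [Real.log_le_sub_one_of_pos (show (0 : ℝ) < a + 1 by positivity)]
  refine (ra (Option κ) G.Ω
    (fun k => k.elim (Nd m) fun t => (Zv (jm t.1).k × ℤ) × (Zv m × Pl m × Zv m))
    (fun k => match k with
      | none => G.x
      | some t => G₀.zn (jm t.1) t.1.2.2.2.2.2.1 t.1.2.2.2.2.2.2) (a * G.N)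
    (4 * (n + 1) + n * Real.log ((a * G.N : ℕ) + 1)) (fun k ω => ?_) ?_).elim
    fun P ⟨h1, h2⟩ => ?_
  rotate_right
  · refine ⟨P, _, by nlinarith [n.cast_nonneg (α := ℝ)], h1, ?_, h2 none, ?_⟩
    · have n0 := n.cast_nonneg (α := ℝ)
      nlinarith [mul_le_mul_of_nonneg_left l2 n0, mul_nonneg (mul_nonneg n0 a.cast_nonneg) l0,
        mul_nonneg n0 l0]
    · rintro ⟨k, J, W, j, w⟩ x₀ x hs h0 hx
      have e1 : k ≤ m := hs.blk.km
      have e2 : J + W ≤ K := hs.blk.le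
      have e3 : j + w < J + W := hs.lt
      exact h2 (some ⟨(⟨k, by omega⟩, ⟨J, by omega⟩, ⟨W, by omega⟩, ⟨j, by omega⟩, ⟨w, by omega⟩,
        ⟨x₀, by omega⟩, ⟨x, by omega⟩), hs, h0, hx⟩)
  · rw [ha]
    refine reg_cnt ch G _ ω _ fun ω' e l => ?_
    rcases k with _ | t
    · rw [show G.x ω' = G.x ω from e, sub_self, abs_zero]
      positivity
    · exact (dt.fib G₀ _ _ _ ω' ω t.2.1 t.2.2.1 t.2.2.2 e l).trans
        (mul_le_mul_of_nonneg_right (Nat.le_ceil c) (by positivity))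
  · have e : Fintype.card (Option κ) ≤ n := by
      rw [hn, Fintype.card_option]
      exact Nat.succ_le_succ (Fintype.card_subtype_le _)
    rw [Real.exp_add, Real.exp_nat_mul, Real.exp_log (by positivity)]
    refine mul_le_mul (le_trans ?_ ((le_add_of_nonneg_right zero_le_one).trans
      (Real.add_one_le_exp _))) (pow_le_pow_right₀ (by simp; positivity) e) (by positivity)
      (by positivity)
    gcongr

end

end Vale.Agent.P076N.FL
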