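import Vale.Agent.P076N.FL.Spec

/-! P076N / FL : the row REGA (regularisation of the uniform law). -/

open Finset Vale.Agent.P127 Vale.Agent.P127.Stk

namespace Vale.Agent.P076N.FL

noncomputable section

open Classical

namespace Rega

variable {κ Ω : Type} [Fintype κ] [Fintype Ω] {β : κ → Type}

omit [Fintype Ω] in
/-- pruning by an extremal choice -/
lemma prune (X : ∀ k, Ω → β k) (th : κ → ℝ) (h0 : ∀ k, 0 ≤ th k) (E₀ : Finset Ω) :
    ∃ E ⊆ E₀, (#E₀ : ℝ) - ∑ k, th k * #(E₀.image (X k)) ≤ #E ∧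
      ∀ k, ∀ ω ∈ E, th k ≤ #(E.filter fun ω' => X k ω' = X k ω) := by
  obtain ⟨E, hE, hmax⟩ := exists_max_image E₀.powerset
    (fun E : Finset Ω => (#E : ℝ) - ∑ k, th k * #(E.image (X k))) ⟨E₀, mem_powerset_self _⟩
  have hs := mem_powerset.1 hE
  refine ⟨E, hs, (hmax E₀ (mem_powerset_self _)).trans (sub_le_self _ (sum_nonneg fun k _ =>
    mul_nonneg (h0 k) (Nat.cast_nonneg _))), fun k ω hω => ?_⟩
  have h1 := hmax (E.filter fun ω' => ¬X k ω' = X k ω)
    (mem_powerset.2 ((filter_subset _ _).trans hs))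
  have h2 : (#(E.filter fun ω' => X k ω' = X k ω) : ℝ) + #(E.filter fun ω' => ¬X k ω' = X k ω)
      = #E := by exact_mod_cast card_filter_add_card_filter_not _
  have h3 : ∑ j, th j * (#((E.filter fun ω' => ¬X k ω' = X k ω).image (X j)) : ℝ)
      ≤ ∑ j, (th j * #(E.image (X j)) - if j = k then th k else 0) := by
    refine sum_le_sum fun j _ => ?_
    split_ifs with hj
    · subst hj
      have h4 : #((E.filter fun ω' => ¬X j ω' = X j ω).image (X j)) < #(E.image (X j)) := by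
        refine card_lt_card ⟨image_subset_image (filter_subset _ _), fun h => ?_⟩
        obtain ⟨a, ha, hb⟩ := mem_image.1 (h (mem_image_of_mem _ hω))
        exact (mem_filter.1 ha).2 hb
      have h5 : (#((E.filter fun ω' => ¬X j ω' = X j ω).image (X j)) : ℝ) + 1
          ≤ #(E.image (X j)) := by exact_mod_cast h4
      nlinarith [h0 j]
    · rw [sub_zero]
      refine mul_le_mul_of_nonneg_left ?_ (h0 j)
      exact_mod_cast card_le_card (image_subset_image (filter_subset _ _))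
  rw [sum_sub_distrib, sum_ite_eq' univ k, if_pos (mem_univ k)] at h3
  linarith

lemma image_le {γ : Type} (Y : Ω → γ) (E : Finset Ω) (a : ℕ)
    (h : ∀ ω ∈ E, a ≤ #(univ.filter fun ω' => Y ω' = Y ω)) :
    #(E.image Y) * a ≤ Fintype.card Ω := by
  rw [← card_univ, card_eq_sum_card_image Y univ, ← smul_eq_mul, ← sum_const]
  refine le_trans (sum_le_sum fun y hy => ?_)
    (sum_le_sum_of_subset (image_subset_image (subset_univ E)))
  obtain ⟨ω, hω, rfl⟩ := mem_image.1 hy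
  exact h ω hω

/-- the uniform law on `E` -/
def unif (E : Finset Ω) (h : 0 < #E) : Law Ω where
  w ω := if ω ∈ E then (#E : ℝ)⁻¹ else 0
  nn ω := by split_ifs <;> positivity
  sum_one := by
    rw [← sum_filter, sum_const, nsmul_eq_mul, filter_mem_eq_inter, univ_inter]
    exact mul_inv_cancel₀ (by exact_mod_cast h.ne')

lemma unif_pr {γ : Type} (E : Finset Ω) (h : 0 < #E) (Y : Ω → γ) (y : γ) :
    (unif E h).pr Y y = #(E.filter fun ω => Y ω = y) * (#E : ℝ)⁻¹ := by
  unfold Law.pr unif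
  simp only
  rw [← sum_filter, sum_const, nsmul_eq_mul]
  congr 3
  ext ω
  simp [and_comm]

lemma unif_mem {E : Finset Ω} {h : 0 < #E} {ω : Ω} (hω : 0 < (unif E h).w ω) : ω ∈ E := by
  by_contra hn
  simp [unif, hn] at hω

end Rega

open Rega

theorem rega : REGA := by
  intro κ Ω _ _ _ β X M e hM he
  obtain ⟨fib, hfib⟩ : ∃ fib : κ → Ω → ℕ,
      ∀ k ω, fib k ω = #(univ.filter fun ω' => X k ω' = X k ω) := ⟨_, fun _ _ => rfl⟩
  have f0 : ∀ k ω, fib k ω ≠ 0 := fun k ω => by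
    rw [hfib]; exact card_ne_zero.2 ⟨ω, mem_filter.2 ⟨mem_univ _, rfl⟩⟩
  have f1 : ∀ k ω, Nat.log 2 (fib k ω) < M + 1 := fun k ω => by
    have h1 : fib k ω ≤ 2 ^ M := by
      have := hM k ω
      unfold cnt at this
      rw [hfib]
      exact_mod_cast this
    have h2 := Nat.log_mono_right (b := 2) h1
    rw [Nat.log_pow (by norm_num)] at h2
    omega
  obtain ⟨c, -, hc⟩ := exists_max_image (univ : Finset (κ → Fin (M + 1)))
    (fun c => #(univ.filter fun ω => (fun k => (⟨_, f1 k ω⟩ : Fin (M + 1))) = c)) univ_nonempty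
  obtain ⟨E₀, hE₀⟩ : ∃ E₀ : Finset Ω,
      E₀ = univ.filter fun ω => (fun k => (⟨_, f1 k ω⟩ : Fin (M + 1))) = c := ⟨_, rfl⟩
  rw [← hE₀] at hc
  have hN : (0 : ℝ) < Fintype.card Ω := by exact_mod_cast Fintype.card_pos
  have k1 : (Fintype.card Ω : ℝ) ≤ ((M : ℝ) + 1) ^ Fintype.card κ * #E₀ := by
    have h1 := card_eq_sum_card_fiberwise (s := (univ : Finset Ω))
      (t := (univ : Finset (κ → Fin (M + 1))))
      (f := fun ω k => (⟨_, f1 k ω⟩ : Fin (M + 1))) fun _ _ => mem_coe.2 (mem_univ _)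
    have h2 := sum_le_card_nsmul _ _ _ hc
    rw [← h1, card_univ, card_univ, Fintype.card_fun, Fintype.card_fin, smul_eq_mul] at h2
    exact_mod_cast h2
  have hQ : (0 : ℝ) < ((M : ℝ) + 1) ^ Fintype.card κ := by positivity
  have k0 : (0 : ℝ) < #E₀ := pos_of_mul_pos_right (hN.trans_le k1) hQ.le
  have k2 : ∀ k, ∀ ω ∈ E₀, 2 ^ (c k : ℕ) ≤ fib k ω ∧ fib k ω ≤ 2 ^ ((c k : ℕ) + 1) := by
    intro k ω hω
    rw [hE₀] at hω
    have h1 : Nat.log 2 (fib k ω) = c k := congrArg Fin.val (congrFun (mem_filter.1 hω).2 k)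
    rw [← h1]
    exact ⟨Nat.pow_log_le_self 2 (f0 k ω), (Nat.lt_pow_succ_log_self (by norm_num) _).le⟩
  obtain ⟨a, ha⟩ : ∃ a : ℝ, a = #E₀ / (2 * (Fintype.card κ + 1) * Fintype.card Ω) := ⟨_, rfl⟩
  have a0 : 0 < a := by rw [ha]; positivity
  obtain ⟨E, hE, h1, h2⟩ := prune X (fun k => a * 2 ^ (c k : ℕ)) (fun k => by positivity) E₀
  have k3 : ∑ k, a * 2 ^ (c k : ℕ) * (#(E₀.image (X k)) : ℝ) ≤ #E₀ / 2 := by
    have h3 : ∀ k ∈ (univ : Finset κ), a * 2 ^ (c k : ℕ) * (#(E₀.image (X k)) : ℝ)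
        ≤ a * Fintype.card Ω := fun k _ => by
      have h4 := image_le (X k) E₀ (2 ^ (c k : ℕ)) fun ω hω => by
        rw [← hfib]; exact (k2 k ω hω).1
      have h5 : (#(E₀.image (X k)) : ℝ) * 2 ^ (c k : ℕ) ≤ Fintype.card Ω := by exact_mod_cast h4
      nlinarith
    refine (sum_le_card_nsmul _ _ _ h3).trans ?_
    rw [card_univ, nsmul_eq_mul]
    have e1 : (Fintype.card κ + 1 : ℝ) * (a * Fintype.card Ω) = #E₀ / 2 := by
      rw [ha]; field_simp
    nlinarith [mul_pos a0 hN]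
  have k4 : (#E₀ : ℝ) / 2 ≤ #E := by linarith
  have k5 : (0 : ℝ) < #E := by linarith
  have hκ : (0 : ℝ) ≤ Fintype.card κ := Nat.cast_nonneg _
  refine ⟨unif E (by exact_mod_cast k5), fun ω => ?_, fun k ω ω' hω hω' => ?_⟩
  · refine le_trans ?_ he
    have h3 : (#E : ℝ)⁻¹ * Fintype.card Ω ≤ 2 * ((M : ℝ) + 1) ^ Fintype.card κ := by
      rw [inv_mul_le_iff₀ k5]
      nlinarith
    have h4 : (unif E (by exact_mod_cast k5)).w ω ≤ (#E : ℝ)⁻¹ := by
      simp only [unif]
      split_ifs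
      · exact le_rfl
      · positivity
    nlinarith
  · rw [unif_pr, unif_pr, ← mul_assoc]
    refine mul_le_mul_of_nonneg_right ?_ (by positivity)
    have h3 := h2 k ω' (unif_mem hω')
    have h4 : (#(E.filter fun ω' => X k ω' = X k ω) : ℝ) ≤ 2 ^ ((c k : ℕ) + 1) := by
      have h5 := (k2 k ω (hE (unif_mem hω))).2
      rw [hfib] at h5
      exact_mod_cast (card_le_card (filter_subset_filter _ (subset_univ E))).trans h5
    have h5 : 2 ≤ Real.exp e * a := by
      refine le_trans ?_ (mul_le_mul_of_nonneg_right he a0.le)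
      rw [ha, mul_div_assoc', le_div_iff₀ (by positivity)]
      nlinarith
    have h6 : (0 : ℝ) < 2 ^ (c k : ℕ) := by positivity
    rw [pow_succ] at h4
    nlinarith [Real.exp_pos e]

end

end Vale.Agent.P076N.FL
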