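import Vale.Agent.P076N.FL.Lwj

/-!
# P076N / FL : the row RNG
-/

set_option linter.all false

open Finset Vale.Agent.P127 Vale.Agent.P127.Stk

namespace Vale.Agent.P076N.FL

theorem rng : ∀ m, B2 m → (∀ k, 1 ≤ k → StRING k) → RC m → RNG m := by
  intro m b hr hc γ σ hγ hσ
  have l2 : 0 < Real.log 2 := Real.log_pos one_lt_two
  have h0 := fun k => hr (k + 1) (Nat.le_add_left 1 k) γ (σ * Real.log 2 / 4) m hγ (by positivity)
  choose M y₀ e' hM he' hR using h0
  obtain ⟨ε, p0, hε⟩ := fin_min (range m) (fun k θ => θ = e' k) fun k _ => ⟨_, he' k, rfl⟩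
  obtain ⟨er, y₁, r0, hc⟩ := hc ε (max 1 ((range m).sup M)) p0
  refine ⟨max 1 ((range m).sup M), max (max 1 y₁) ((range m).sup y₀), min er (ε / 2), le_max_left _ _,
    by positivity, fun K C => ?_⟩
  obtain ⟨θ, t0, hc⟩ := hc K C
  obtain ⟨c₁, ht⟩ := b.ht K C
  obtain ⟨c₂, dc⟩ := b.dec K C
  obtain ⟨c₃, ap⟩ := b.apx K C
  have := ht.c0
  refine ⟨min (min θ ε) (min ε (σ / 2) / (c₁ + 1)), by positivity,
    fun G s x₀ y κ β sm fl jd br h1 h2 h3 h4 h5 h6 h7 h8 h9 => ?_⟩
  obtain ⟨k, J, W, j, w⟩ := s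
  have km := jd.blk.km
  obtain ⟨k, rfl⟩ : ∃ k', k = k' + 1 := ⟨k - 1, by have := jd.k1; dsimp only at this; omega⟩
  dsimp only at km h3 h5 h9
  have hk : k ∈ range m := mem_range.2 km
  obtain ⟨_, a1, rfl⟩ := hε k hk
  have ce := G.ce sm.1 ht.c0 (min_le_right _ _)
  have hMk : M k * y ≤ max 1 ((range m).sup M) * y :=
    Nat.mul_le_mul_right y ((le_sup (f := M) hk).trans (le_max_right _ _))
  have hy1 : y ≤ max 1 ((range m).sup M) * y := Nat.le_mul_of_pos_left y (by omega)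
  have hy0 : y₀ k ≤ y := (le_sup (f := y₀) hk).trans ((le_max_right _ _).trans h2)
  have y1 : 1 ≤ y := (le_max_left _ _).trans ((le_max_left _ _).trans h2)
  have y1' : (1 : ℝ) ≤ y := by exact_mod_cast y1
  have N1 : 1 ≤ G.N := by have := G.N4; omega
  have N0 : (0 : ℝ) ≤ G.N := Nat.cast_nonneg _
  have hb : ((G.bt y : ℕ) : ℝ) = 2 * y * G.N := by push_cast; ring
  have e1 := G.e1
  have l0 := G.lg_pos
  have lN := G.lg_le
  have r1 : min er (ε / 2) * y ≤ er * y := mul_le_mul_of_nonneg_right (min_le_left _ _) (by linarith)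
  have r2 : min er (ε / 2) * y ≤ ε / 2 * y := mul_le_mul_of_nonneg_right (min_le_right _ _) (by linarith)
  have r3 : ε * (2 * y * G.N) ≤ e' k * (2 * y * G.N) := mul_le_mul_of_nonneg_right a1 (by positivity)
  have r4 : min ε (σ / 2) * G.lg ≤ ε * G.lg := mul_le_mul_of_nonneg_right (min_le_left _ _) l0.le
  have r5 : min ε (σ / 2) * G.lg ≤ σ / 2 * G.lg := mul_le_mul_of_nonneg_right (min_le_right _ _) l0.le
  refine hR k (G.bt y) (G.bt x₀) (w * G.N) κ _ (G.tS ⟨k + 1, J, W, j, w⟩ x₀) ?_ ?_ h6 h7 (ap.bnd G _ x₀ jd)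
    (fun pl => (b.brd K C G _ x₀ β jd br pl).trans
      (sm.2.trans ((min_le_left _ _).trans ((min_le_right _ _).trans a1)))) ?_ (fun a b' q1 q2 q3 ω hω => ?_) ?_
  · exact hy0.trans ((by omega : y ≤ 2 * y).trans (Nat.le_mul_of_pos_right _ N1))
  · rw [hb]
    push_cast
    have : (w : ℝ) * G.N ≤ ε / 2 * y * G.N := mul_le_mul_of_nonneg_right (h3.trans r2) N0
    have : 0 ≤ ε * y * G.N := by positivity
    linarith
  · have e : G.bt x₀ + M k * G.bt y = G.bt (x₀ + M k * y) := by unfold St.bt; ring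
    have A := ht.one G _ x₀ (x₀ + M k * y) jd h1 (by omega) (by omega) (by dsimp only; omega)
    have B := (dc.nu G _ x₀ (x₀ + M k * y) jd (by omega)).2
    have D := (abs_le.1 (h8 x₀ (x₀ + M k * y) le_rfl (by omega) (by omega)).1).2
    have D' := mul_le_mul_of_nonneg_right (D.trans r2) l0.le
    have q1 : ε * y * G.lg ≤ ε * y * G.N := mul_le_mul_of_nonneg_left lN (by positivity)
    have q2 : ε * G.lg ≤ ε * G.lg * y := le_mul_of_one_le_right (by positivity) y1'
    have q4 : κ * (M k * (2 * y * G.N)) * Real.log 2 = 2 * κ * (M k * y) * G.lg := by unfold St0.lg; ring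
    rw [e, hb, q4]
    dsimp only at A B D' ⊢
    push_cast at A B D' ⊢
    linarith
  · refine (hc G _ x₀ y κ β (sm.mono ((min_le_left _ _).trans (min_le_left _ _))) fl jd br h1
      ((le_max_right _ _).trans ((le_max_left _ _).trans h2)) (h3.trans r1) h4 h5 (hγ.le.trans h6) (by linarith)
      (fun x x' a1 a2 a3 => ⟨(h8 x x' a1 a2 a3).1.trans r1, by linarith [(h8 x x' a1 a2 a3).2]⟩) a b' q1 q2
      (q3.trans (Nat.add_le_add_left (Nat.mul_le_mul_right _ ((le_sup (f := M) hk).trans (le_max_right _ _))) _))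
      ω hω).trans (Real.exp_le_exp.2 ?_)
    rw [hb]
    linarith
  · have A := ht.dir G _ x₀ (2 * y) jd (by dsimp only; omega)
    have B := mul_le_mul_of_nonneg_right h9 l0.le
    have q2 : σ / 2 * G.lg ≤ σ / 2 * G.lg * y := le_mul_of_one_le_right (by positivity) y1'
    have q4 : σ * Real.log 2 / 4 * (2 * y * G.N) = σ / 2 * G.lg * y := by unfold St0.lg; ring
    rw [hb, q4]
    refine le_trans ?_ A
    dsimp only
    linarith

end Vale.Agent.P076N.FL
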