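import Vale.Agent.P076N.FL.Spec

/-!
# P076N / FL : row ROT
-/

set_option linter.all false

open Finset Vale.Agent.P127 Vale.Agent.P127.Stk
open scoped RealInnerProductSpace

namespace Vale.Agent.P076N.FL

noncomputable section

namespace Rot

variable {m k : ℕ}

/-- the embedding in the first `k` coordinates -/
def emb (m : ℕ) (v : Vc k) : Vc m := WithLp.toLp 2 fun l : Fin m => if h : (l : ℕ) < k then v ⟨l, h⟩ else 0

theorem inner_em (h : k ≤ m) (v : Vc k) (z : Vc m) :
    ⟪emb m v, z⟫ = ∑ l : Fin k, v l * z (Fin.castLE h l) := by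
  obtain ⟨d, rfl⟩ := Nat.exists_eq_add_of_le h
  rw [PiLp.inner_apply, Fin.sum_univ_add]
  simp [emb, mul_comm, Fin.castAdd]

theorem norm_em (h : k ≤ m) (v : Vc k) : ‖emb m v‖ = ‖v‖ := by
  have h1 : ⟪emb m v, emb m v⟫ = ⟪v, v⟫ := by
    rw [inner_em h, PiLp.inner_apply]
    simp [emb, sq]
  rw [real_inner_self_eq_norm_sq, real_inner_self_eq_norm_sq] at h1
  exact (pow_left_inj₀ (norm_nonneg _) (norm_nonneg _) two_ne_zero).1 h1

theorem inner_sl (h : k ≤ m) (O : Vc m ≃ₗᵢ[ℝ] Vc m) (v : Vc k) (y : Vc m) :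
    ⟪emb m v, O y⟫ = ⟪v, sl k O y⟫ := by
  rw [inner_em h, PiLp.inner_apply]
  refine Finset.sum_congr rfl fun l _ => ?_
  have : (l : ℕ) < m := l.2.trans_le h
  simp [sl, this, mul_comm, Fin.castLE]

theorem refl_inner (K : Submodule ℝ (Vc m)) (a z : Vc m) :
    ⟪a, K.reflection z⟫ = ⟪K.reflection a, z⟫ := by
  rw [← K.reflection.inner_map_map, Submodule.reflection_reflection]

end Rot

open Rot in
theorem rot : ROT := by
  intro m k O O' h1 h2
  have hm : k - 1 < m := by omega
  have hk : k - 1 < k := by omega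
  let a' : Vc k := EuclideanSpace.single ⟨k - 1, hk⟩ 1
  let a : Vc m := EuclideanSpace.single ⟨k - 1, hm⟩ 1
  let n : Vc m := emb m (O'.symm a')
  have hn : ‖a‖ = ‖n‖ := by simp [a, a', n, norm_em h2]
  let K : Submodule ℝ (Vc m) := (ℝ ∙ (a - n))ᗮ
  have hR : K.reflection a = n := Submodule.reflection_sub hn
  have hc : ∀ (z : Vc m) (l : Fin m), z l = ⟪EuclideanSpace.single l (1 : ℝ), z⟫ := fun z l => by
    simp [EuclideanSpace.inner_single_left]
  refine ⟨O.trans K.reflection, fun y l => ⟨fun hl => ?_, fun l' hl hl' => ?_⟩⟩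
  · have h3 : EuclideanSpace.single l (1 : ℝ) ∈ K := by
      rw [Submodule.mem_orthogonal_singleton_iff_inner_left, ← hc]
      have h4 : l ≠ ⟨k - 1, hm⟩ := fun e => by
        have := congrArg Fin.val e
        simp only at this
        omega
      simp [a, n, emb, h4, not_lt.2 hl]
    rw [LinearIsometryEquiv.trans_apply, hc, refl_inner,
      Submodule.reflection_mem_subspace_eq_self h3, ← hc]
  · obtain rfl : l = ⟨k - 1, hm⟩ := Fin.ext hl
    obtain rfl : l' = ⟨k - 1, hk⟩ := Fin.ext hl'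
    rw [LinearIsometryEquiv.trans_apply, hc, refl_inner, hR, inner_sl h2, ← O'.inner_map_map,
      O'.apply_symm_apply]
    simp [a', EuclideanSpace.inner_single_left]

end

end Vale.Agent.P076N.FL
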