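import Vale.Agent.P076N.FL.Spec

/-!
# P076N / FL : the row SET
-/

set_option linter.all false

open Finset Filter Topology Vale.Agent.P127 Vale.Agent.P127.Stk

namespace Vale.Agent.P076N.FL

theorem ev_log (c δ : ℝ) (hδ : 0 < δ) : ∀ᶠ N : ℕ in atTop, c * (1 + Real.log N) ≤ δ * N := by
  have t : Tendsto (fun x : ℝ => c * (x⁻¹ + Real.log x / x)) atTop (𝓝 (c * (0 + 0))) :=
    (tendsto_inv_atTop_zero.add (by simpa using Real.tendsto_pow_log_div_mul_add_atTop 1 0 1 one_ne_zero)).const_mul c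
  have t' := (t.comp tendsto_natCast_atTop_atTop).eventually_lt_const (u := δ) (by simpa using hδ)
  filter_upwards [t', eventually_ge_atTop 1] with N h h1
  have hN : (0 : ℝ) < N := by exact_mod_cast h1
  have : c * (1 + Real.log N) = c * ((N : ℝ)⁻¹ + Real.log N / N) * N := by field_simp
  rw [this]
  exact mul_le_mul_of_nonneg_right h.le hN.le

theorem set : ∀ m, StVS m → ∀ K C, REG m K C → SET m K C := by
  intro m hv K C ⟨c', hr⟩ η θ Tr hC hη hθ
  obtain ⟨c, hc, N₀, hN⟩ := hv K C Tr η hC hη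
  have l2 : 0 < Real.log 2 := Real.log_pos one_lt_two
  have t : Tendsto (fun N : ℕ => Real.exp (-(c * Real.log 2 / 2 * N))) atTop (𝓝 0) :=
    Real.tendsto_exp_atBot.comp (tendsto_neg_atTop_atBot.comp
      (tendsto_natCast_atTop_atTop.const_mul_atTop (by positivity)))
  obtain ⟨N₁, h₁⟩ := eventually_atTop.1 ((ev_log c' (θ * Real.log 2) (by positivity)).and
    ((ev_log c' (c * Real.log 2 / 2) (by positivity)).and ((t.eventually_lt_const hθ).and
      ((eventually_ge_atTop 4).and (eventually_ge_atTop N₀)))))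
  refine ⟨N₁, fun N hN₁ Q α F V₀ hα hne hx ht => ?_⟩
  obtain ⟨a1, a2, a3, a4, a5⟩ := h₁ N hN₁
  obtain ⟨V, A, Γ, sub, val, hA, hV, ty⟩ := hN N a5 Q F V₀ α hα hne (fun x h => (hx x h).2.2.2) ht
  let G₀ : St0 m K C := ⟨N, Q, F, V, A, Γ, val,
    fun x h => ⟨(hx x (sub 0 h)).1, (hx x (sub 0 h)).2.1, (hx x (sub 0 h)).2.2.1⟩, hC, a4⟩
  obtain ⟨P, e, h1, h2, he, fl⟩ := hr G₀
  refine ⟨⟨G₀, P, e, h1, h2⟩, ((2 : ℝ) ^ N) ^ (-c), rfl, rfl, fun _ h => h, sub, ⟨?_, ?_⟩, ty, fl, hA, hV⟩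
  · show e ≤ θ * (N * Real.log 2)
    have : e ≤ c' * (1 + Real.log N) := he
    linarith
  · show Real.exp e * ((2 : ℝ) ^ N) ^ (-c) ≤ θ
    have : e ≤ c' * (1 + Real.log N) := he
    rw [Real.rpow_def_of_pos (by positivity), Real.log_pow, ← Real.exp_add]
    refine le_trans (Real.exp_le_exp.2 ?_) a3.le
    linarith

end Vale.Agent.P076N.FL
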