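import Vale.Agent.P076N.FL.Spec

/-!
# P076N / FL : the row STD, the entropy along a chain and the mass
-/

set_option linter.all false

open Finset Vale.Agent.P127 Vale.Agent.P127.Stk

namespace Vale.Agent.P076N.FL

namespace Std

theorem H_le_img {Ω β : Type} [Fintype Ω] (P : Law Ω) (X : Ω → β) (h : 0 < #(img X)) :
    P.H X ≤ Real.log #(img X) := by
  have h0 : (0 : ℝ) < #(img X) := by exact_mod_cast h
  have h1 := P.gibbs X (fun _ => ((#(img X) : ℝ))⁻¹) (fun _ => by positivity)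
    (by rw [sum_const, nsmul_eq_mul, mul_inv_cancel₀ h0.ne']) (fun _ _ => by positivity)
  rwa [P.ex_const, Real.log_inv, neg_neg] at h1

variable {m K : ℕ} {C c c' : ℝ}

theorem cp_of_τ (G : St m K C) (i : ℕ) {ω ω' : G.Ω} (h : G.τ ω = G.τ ω') : G.cp i ω = G.cp i ω' :=
  congrArg (cap G.D K i) h

theorem step_up (hc' : CH m K C) (G : St m K C) {l : ℕ} (hl : l < K) :
    hc G.P (G.S l) (G.S (l + 1)) ≤ G.tE l + G.sE l := by
  have h1 := hc_le_add G.P (G.S l) (G.T l) (G.S (l + 1))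
  have h2 := hc_mono_right G.P (G.S l) (Y := G.b l) (Y' := fun ω => (G.T l ω, G.S (l + 1) ω))
    fun ω ω' _ _ e => hc'.dn G.toSt0 l ω ω' hl (congrArg Prod.snd e) (congrArg Prod.fst e)
  unfold St.tE St.sE
  linarith

theorem step_dn (hc' : CH m K C) (hk : MK m K C c) (G : St m K C) {l : ℕ} (hl : l < K) :
    G.tE l + G.sE l - 2 * G.e ≤ hc G.P (G.S l) fun ω => (G.S (l + 1) ω, G.τ ω) := by
  have h1 := hc_pair G.P (G.T l) (G.S l) fun ω => (G.S (l + 1) ω, G.τ ω)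
  have h2 := hc_mono_left G.P (X := fun ω => (G.T l ω, G.S l ω)) (X' := G.S l)
    (Y := fun ω => (G.S (l + 1) ω, G.τ ω)) fun ω ω' _ _ e => by
      have e1 : G.S l ω = G.S l ω' := (Prod.ext_iff.1 e).1
      exact Prod.ext (congrArg Nd.T e1) e1
  have h3 := hc_mono_right G.P (G.S l) (Y := fun ω => (G.T l ω, G.S (l + 1) ω, G.τ ω))
    (Y' := fun ω => (G.τ ω, G.b l ω)) fun ω ω' _ _ e => by
      have e1 : G.τ ω = G.τ ω' := (Prod.ext_iff.1 e).1
      have e2 : G.b l ω = G.b l ω' := (Prod.ext_iff.1 e).2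
      exact Prod.ext (congrArg Nd.T e2 :)
        (Prod.ext (hc'.upb G.toSt0 l (l + 1) ω ω' (by omega) hl e2 (cp_of_τ G _ e1)) e1)
  have h4 := hc_mono_right G.P (G.T l) (Y := fun ω => (G.S (l + 1) ω, G.τ ω))
    (Y' := fun ω => (G.τ ω, G.S (l + 1) ω)) fun ω ω' _ _ e =>
      Prod.ext (congrArg Prod.snd e) (congrArg Prod.fst e)
  have h5 := (mi_mono_left G.P (X := G.T l) (X' := G.x) G.τ (Z := G.S (l + 1)) fun ω ω' _ _ e => by
    have e1 : G.x ω = G.x ω' := (Prod.ext_iff.1 e).1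
    rw [hc'.T, hc'.T, e1]).trans (hk.s G (l + 1) hl)
  have h6 := (mi_mono_left G.P (X := G.S l) (X' := G.x) G.τ (Z := G.b l) fun ω ω' _ _ e => by
    have e1 : G.x ω = G.x ω' := (Prod.ext_iff.1 e).1
    have e2 : G.b l ω = G.b l ω' := (Prod.ext_iff.1 e).2
    refine hc'.ups G.toSt0 0 l ω ω' (Nat.zero_le _) hl.le e1 ?_
    rw [← hc'.c _ _ _ hl.le, ← hc'.c _ _ _ hl.le]
    exact (congrArg Nd.c e2 :)).trans (hk.b G l hl)
  unfold mi at h5 h6
  unfold St.tE St.sE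
  linarith

/-- the main term of one level -/
noncomputable def q (G : St m K C) (l : ℕ) : ℝ := (m + 2 - G.φ l - 2 * G.a l) * G.lg

theorem q_bd (hv : LV m K C c) (G : St m K C) {l : ℕ} (hl : l < K) :
    G.tE l + G.sE l - c ≤ q G l ∧ q G l ≤ G.tE l + G.sE l := by
  obtain ⟨h1, h2⟩ := hv.a1 G l hl
  have h0 : G.lg ≠ 0 := by linarith [(hv.lg G).1]
  have h3 : (2 + G.δ l) * G.lg = (m + 2 - G.φ l) * G.lg - G.sE l := by
    unfold St.δ
    field_simp
    ring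
  rw [h3] at h1 h2
  unfold q
  constructor <;> linarith

theorem q_sum (G : St m K C) {i j : ℕ} (h : i ≤ j) :
    ∑ l ∈ Ico i j, q G l = ((m + 2) * ((j : ℝ) - i) - G.ΦA i j - 2 * G.AA i j) * G.lg := by
  unfold q St.ΦA St.AA
  rw [← sum_mul, sum_sub_distrib, sum_sub_distrib, ← mul_sum, sum_const, Nat.card_Ico, nsmul_eq_mul,
    Nat.cast_sub h]
  ring

theorem up (hc' : CH m K C) (hv : LV m K C c) (G : St m K C) {j : ℕ} (hj : j ≤ K) {i : ℕ} (h : i ≤ j) :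
    hc G.P (G.S i) (G.S j) ≤ ∑ l ∈ Ico i j, (q G l + c) := by
  induction h using Nat.decreasingInduction with
  | self =>
    rw [hc_zero G.P fun ω ω' _ _ e => e]
    simp
  | of_succ i hi ih =>
    rw [sum_eq_sum_Ico_succ_bot hi]
    have h1 := hc_le_add G.P (G.S i) (G.S (i + 1)) (G.S j)
    have h2 := hc_mono_right G.P (G.S i) (Y := G.S (i + 1)) (Y' := fun ω => (G.S (i + 1) ω, G.S j ω))
      fun ω ω' _ _ e => congrArg Prod.fst e
    have h3 := step_up hc' G (l := i) (by omega)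
    have h4 := (q_bd hv G (l := i) (by omega)).1
    linarith

theorem dn (hc' : CH m K C) (hv : LV m K C c) (hk : MK m K C c') (G : St m K C) {j : ℕ} (hj : j ≤ K) {i : ℕ}
    (h : i ≤ j) : ∑ l ∈ Ico i j, (q G l - 2 * G.e) ≤ hc G.P (G.S i) fun ω => (G.S j ω, G.τ ω) := by
  induction h using Nat.decreasingInduction with
  | self => simpa using hc_nonneg G.P _ _
  | of_succ i hi ih =>
    rw [sum_eq_sum_Ico_succ_bot hi]
    have h1 := hc_pair G.P (G.S (i + 1)) (G.S i) fun ω => (G.S j ω, G.τ ω)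
    have h2 := hc_mono_left G.P (X := fun ω => (G.S (i + 1) ω, G.S i ω)) (X' := G.S i)
      (Y := fun ω => (G.S j ω, G.τ ω)) fun ω ω' _ _ e => by
        have e1 : G.S i ω = G.S i ω' := (Prod.ext_iff.1 e).1
        have e2 : G.τ ω = G.τ ω' := congrArg (fun p => p.2.2) e
        exact Prod.ext (hc'.ups G.toSt0 i (i + 1) ω ω' (by omega) (by omega) e1 (cp_of_τ G _ e2)) e1
    have h3 := hc_mono_right G.P (G.S i) (Y := fun ω => (G.S (i + 1) ω, G.S j ω, G.τ ω))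
      (Y' := fun ω => (G.S (i + 1) ω, G.τ ω)) fun ω ω' _ _ e => by
        have e1 : G.S (i + 1) ω = G.S (i + 1) ω' := (Prod.ext_iff.1 e).1
        have e2 : G.τ ω = G.τ ω' := (Prod.ext_iff.1 e).2
        exact Prod.ext e1 (Prod.ext (hc'.ups G.toSt0 (i + 1) j ω ω' hi hj e1 (cp_of_τ G _ e2)) e2)
    have h4 := step_dn hc' hk G (l := i) (by omega)
    have h5 := (q_bd hv G (l := i) (by omega)).2
    linarith

theorem chain (hc' : CH m K C) (hv : LV m K C c) (hk : MK m K C c') (G : St m K C) {i j : ℕ} (h : i ≤ j)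
    (hj : j ≤ K) :
    |hc G.P (G.S i) (G.S j) - ((m + 2) * ((j : ℝ) - i) - G.ΦA i j - 2 * G.AA i j) * G.lg| ≤ K * (c + 2) * G.e := by
  have h1 := up hc' hv G hj h
  have h2 := (dn hc' hv hk G hj h).trans (hc_mono_right G.P (G.S i) (Y := G.S j)
    (Y' := fun ω => (G.S j ω, G.τ ω)) fun ω ω' _ _ e => congrArg Prod.fst e)
  rw [sum_add_distrib, q_sum G h, sum_const, Nat.card_Ico, nsmul_eq_mul] at h1
  rw [sum_sub_distrib, q_sum G h, sum_const, Nat.card_Ico, nsmul_eq_mul] at h2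
  have h3 : ((j - i : ℕ) : ℝ) ≤ K := by exact_mod_cast (by omega : j - i ≤ K)
  have h4 := hv.c0
  have h5 := G.e1
  have h6 : ((j - i : ℕ) : ℝ) * c ≤ K * c := mul_le_mul_of_nonneg_right h3 h4
  have h7 : ((j - i : ℕ) : ℝ) * (2 * G.e) ≤ K * (2 * G.e) := mul_le_mul_of_nonneg_right h3 (by linarith)
  have h8 : (K : ℝ) * c ≤ K * c * G.e := le_mul_of_one_le_right (by positivity) h5
  have h9 : (0 : ℝ) ≤ K * G.e := mul_nonneg (Nat.cast_nonneg _) (by linarith)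
  have h10 : (0 : ℝ) ≤ K * c := by positivity
  rw [abs_le]
  constructor <;> linarith

theorem amp_le (hv : LV m K C c) (G : St m K C) {j : ℕ} (hj : j ≤ K) :
    2 * Real.log (G.A 0) ≤ 2 * Real.log (G.A j) + (G.ΦA 0 j + G.GA 0 j) * G.lg := by
  induction j with
  | zero => simp [St.ΦA, St.GA]
  | succ j ih =>
    have h0 : 0 < G.lg := by linarith [(hv.lg G).1]
    have h1 : 2 * Real.log (G.A j / G.A (j + 1)) / G.lg - G.g j ≤ G.φ j := le_max_left _ _
    rw [sub_le_iff_le_add, div_le_iff₀ h0,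
      Real.log_div (G.val.pos j (by omega)).ne' (G.val.pos (j + 1) hj).ne'] at h1
    have h2 := ih (by omega)
    unfold St.ΦA St.GA at h2 ⊢
    rw [sum_Ico_succ_top (Nat.zero_le j), sum_Ico_succ_top (Nat.zero_le j)]
    linarith

theorem log_top (hv : LV m K C c) (G : St m K C) :
    Real.log (G.A K ^ 2 * (G.D : ℝ) ^ (K * m)) = 2 * Real.log (G.A K) + K * m * G.lg := by
  have h0 := G.val.pos K le_rfl
  rw [← (hv.lg G).2, Real.log_mul (by positivity) (by positivity), Real.log_pow, Real.log_pow, Real.log_exp]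
  push_cast
  ring

theorem mass (hc' : CH m K C) (hv : LV m K C c) (hk : MK m K C c') (G : St m K C) :
    Real.log (G.A 0 ^ 2 * #(G.V 0)) ≤ G.P.H (G.S K) + Real.log (G.A K ^ 2 * (G.D : ℝ) ^ (K * m)) +
      (2 * K - 2 * G.AA 0 K) * G.lg + (K * (c + 2) + 2 * c') * G.e := by
  have h0 := G.val.pos 0 (Nat.zero_le _)
  have h1 : (0 : ℝ) < #(G.V 0) := by exact_mod_cast G.val.ne.card_pos
  have h2 := amp_le hv G le_rfl
  have h3 := (hk.root G).1
  have h4 := (hk.cap G 0 K (Nat.zero_le _) le_rfl).trans (hc_mono_right G.P (G.cp K) (Y := G.x)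
    (Y' := fun ω => (G.cp 0 ω, G.x ω)) fun ω ω' _ _ e => congrArg Prod.snd e)
  have h5 := H_mono' G.P (X := fun ω => (G.S 0 ω, G.S K ω)) (Y := fun ω => (G.cp K ω, G.x ω)) fun ω ω' _ _ e => by
    have e1 : G.S 0 ω = G.S 0 ω' := (Prod.ext_iff.1 e).1
    have e2 : G.S K ω = G.S K ω' := (Prod.ext_iff.1 e).2
    refine Prod.ext ?_ e1
    show G.cp K ω = G.cp K ω'
    rw [← hc'.c _ _ _ le_rfl, ← hc'.c _ _ _ le_rfl, e2]
  have h6 := (abs_le.1 (chain hc' hv hk G (Nat.zero_le K) le_rfl)).2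
  unfold hc at h4 h6
  rw [log_top hv, Real.log_mul (by positivity) h1.ne', Real.log_pow]
  push_cast at h6 ⊢
  linarith

theorem top (hc' : CH m K C) (hr : RECT m K C) (G : St m K C) :
    0 < G.Q ∧ G.P.H (G.S K) + Real.log (G.A K ^ 2 * (G.D : ℝ) ^ (K * m)) ≤ Real.log (C * G.Q) := by
  obtain ⟨ω₀⟩ := hr.ne G.toSt0
  have h0 := G.val.pos K le_rfl
  have h1 : 0 < #(img (G.S K)) := card_pos.2 ⟨_, mem_img.2 ⟨ω₀, rfl⟩⟩
  have h1' : (0 : ℝ) < #(img (G.S K)) := by exact_mod_cast h1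
  have hD : (0 : ℝ) < G.D := by positivity
  have h2 := G.F.top (img (G.S K)) fun S hS => by
    obtain ⟨ω, rfl⟩ := mem_img.1 hS
    obtain ⟨-, a1, a2⟩ := G.rts (G.x ω) (hc'.mem G.toSt0 0 ω (Nat.zero_le _))
    exact (hc'.T G.toSt0 K ω).trans (Int.ediv_eq_zero_of_lt a1 a2)
  have h3 : (#(img (G.S K)) : ℝ) * G.A K ^ 2 ≤ ∑ S ∈ img (G.S K), G.F.a K S {S.c} ^ 2 := by
    rw [← nsmul_eq_mul]
    refine card_nsmul_le_sum _ _ _ fun S hS => ?_
    obtain ⟨ω, rfl⟩ := mem_img.1 hS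
    have a1 := (G.val.amp K le_rfl _ (hc'.mem G.toSt0 K ω le_rfl)).1
    rw [show UU (2 ^ G.N) K G.V K (G.S K ω) = {(G.S K ω).c} from hr.top G.toSt0 _] at a1
    exact pow_le_pow_left₀ h0.le a1 2
  have h4 : (#(img (G.S K)) : ℝ) * (G.A K ^ 2 * (G.D : ℝ) ^ (K * m)) ≤ C * G.Q := by
    rw [← mul_assoc]
    exact (mul_le_mul_of_nonneg_right h3 (by positivity)).trans h2
  have h5 : 0 < (#(img (G.S K)) : ℝ) * (G.A K ^ 2 * (G.D : ℝ) ^ (K * m)) := by positivity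
  refine ⟨(mul_pos_iff_of_pos_left (by linarith [G.C1])).1 (h5.trans_le h4), ?_⟩
  have h6 := Real.log_le_log h5 h4
  rw [Real.log_mul h1'.ne' (by positivity)] at h6
  linarith [H_le_img G.P (G.S K) h1]

end Std

theorem std : ∀ m, B1 m → ∀ K C, ∃ c, STD m K C c := by
  intro m h K C
  obtain ⟨c, hv⟩ := h.lv K C
  obtain ⟨c', hk⟩ := h.mkv K C
  have h1 := hv.c0
  have h2 := hk.c0
  refine ⟨K * (c + 2) + 2 * c', by positivity, fun G i j hij hj => ?_, Std.mass (h.ch K C) hv hk,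
    Std.top (h.ch K C) (h.rect K C)⟩
  exact (Std.chain (h.ch K C) hv hk G hij hj).trans
    (mul_le_mul_of_nonneg_right (by linarith) (by linarith [G.e1]))

end Vale.Agent.P076N.FL
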