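import Vale.Agent.P076N.FL.Lwj
import Vale.Agent.P076N.AT.Ent

/-!
# P076N / FL : the row TN
-/

set_option linter.all false

open Finset Vale.Agent.P127 Vale.Agent.P127.Stk

namespace Vale.Agent.P076N.FL

section ent

variable {Ω : Type} [Fintype Ω] (P : Law Ω) {S T U V : Type}

/-- `H(X|Z') - H(Z|Z') ≤ H(X|Z)` -/
theorem hc_swap (X : Ω → S) (Z : Ω → T) (Z' : Ω → U) : hc P X Z' ≤ hc P X Z + hc P Z Z' := by
  have h1 := hc_le_add' P X Z Z'
  have h2 := hc_mono_right P X (Y := Z) (Y' := fun ω => (Z ω, Z' ω)) fun ω ω' _ _ h => congrArg Prod.fst h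
  linarith

theorem hc_two (X : Ω → S) (Y : Ω → T) (Z : Ω → U) : hc P (fun ω => (X ω, Y ω)) Z ≤ hc P X Z + hc P Y Z := by
  rw [hc_pair]
  have := hc_mono_right P Y (Y := Z) (Y' := fun ω => (X ω, Z ω)) fun ω ω' _ _ h => congrArg Prod.snd h
  linarith

/-- an almost independent variable may be added to the condition -/
theorem hc_mk {X : Ω → S} {X' : Ω → V} (Y : Ω → T) (Z : Ω → U) (h : Fn P X fun ω => (X' ω, Z ω)) :
    hc P X Z ≤ hc P X (fun ω => (Y ω, Z ω)) + mi P X' Y Z := by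
  have := mi_mono_left P Y h
  unfold mi at this ⊢
  linarith

end ent

variable {m K : ℕ} {C : ℝ}

open Classical in
theorem tn : ∀ m, B1 m → ∀ K C, ∃ c, TN m K C c := by
  intro m b K C
  obtain ⟨c₁, d1⟩ := b.dt1 K C
  obtain ⟨c₂, p2, bk⟩ := b.bk K C c₁
  obtain ⟨c₃, lv⟩ := b.lv K C
  obtain ⟨c₄, mk⟩ := b.mkv K C
  have ch := b.ch K C
  have := d1.c0
  refine ⟨K * (c₁ + c₂ + 2), by positivity, fun G s i i' β Y r jd h1 h2 h3 r0 hY => ?_⟩
  have hK := jd.blk.le
  have hJ := jd.Jj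
  have e1 := G.e1
  -- one level
  have one : ∀ l, i ≤ l → l < i' → ((m : ℝ) - s.k + 2 - 2 * G.a l) * G.lg - (c₁ + c₂ + 2) * (r + G.e) ≤
      hc G.P (fun ω => (G.T l ω, G.Nn s l ω)) fun ω => (G.T (l + 1) ω, G.Nn s (l + 1) ω, Y ω) := by
    intro l a1 a2
    have lK : l < K := by omega
    have s1 := hc_swap G.P (fun ω => (G.T l ω, G.Nn s l ω))
      (fun ω => (G.T (l + 1) ω, G.Nn s (l + 1) ω, Y ω)) fun ω => (G.τ ω, G.S (l + 1) ω)
    have s2 := hc_two G.P (G.T (l + 1)) (fun ω => (G.Nn s (l + 1) ω, Y ω)) fun ω => (G.τ ω, G.S (l + 1) ω)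
    have s3 := hc_two G.P (G.Nn s (l + 1)) Y fun ω => (G.τ ω, G.S (l + 1) ω)
    have s4 : hc G.P (G.T (l + 1)) (fun ω => (G.τ ω, G.S (l + 1) ω)) = 0 :=
      hc_zero G.P fun ω ω' _ _ e => congrArg Nd.T (congrArg Prod.snd e)
    have s5 := (hc_mono_right G.P (G.Nn s (l + 1)) (Y := G.S (l + 1)) (Y' := fun ω => (G.τ ω, G.S (l + 1) ω))
      fun ω ω' _ _ e => congrArg Prod.snd e).trans (d1.nn G s (l + 1) jd (by omega) (by omega))
    have s6 := (hc_mono_right G.P Y (Y := fun ω => (G.S (l + 1) ω, G.τ ω)) (Y' := fun ω => (G.τ ω, G.S (l + 1) ω))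
      fun ω ω' _ _ e => Prod.ext (congrArg Prod.snd e) (congrArg Prod.fst e)).trans (hY (l + 1) (by omega) a2)
    have s7 := hc_pair G.P (G.T l) (G.Nn s l) fun ω => (G.τ ω, G.S (l + 1) ω)
    have s8 := hc_mk G.P (X := G.T l) (X' := G.x) G.τ (G.S (l + 1)) fun ω ω' _ _ e => by
      rw [ch.T, ch.T, show G.x ω = G.x ω' from (Prod.mk.inj e).1]
    have s9 := mk.s G (l + 1) lK
    have t1 := hc_mono_right G.P (G.Nn s l) (Y := fun ω => (G.T l ω, G.τ ω, G.S (l + 1) ω))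
      (Y' := fun ω => (G.τ ω, G.b l ω)) fun ω ω' _ _ e => by
        have e1 : G.τ ω = G.τ ω' := congrArg Prod.fst e
        have e2 : G.b l ω = G.b l ω' := congrArg Prod.snd e
        have e3 : G.T l ω = G.T l ω' := (congrArg Nd.T e2 : (G.b l ω).T = _)
        have e4 := ch.upb G.toSt0 l (l + 1) ω ω' (Nat.lt_succ_self l) lK e2
          (congrArg (cap G.D K (l + 1)) e1)
        simp only [e1, e3, e4]
    have t2 := hc_le_add G.P (G.S l) (G.Nn s l) fun ω => (G.τ ω, G.b l ω)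
    have t3 := hc_mk G.P (X := G.S l) (X' := G.x) G.τ (G.b l) fun ω ω' _ _ e => by
      have e1 : G.S 0 ω = G.S 0 ω' := (Prod.mk.inj e).1
      have e2 : (G.S l ω).c = (G.S l ω').c := (congrArg Nd.c (Prod.mk.inj e).2 : (G.b l ω).c = _)
      rw [ch.c _ _ _ lK.le, ch.c _ _ _ lK.le] at e2
      exact ch.ups G.toSt0 0 l ω ω' (Nat.zero_le l) lK.le e1 e2
    have t4 := mk.b G l lK
    have t5 : hc G.P (G.S l) (fun ω => (G.Nn s l ω, G.τ ω, G.b l ω)) ≤ c₂ + (s.k - G.φ l) * G.lg := by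
      rw [← Real.log_exp (c₂ + _)]
      refine AT.hc_le_logR G.P _ _ _ fun ω _ =>
        ⟨_, bk G s.k s.J s.W _ l ω (toV (G.S l ω).o) jd.blk (by omega) (by omega), fun ω' _ e => ?_⟩
      have q1 : G.b l ω' = G.b l ω := (Prod.mk.inj (Prod.mk.inj e).2).2
      exact mem_filter.2 ⟨ch.mem _ _ _ lK.le, q1,
        d1.win G s l ω ω' jd (by omega) (by omega) q1.symm (Prod.mk.inj e).1.symm⟩
    have u1 := (lv.a1 G l lK).1
    have u2 : G.δ l * G.lg = (m - G.φ l) * G.lg - G.sE l := by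
      have := G.lg_pos
      unfold St.δ; field_simp
    have u3 : 0 ≤ (c₁ + c₂ + 1) * r := by positivity
    have u4 : c₁ + c₂ ≤ (c₁ + c₂) * G.e := le_mul_of_one_le_right (by positivity) e1
    unfold St.tE at u1
    unfold St.sE at u2
    linarith
  have main : ∀ n l, i ≤ l → l + n = i' →
      (((m : ℝ) - s.k + 2) * n - 2 * G.AA l i') * G.lg - n * ((c₁ + c₂ + 2) * (r + G.e)) ≤
      hc G.P (fun ω => (G.T l ω, G.Nn s l ω)) fun ω => (G.T i' ω, G.Nn s i' ω, Y ω) := by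
    intro n
    induction n with
    | zero =>
      intro l _ a
      obtain rfl : l = i' := a
      simpa [St.AA] using hc_nonneg G.P _ _
    | succ n ih =>
      intro l a1 a2
      have A := ih (l + 1) (by omega) (by omega)
      have B := one l a1 (by omega)
      have D := hc_pair G.P (fun ω => (G.T (l + 1) ω, G.Nn s (l + 1) ω)) (fun ω => (G.T l ω, G.Nn s l ω))
        fun ω => (G.T i' ω, G.Nn s i' ω, Y ω)
      have nT : ∀ a a' ω ω', a ≤ a' → G.T a ω = G.T a ω' → G.T a' ω = G.T a' ω' := fun a a' ω ω' q e => by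
        obtain ⟨d, rfl⟩ := Nat.exists_eq_add_of_le q
        rw [ch.T, ch.T] at e ⊢
        rw [mul_add, pow_add, ← Int.ediv_ediv_of_nonneg (by positivity), e,
          Int.ediv_ediv_of_nonneg (by positivity)]
      have E := hc_mono_left G.P (X := fun ω => ((G.T (l + 1) ω, G.Nn s (l + 1) ω), (G.T l ω, G.Nn s l ω)))
        (X' := fun ω => (G.T l ω, G.Nn s l ω)) (Y := fun ω => (G.T i' ω, G.Nn s i' ω, Y ω)) fun ω ω' _ _ e => by
          have e1 : G.T l ω = G.T l ω' := congrArg (fun p => p.1.1) e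
          have e2 : G.Nn s l ω = G.Nn s l ω' := congrArg (fun p => p.1.2) e
          simp only [e1, e2, nT l (l + 1) ω ω' (Nat.le_succ l) e1, d1.nest G s l (l + 1) ω ω' (Nat.le_succ l) e2]
      have F := hc_mono_right G.P (fun ω => (G.T l ω, G.Nn s l ω))
        (Y := fun ω => ((G.T (l + 1) ω, G.Nn s (l + 1) ω), G.T i' ω, G.Nn s i' ω, Y ω))
        (Y' := fun ω => (G.T (l + 1) ω, G.Nn s (l + 1) ω, Y ω)) fun ω ω' _ _ e => by
          have e1 : G.T (l + 1) ω = G.T (l + 1) ω' := congrArg (fun p => p.1) e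
          have e2 : G.Nn s (l + 1) ω = G.Nn s (l + 1) ω' := congrArg (fun p => p.2.1) e
          have e3 : Y ω = Y ω' := congrArg (fun p => p.2.2) e
          simp only [e1, e2, e3, nT (l + 1) i' ω ω' (by omega) e1, d1.nest G s (l + 1) i' ω ω' (by omega) e2]
      have H : G.AA l i' = G.a l + G.AA (l + 1) i' := sum_eq_sum_Ico_succ_bot (by omega) _
      rw [H]
      push_cast
      linarith
  obtain ⟨n, rfl⟩ := Nat.exists_eq_add_of_le h2
  have A := main n i le_rfl rfl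
  have : (n : ℝ) * ((c₁ + c₂ + 2) * (r + G.e)) ≤ K * ((c₁ + c₂ + 2) * (r + G.e)) :=
    mul_le_mul_of_nonneg_right (by exact_mod_cast (by omega : n ≤ K)) (by positivity)
  push_cast
  rw [add_sub_cancel_left]
  linarith

end Vale.Agent.P076N.FL
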