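import Vale.Agent.P076N.FL.Spec
import Vale.Agent.P076N.RG.Lib

/-!
# P076N / FL : the row TSA, elementary facts on tube systems
-/

set_option linter.all false

open Finset Vale.Agent.P127 Vale.Agent.P127.Stk

namespace Vale.Agent.P076N.FL

namespace Tsa

theorem fl (k : ℕ) (ρ c : ℝ) (x x' : Vc k) (hρ : 0 < ρ) (h : ∀ l, |x l - x' l| ≤ c * ρ) (l : Fin k) :
    |(flv ρ x l : ℝ) - flv ρ x' l| ≤ c + 1 := by
  refine RG.floor_sub_le ?_
  rw [← sub_div, abs_div, abs_of_pos hρ, div_le_iff₀ hρ]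
  exact h l

theorem fl' (k : ℕ) (ρ : ℝ) (x x' : Vc k) (hρ : 0 < ρ) (h : flv ρ x = flv ρ x') (l : Fin k) : |x l - x' l| ≤ ρ :=
  RG.floor_eq_close hρ (congrFun h l)

variable {k : ℕ} {Ω : Type} [Fintype Ω] (S : TSys Ω k)

theorem tm_add (p r : ℕ) (ω : Ω) : S.tm (p + r) ω = S.tm p ω / 2 ^ r := RG.floor_div_add _ p r

theorem cel_add (p r : ℕ) (ω : Ω) : S.cel (p + r) ω = (dv (2 ^ r) (S.cel p ω).1, (S.cel p ω).2 / 2 ^ r) :=
  Prod.ext (funext fun l => RG.floor_div_add _ p r) (tm_add S p r ω)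

theorem mem_cell {a b : ℤ} {r : ℕ} (h : a / 2 ^ r = b) : a ∈ Finset.Ico (2 ^ r * b) (2 ^ r * b + 2 ^ r) := by
  have h0 : (0 : ℤ) < 2 ^ r := by positivity
  have h1 := Int.mul_ediv_add_emod a (2 ^ r)
  have h2 := Int.emod_nonneg a h0.ne'
  have h3 := Int.emod_lt_of_pos a h0
  rw [h] at h1
  exact mem_Ico.2 ⟨by linarith, by linarith⟩

theorem card_cell (b : ℤ) (r : ℕ) : #(Finset.Ico (2 ^ r * b) (2 ^ r * b + 2 ^ r)) = 2 ^ r := by
  rw [Int.card_Ico, add_sub_cancel_left]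
  exact_mod_cast Int.toNat_natCast (2 ^ r)

theorem num [DecidableEq (Zv k × ℤ)] (p r : ℕ) (E : Finset Ω) :
    #(E.image (S.cel p)) ≤ 2 ^ ((k + 1) * r) * #(E.image (S.cel (p + r))) := by
  refine card_le_mul_card_image_of_maps_to (f := fun a : Zv k × ℤ => (dv (2 ^ r) a.1, a.2 / 2 ^ r))
    (fun a ha => ?_) _ fun b _ => ?_
  · obtain ⟨ω, hω, rfl⟩ := mem_image.1 ha
    exact mem_image.2 ⟨ω, hω, cel_add S p r ω⟩
  · refine (card_le_card (t := (Fintype.piFinset fun l => Finset.Ico (2 ^ r * b.1 l) (2 ^ r * b.1 l + 2 ^ r)) ×ˢ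
      Finset.Ico (2 ^ r * b.2) (2 ^ r * b.2 + 2 ^ r)) fun a ha => ?_).trans (le_of_eq ?_)
    · have h := Prod.ext_iff.1 (mem_filter.1 ha).2
      exact mem_product.2 ⟨Fintype.mem_piFinset.2 fun l => mem_cell (congrFun h.1 l), mem_cell h.2⟩
    · rw [card_product, Fintype.card_piFinset, card_cell]
      simp only [card_cell, prod_const, card_univ, Fintype.card_fin]
      ring

theorem cel (h : ENT) {Cu : ℝ} {p q : ℕ} (hb : S.Bnd Cu) (hpq : p ≤ q) :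
    hc S.P (S.cel q) (fun ω => (S.tm q ω, S.tub p ω)) ≤ k * Real.log (2 * (1 + |Cu| + 1) + 1) := by
  refine (hc_mono_left S.P (X' := fun ω => flv (2 ^ q) (S.x ω)) fun ω ω' _ _ e => ?_).trans
    (h.det Ω _ S.P k _ _ _ (by positivity) fun ω ω' hω hω' e => fl k _ _ _ _ (by positivity) fun l => ?_)
  · have e1 := Prod.ext_iff.1 e
    exact Prod.ext e1.1 (Prod.ext_iff.1 e1.2).1
  · have e1 := Prod.ext_iff.1 e
    have e2 := Prod.ext_iff.1 e1.2
    have e3 : S.u ω = S.u ω' := e2.1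
    have a1 := fl' k _ _ _ (by positivity) e2.2 l
    have a2 : |S.t ω - S.t ω'| ≤ 2 ^ q := RG.floor_eq_close (by positivity) e1.1
    have a3 : |S.u ω l| ≤ |Cu| := (RG.coord_le_norm _ l).trans ((hb ω hω).trans (le_abs_self _))
    have a4 : (2 : ℝ) ^ p ≤ 2 ^ q := pow_le_pow_right₀ (by norm_num) hpq
    have a5 : |(S.t ω - S.t ω') * S.u ω l| ≤ 2 ^ q * |Cu| := by
      rw [abs_mul]
      exact mul_le_mul a2 a3 (abs_nonneg _) (by positivity)
    simp only [PiLp.sub_apply, PiLp.smul_apply, smul_eq_mul, ← e3] at a1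
    rw [abs_le] at a1 a5 ⊢
    constructor <;> linarith

end Tsa

theorem tsa : ENT → TSA := by
  intro h
  refine ⟨Tsa.fl, Tsa.fl', fun k Ω _ S p q hpq ω ω' => ?_, fun k Ω _ S p q E hpq => ?_, fun k Cu =>
    ⟨_, mul_nonneg (Nat.cast_nonneg k) (Real.log_nonneg (by linarith [abs_nonneg Cu])),
      fun Ω _ S p q hb hpq => Tsa.cel S h hb hpq⟩⟩
  · obtain ⟨r, rfl⟩ := Nat.exists_eq_add_of_le hpq
    exact ⟨fun e => by rw [Tsa.tm_add, Tsa.tm_add, e], fun e => by rw [Tsa.cel_add, Tsa.cel_add, e]⟩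
  · obtain ⟨r, rfl⟩ := Nat.exists_eq_add_of_le hpq
    rw [Nat.add_sub_cancel_left]
    exact_mod_cast Tsa.num S p r E

end Vale.Agent.P076N.FL
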