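import Vale.Agent.P076N.FL.A2
import Vale.Agent.P076N.FL.A3d
import Vale.Agent.P076N.FL.A3p
import Vale.Agent.P076N.FL.Apx
import Vale.Agent.P076N.FL.Bk
import Vale.Agent.P076N.FL.Blk
import Vale.Agent.P076N.FL.Brd
import Vale.Agent.P076N.FL.Ch
import Vale.Agent.P076N.FL.Dec
import Vale.Agent.P076N.FL.Dt1
import Vale.Agent.P076N.FL.Dt2
import Vale.Agent.P076N.FL.Dt3
import Vale.Agent.P076N.FL.Ent1
import Vale.Agent.P076N.FL.Ent2
import Vale.Agent.P076N.FL.Flx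
import Vale.Agent.P076N.FL.Glu
import Vale.Agent.P076N.FL.Gp
import Vale.Agent.P076N.FL.Ht
import Vale.Agent.P076N.FL.Jmp
import Vale.Agent.P076N.FL.Lat1
import Vale.Agent.P076N.FL.Lat2
import Vale.Agent.P076N.FL.Lt1
import Vale.Agent.P076N.FL.Lt2
import Vale.Agent.P076N.FL.Lt3
import Vale.Agent.P076N.FL.LtB
import Vale.Agent.P076N.FL.Lv
import Vale.Agent.P076N.FL.Lwj
import Vale.Agent.P076N.FL.Mk
import Vale.Agent.P076N.FL.Nr
import Vale.Agent.P076N.FL.Pjj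
import Vale.Agent.P076N.FL.Rc
import Vale.Agent.P076N.FL.Rect
import Vale.Agent.P076N.FL.Reg
import Vale.Agent.P076N.FL.Rega
import Vale.Agent.P076N.FL.Rng
import Vale.Agent.P076N.FL.Rot
import Vale.Agent.P076N.FL.Set
import Vale.Agent.P076N.FL.Std
import Vale.Agent.P076N.FL.Tn
import Vale.Agent.P076N.FL.Tsa
import Vale.Agent.P076N.AT.Main

/-!
# P076N / FL : assembly of the blocks FL and AT (the fields `at1 .. at4` of `Blocks`)
-/

set_option linter.all false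

namespace Vale.Agent.P076N.FL

theorem sig : Sig :=
  ⟨⟨ent_low, ent_evt, ent_rect, ent_det, ent_num, ent_flat, ent_glue⟩, rega,
    ⟨lat_strip, lat_root, lat_wga, lat_gph⟩, nr, tsa, rot, chn, rect, rcn, blk, apx, dt1, dt2, dt3, bk, lv, mkv, brd,
    reg, std, tn, dec, ht, gl, gp, lt1, lt2, lt3, jmp, pjj, a3p, set, lwj, lwa, rc, rng, flx, a2, a3d,
    AT.at1, AT.at2, AT.at3, AT.at4⟩

theorem fin1 : ∀ m, 2 ≤ m → StVS m → (∀ k, StLW k) → (∀ k, StPJ k) → (∀ k, 1 ≤ k → StRING k) → N1 m → AT1 m :=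
  sig.at1'

theorem fin2 : ∀ m, 3 ≤ m → StVS m → (∀ k, StLW k) → (∀ k, StPJ k) → (∀ k, 1 ≤ k → StRING k) → StPLAN m → N2 m →
    AT2 m := sig.at2'

theorem fin3 : ∀ m, 2 ≤ m → StVS m → (∀ k, StLW k) → (∀ k, StPJ k) → (∀ k, 1 ≤ k → StRING k) → N3 m → AT3 m :=
  sig.at3'

theorem fin4 : ∀ m, 2 ≤ m → StVS m → (∀ k, StLW k) → (∀ k, StPJ k) → (∀ k, 1 ≤ k → StRING k) → N3 m → AT4 m :=
  sig.at4'

end Vale.Agent.P076N.FL
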