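import Vale.Agent.P076N.FL.Spec

/-!
# P076N / FL : the row FLX
-/

set_option linter.all false

open Finset Vale.Agent.P127 Vale.Agent.P127.Stk

namespace Vale.Agent.P076N.FL

theorem fin_min {ι : Type} (s : Finset ι) (p : ι → ℝ → Prop) (h : ∀ a ∈ s, ∃ θ, 0 < θ ∧ p a θ) :
    ∃ θ₀ : ℝ, 0 < θ₀ ∧ ∀ a ∈ s, ∃ θ, θ₀ ≤ θ ∧ p a θ := by
  classical
  induction s using Finset.induction_on with
  | empty => exact ⟨1, one_pos, by simp⟩
  | insert a s _ ih =>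
    obtain ⟨θ₀, h0, h1⟩ := ih fun b hb => h b (mem_insert_of_mem hb)
    obtain ⟨θ, h2, h3⟩ := h a (mem_insert_self _ _)
    refine ⟨min θ₀ θ, lt_min h0 h2, fun b hb => ?_⟩
    rcases mem_insert.1 hb with rfl | hb
    · exact ⟨θ, min_le_right _ _, h3⟩
    · obtain ⟨θ', h4, h5⟩ := h1 b hb
      exact ⟨θ', (min_le_left _ _).trans h4, h5⟩

theorem dflt {p : Prop} {R : ℕ → ℕ → ℝ → Prop} (h : p → ∃ M y er, 1 ≤ M ∧ 0 < er ∧ R M y er) :
    ∃ M y er, 1 ≤ M ∧ 0 < er ∧ (p → R M y er) := by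
  by_cases hp : p
  · obtain ⟨M, y, er, a, b, c⟩ := h hp
    exact ⟨M, y, er, a, b, fun _ => c⟩
  · exact ⟨1, 0, 1, le_rfl, one_pos, fun h => absurd h hp⟩

variable {m K : ℕ} {C : ℝ}

theorem St0.lg_pos (G : St0 m K C) : 0 < G.lg := by
  have : (0 : ℝ) < G.N := by exact_mod_cast (by have := G.N4; omega : 0 < G.N)
  exact mul_pos this (Real.log_pos one_lt_two)

theorem St.Sm.mono {G : St m K C} {θ θ' β : ℝ} (h : G.Sm θ β) (hθ : θ ≤ θ') : G.Sm θ' β :=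
  ⟨h.1.trans (mul_le_mul_of_nonneg_right hθ G.lg_pos.le), h.2.trans hθ⟩

theorem act_blk {π : Par} (hb : BLK m π.K C) {G : St m π.K C} {β cn : ℝ} (ty : G.Typ π.Tr β) {k J W : ℕ}
    (h : (G.dat cn).Act m π k J W) : G.Blk k J W (G.pn k J W) := by
  rcases h with ⟨rfl, rfl, rfl⟩ | ⟨h1, h2, h3, h4, h5⟩
  · exact hb.all _
  · exact hb.nar _ _ _ _ h2.le h4 h3 (ty _ h1 h4 h3).1 h5

theorem jp_jd {π : Par} (hb : BLK m π.K C) {G : St m π.K C} {β cn : ℝ} (ty : G.Typ π.Tr β) {s : Jm}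
    (h : (G.dat cn).Jp m π s) : G.Jd s ∧ Brd G.D π.K G.V β (s.k - 1) s.j s.w := by
  obtain ⟨h1, h2, h3, h4, h5, h6, h7⟩ := h
  have b := act_blk hb ty h1
  have hl : s.j + s.w ≤ π.K := by have := b.le; omega
  have t := ty _ h3 hl h7
  exact ⟨⟨b, h2, h5, h6, h7, hb.cons _ _ _ hl h7 t.1⟩, t.2.resolve_left h4⟩

theorem jp_top {π : Par} {d : Dat} {s : Jm} (h : d.Jp m π s) (hk : s.k = m) : s.J + s.W = π.K := by
  rcases h.1 with ⟨_, h1, h2⟩ | ⟨_, h1, _⟩ <;> omega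

theorem flx : ∀ m, B2 m → (∀ K C, ∃ c, JMP m K C c) → (∀ K C, ∃ c, PJJ m K C c) → (∀ K C, GP m K C) →
    LWA m → RNG m → FLX m := by
  intro m b hj hp hg hl hr
  choose! Ml hMl using hl
  have hr' := fun γ σ : ℝ => dflt fun h : 0 < γ ∧ 0 < σ => hr γ σ h.1 h.2
  choose M y₀ er hM her hR using hr'
  refine ⟨⟨Ml, M, y₀, er, her, hM⟩, fun π ⟨hK, ho, hE⟩ C B hB => ?_⟩
  obtain ⟨c₁, lv⟩ := b.lv π.K C
  obtain ⟨c₂, sd⟩ := b.std π.K C
  obtain ⟨c₃, dc⟩ := b.dec π.K C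
  obtain ⟨c₄, jm⟩ := hj π.K C
  obtain ⟨c₅, p0, pj⟩ := hp π.K C
  have gl := b.gl π.K C
  have bl := b.blk π.K C
  have cn0 : (0 : ℝ) ≤ max 3 c₄ := le_trans (by norm_num) (le_max_left _ _)
  obtain ⟨c₆, g0, pth⟩ := gl.path _ cn0
  obtain ⟨c₇, q0, gp1, gp2⟩ := hg π.K C c₆ B g0 hB
  obtain ⟨θ₁, t1, hθ₁⟩ := fin_min π.E _ fun ε hε => hMl ε (hE ε hε) π.K C
  obtain ⟨θ₂, t2, hθ₂⟩ := fin_min (π.E ×ˢ π.E) _ fun a ha =>
    hR a.1 a.2 ⟨hE _ (mem_product.1 ha).1, hE _ (mem_product.1 ha).2⟩ π.K C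
  have := lv.c0; have := sd.c0; have := jm.c0
  have hc : 0 < c₁ + c₂ + c₄ + c₅ + c₆ + c₇ + 1 := by positivity
  refine ⟨max 3 c₄, min (min θ₁ θ₂) (π.o / (c₁ + c₂ + c₄ + c₅ + c₆ + c₇ + 1)),
    cn0, lt_min (lt_min t1 t2) (div_pos ho hc), fun G β gr sm ty fl wg hgr => ?_⟩
  have l0 := G.lg_pos
  have e1 := G.e1
  have key : (c₁ + c₂ + c₄ + c₅ + c₆ + c₇ + 1) * G.e ≤ π.o * G.lg := by
    have h := (sm.mono (min_le_right _ _)).1
    rw [div_mul_eq_mul_div, le_div_iff₀ hc] at h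
    linarith
  have k1 : ∀ c, 0 ≤ c → c ≤ c * G.e := fun c h => le_mul_of_one_le_right h e1
  have k2 : ∀ c, 0 ≤ c → 0 ≤ c * G.e := fun c h => by positivity
  have := k1 _ lv.c0; have := k1 _ g0; have := k1 _ q0
  have := k2 _ lv.c0; have := k2 _ sd.c0; have := k2 _ jm.c0; have := k2 _ p0; have := k2 _ g0
  have := k2 _ q0
  have jd := fun s => jp_jd (cn := max 3 c₄) (s := s) bl ty
  refine ⟨fun i _ => lv.a0 G i, fun i hi => ⟨(lv.g0 G i hi).1, ?_⟩, fun k J W i ha h1 h2 => ?_,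
    fun i j z h => ⟨h.1, h.2.1⟩, fun i hi => ⟨Nat.lt_succ_self i, hi, ?_⟩, fun s x h _ _ => ?_,
    fun s x h h1 h2 => ?_, fun ε hε s x x' h h1 h2 h3 h4 h5 => ?_,
    fun γ hγ σ hσ s x₀ y κ h h1 h2 h3 h4 h5 h6 h7 h8 h9 => ?_,
    fun s x₀ x₁ x₂ g h hk h1 h2 h3 h4 h5 h6 h7 => ?_, fun s x h hk h1 h2 => ?_, fun ρ z h hp => ?_,
    fun s x z hg h hk h1 h2 hp => ?_⟩
  · have := (lv.g0 G i hi).2
    exact le_of_mul_le_mul_right (show G.φ i * G.lg ≤ (G.g i + π.o) * G.lg by linarith) l0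
  · have := lv.ty G k J W _ i (act_blk bl ty ha) h1 h2
    exact le_of_mul_le_mul_right (show G.g i * G.lg ≤ (k + π.o) * G.lg by linarith) l0
  · refine gl.mono G _ _ _ _ _ _ _ _ (le_max_left _ _) le_rfl hi.le ?_ (gl.std G i i (i + 1) (Nat.le_succ i) hi)
    have h := (abs_le.1 (sd.ch G i (i + 1) (Nat.le_succ i) hi)).1
    simp only [St.ΦA, St.AA, Nat.Ico_succ_singleton, sum_singleton] at h
    show ((m + 2) * (((i + 1 : ℕ) : ℝ) - i) - (G.φ i + 2 * G.a i + π.o)) * G.lg ≤ _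
    linarith
  · exact (dc.top G s x (jd s h).1).trans (le_add_of_nonneg_right ho.le)
  · have d := (jd s h).1
    have := d.blk.le
    have := d.w1
    refine ⟨by omega, by omega, gl.mono G _ _ _ _ _ _ _ _ (le_max_right _ _) le_rfl (by omega) ?_
      (jm.jmp G s x d h1 h2)⟩
    show ((m + 2) * (((s.j + 2 * x : ℕ) : ℝ) - s.j) -
      (G.cost s x + 2 * G.AA (s.j + x) (s.j + 2 * x) + π.o)) * G.lg ≤ _
    push_cast
    linarith
  · obtain ⟨θ, h6, h7⟩ := hθ₁ ε hε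
    exact h7 G s x x' β (sm.mono ((min_le_left _ _).trans ((min_le_left _ _).trans h6))) (jd s h).1 (jd s h).2
      h1 h2 h3 h4 h5
  · obtain ⟨θ, a1, a2⟩ := hθ₂ (γ, σ) (mem_product.2 ⟨hγ, hσ⟩)
    exact a2 G s x₀ y κ β (sm.mono ((min_le_left _ _).trans ((min_le_right _ _).trans a1))) fl (jd s h).1
      (jd s h).2 h1 h2 h3 h4 h5 h6 h7 h8 h9
  · have := pj G s x₀ x₁ x₂ g (jd s h).1 hk h1 h2 h3 h4 (by rw [jp_top h hk]; exact h5) h6 h7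
    exact le_of_mul_le_mul_right (show G.GA s.j (s.j + 2 * (x₁ - x₀)) * G.lg ≤
      (2 * m * ((x₂ : ℝ) - x₀) - (G.cost s x₂ - G.cost s x₀) + 2 * G.AA (s.j + x₀) (s.j + x₂) +
        2 * m * g * ((x₁ : ℝ) - x₀) + π.o) * G.lg by linarith) l0
  · have := jm.bp G s x (jd s h).1 hk h1 (by rw [jp_top h hk]; exact h2)
    exact le_of_mul_le_mul_right (show G.cost s x * G.lg ≤
      (G.ΦA s.j (s.j + 2 * x) + 2 * G.AA s.j (s.j + 2 * x) + π.o) * G.lg by linarith) l0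
  · have hρ : ρ ≤ π.K := by omega
    have := gp1 G 0 ρ _ wg hρ (pth G 0 ρ z hp hρ).2
    push_cast at this
    exact le_of_mul_le_mul_right (show (ρ : ℝ) * G.lg ≤ (z + π.o) * G.lg by linarith) l0
  · have := gp2 G 0 s x _ (hgr hg) (jd s h).1 h1 (pth G 0 s.j z hp (by omega)).2
    have hx : G.cost s x * G.lg = 2 * (m + 1) * x * G.lg - Stk.hc G.P (G.S s.j) (G.st s x) := by
      unfold St.cost
      rw [show (s.k : ℝ) = m by rw [hk]]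
      field_simp
      ring
    push_cast at this
    exact le_of_mul_le_mul_right (show ((s.j : ℝ) + 2 * x) * G.lg ≤ (z + G.cost s x + π.o) * G.lg by linarith) l0

end Vale.Agent.P076N.FL
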