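import Vale.Agent.P076N.FL.Spec

/-!
# P076N / FL : the row PJJ (pair counting for a jump)
-/

set_option linter.all false

open Finset Vale.Agent.P127 Vale.Agent.P127.Stk

namespace Vale.Agent.P076N.FL

noncomputable section

namespace Pjjx

theorem rest {g g' u Cp m K d r l n : ℝ} (h0 : 0 ≤ g') (h1 : g' ≤ g) (h2 : g' ≤ 1 + m / 2) (hu : 0 ≤ u)
    (hC : 0 ≤ Cp) (hm : 0 ≤ m) (hd : 1 ≤ d) (hr : 0 ≤ r) (hK : r ≤ K) (hl : 1 ≤ l) (hn : l ≤ n) :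
    (g' + u / (2 * d * l) + Cp / (2 * d * n)) * (m * (2 * r * l) + Cp) ≤
      2 * m * g * r * l + (1 + m / 2) * Cp + (u + Cp) * (m * K + Cp) := by
  have hl0 : 0 < l := by linarith
  have a1 : u / (2 * d * l) ≤ u / (2 * l) :=
    div_le_div_of_nonneg_left hu (by positivity) (by nlinarith)
  have a2 : Cp / (2 * d * n) ≤ Cp / (2 * l) :=
    div_le_div_of_nonneg_left hC (by positivity) (by nlinarith)
  have a3 : 0 ≤ m * (2 * r * l) + Cp := by positivity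
  have a4 : (u / (2 * l) + Cp / (2 * l)) * (m * (2 * r * l) + Cp) = (u + Cp) * (m * r + Cp / (2 * l)) := by
    field_simp
  have a5 : Cp / (2 * l) ≤ Cp := div_le_self hC (by linarith)
  have a6 : (u + Cp) * (m * r + Cp / (2 * l)) ≤ (u + Cp) * (m * K + Cp) := by gcongr
  have a7 : g' * (m * (2 * r * l)) ≤ g * (m * (2 * r * l)) := by gcongr
  have a8 : g' * Cp ≤ (1 + m / 2) * Cp := by gcongr
  have a9 := mul_le_mul_of_nonneg_right (add_le_add a1 a2) a3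
  nlinarith

theorem aa_le {m K : ℕ} {C : ℝ} (G : St m K C) (b : ℝ) (h : ∀ i, G.a i ≤ b) (j x x' : ℕ) (hx : x ≤ x') :
    G.AA (j + x) (j + x') ≤ b * ((x' : ℝ) - x) := by
  unfold St.AA
  refine (Finset.sum_le_card_nsmul _ _ b fun i _ => h i).trans_eq ?_
  rw [Nat.card_Ico, nsmul_eq_mul, Nat.add_sub_add_left, Nat.cast_sub hx, mul_comm]

end Pjjx

open Pjjx

theorem pjj : ∀ m, B2 m → StPJ m → ∀ K C, ∃ c, PJJ m K C c := by
  intro m hB hP K C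
  obtain ⟨Cp, hCp, H⟩ := hP m
  obtain ⟨c1, h1⟩ := hB.ht K C
  obtain ⟨c2, h2⟩ := hB.dec K C
  obtain ⟨c3, h3⟩ := hB.lv K C
  obtain ⟨c4, h4⟩ := hB.apx K C
  have hc1 := h1.c0
  have hc2 := h2.c0
  have hm0 : (0 : ℝ) ≤ m := Nat.cast_nonneg _
  have hK0 : (0 : ℝ) ≤ K := Nat.cast_nonneg _
  refine ⟨c2 + 2 * c1 + (1 + m / 2) * Cp + (c1 + Cp) * (m * K + Cp) + Cp, by positivity, ?_⟩
  intro G s x₀ x₁ x₂ g hs hk hw h01 h12 h20 hJ hg hA
  obtain ⟨k, J, W, j, w⟩ := s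
  obtain rfl : m = k := hk.symm
  set s : Jm := ⟨m, J, W, j, w⟩ with hsd
  have hle : s.J + s.W ≤ K := hs.blk.le
  have hlg : G.lg = G.N * Real.log 2 := rfl
  have hl1 := (h3.lg G).1
  have he1 := G.e1
  have hNp : 0 < G.N := by have := G.N4; omega
  have hln : G.lg ≤ G.N := by
    rw [hlg]
    have := Real.log_two_lt_d9
    have : (0 : ℝ) ≤ G.N := Nat.cast_nonneg _
    nlinarith
  have hd : (1 : ℝ) ≤ (x₂ : ℝ) - x₁ := by
    have : ((x₁ + 1 : ℕ) : ℝ) ≤ x₂ := by exact_mod_cast h12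
    push_cast at this
    linarith
  have hr : (0 : ℝ) ≤ (x₁ : ℝ) - x₀ := sub_nonneg.2 (by exact_mod_cast h01)
  have hrK : (x₁ : ℝ) - x₀ ≤ K := by
    have : (x₁ : ℝ) ≤ K := by exact_mod_cast (by omega : x₁ ≤ K)
    have : (0 : ℝ) ≤ x₀ := Nat.cast_nonneg _
    linarith
  obtain ⟨g', g0, g1, g2, g3⟩ : ∃ g' : ℝ, 0 ≤ g' ∧ g' ≤ g ∧ g' ≤ 1 + m / 2 ∧
      G.AA (s.j + x₁) (s.j + x₂) ≤ g' * ((x₂ : ℝ) - x₁) := by
    refine ⟨min g (1 + m / 2), le_min hg (by positivity), min_le_left _ _, min_le_right _ _, ?_⟩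
    rcases min_choice g (1 + (m : ℝ) / 2) with h | h <;> rw [h]
    · exact hA
    · exact aa_le G _ (fun i => (h3.a0 G i).2) _ _ _ h12.le
  have t1 := h1.two G s x₀ x₁ x₂ hs rfl hw h01 h12.le h20 hJ
  have t2 := h1.two G s x₀ x₀ x₂ hs rfl hw le_rfl (by omega) h20 hJ
  have t3 := h1.dir G s x₀ (2 * (x₁ - x₀)) hs (by omega)
  have t4 := (abs_le.1 (h2.dec G s x₀ x₂ hs hw (by omega))).2
  have t5 := (h2.nu G s x₀ x₂ hs (by omega)).1
  have hba : ((G.bt x₂ : ℕ) : ℝ) - (G.bt x₁ : ℕ) = 2 * ((x₂ : ℝ) - x₁) * G.N := by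
    push_cast
    ring
  have hap : ((G.bt x₁ : ℕ) : ℝ) - (G.bt x₀ : ℕ) = 2 * ((x₁ : ℝ) - x₀) * G.N := by
    push_cast
    ring
  have hu : 0 ≤ c1 * G.e := by positivity
  have k := H (G.bt x₀) (G.bt x₁) (G.bt x₂) (g' + c1 * G.e / (2 * ((x₂ : ℝ) - x₁) * G.lg)) G.Ω (G.tS s x₀)
    (Nat.mul_le_mul_right _ (by omega)) (Nat.mul_lt_mul_of_pos_right (by omega) hNp) (by positivity)
    (h4.bnd G s x₀ hs) ?_
  · have e1 : G.bt x₁ - G.bt x₀ = 2 * (x₁ - x₀) * G.N := by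
      rw [← Nat.sub_mul, ← Nat.mul_sub]
    have e2 : (m : ℝ) * (2 * ((x₁ : ℝ) - x₀) * G.N) * Real.log 2 = m * (2 * ((x₁ : ℝ) - x₀) * G.lg) := by
      rw [hlg]
      ring
    rw [e1, hba, hap, e2] at k
    have r := rest g0 g1 g2 hu hCp hm0 hd hr hrK hl1 hln
    have t6 : hc G.P ((G.tS s x₀).dir (2 * (x₁ - x₀) * G.N)) (G.ξ s) =
        hc (G.tS s x₀).P ((G.tS s x₀).dir (2 * (x₁ - x₀) * G.N)) (G.tS s x₀).ξ := rfl
    have e3 : (s.k : ℝ) = m := rfl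
    rw [e3] at t4
    have b0 : 0 ≤ (m : ℝ) * K + Cp := by positivity
    have b1 : (c2 + (1 + m / 2) * Cp + Cp * (m * K + Cp) + Cp) * 1 ≤
        (c2 + (1 + m / 2) * Cp + Cp * (m * K + Cp) + Cp) * G.e :=
      mul_le_mul_of_nonneg_left he1 (by positivity)
    linarith
  · rw [hba, mul_assoc, mul_assoc (2 * ((x₂ : ℝ) - x₁)), ← hlg]
    refine le_trans ?_ t1
    have p0 : 0 < 2 * ((x₂ : ℝ) - x₁) * G.lg := by positivity
    have e4 : (1 - (g' + c1 * G.e / (2 * ((x₂ : ℝ) - x₁) * G.lg))) * (2 * ((x₂ : ℝ) - x₁) * G.lg) =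
        (1 - g') * (2 * ((x₂ : ℝ) - x₁) * G.lg) - c1 * G.e := by
      field_simp
      ring
    rw [e4]
    have := mul_le_mul_of_nonneg_right g3 (by linarith : 0 ≤ G.lg)
    linarith

end

end Vale.Agent.P076N.FL
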